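import Mathlib
import Vale.Agent.P262.H395.Fib
import Vale.Agent.P262.H493.Gauss

/-!
# P262, block RMAX, part 1: projections, chi-square moments and tails
-/

set_option linter.all false

open MeasureTheory Set Filter ProbabilityTheory
open scoped ENNReal NNReal Topology RealInnerProductSpace

namespace Vale.Agent.P262.H502

open Vale.Agent.P262.H395

/-! ### one dimension -/

lemma mom_one : ∫⁻ x : ℝ, ENNReal.ofReal (Real.exp (3 / 8 * x ^ 2)) ∂(gaussianReal 0 1) = 2 := by
  rw [gaussianReal_of_var_ne_zero 0 one_ne_zero,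
    lintegral_withDensity_eq_lintegral_mul _ (measurable_gaussianPDF 0 1) (by fun_prop)]
  have h1 : ∀ x : ℝ, (gaussianPDF 0 1 * fun x : ℝ => ENNReal.ofReal (Real.exp (3 / 8 * x ^ 2))) x =
      ENNReal.ofReal ((Real.sqrt (2 * Real.pi))⁻¹ * Real.exp (-(1 / 8) * x ^ 2)) := by
    intro x
    simp only [Pi.mul_apply, gaussianPDF, gaussianPDFReal, NNReal.coe_one, mul_one, sub_zero]
    rw [← ENNReal.ofReal_mul (by positivity), mul_assoc, ← Real.exp_add]
    congr 3
    ring
  simp_rw [h1]
  rw [← ofReal_integral_eq_lintegral_ofReal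
    ((integrable_exp_neg_mul_sq (by norm_num : (0 : ℝ) < 1 / 8)).const_mul _)
    (Eventually.of_forall fun x => by positivity), integral_const_mul, integral_gaussian]
  have h2 : Real.sqrt (Real.pi / (1 / 8)) = 2 * Real.sqrt (2 * Real.pi) := by
    rw [show Real.pi / (1 / 8) = 2 ^ 2 * (2 * Real.pi) by ring, Real.sqrt_mul (by norm_num),
      Real.sqrt_sq (by norm_num)]
  rw [h2]
  have h3 : (Real.sqrt (2 * Real.pi)) ≠ 0 := by positivity
  rw [show (Real.sqrt (2 * Real.pi))⁻¹ * (2 * Real.sqrt (2 * Real.pi)) = 2 by field_simp]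
  norm_num

lemma mom_pi : ∀ n : ℕ, ∫⁻ y : Fin n → ℝ, ENNReal.ofReal (Real.exp (3 / 8 * ∑ i, y i ^ 2))
    ∂(Vale.Agent.P262.H493.gB n) = 2 ^ n := by
  intro n
  induction n with
  | zero => simp
  | succ n ih =>
    rw [Vale.Agent.P262.H493.gB_cons _ (by fun_prop)]
    have h1 : ∀ (s : ℝ) (x : Fin n → ℝ),
        ENNReal.ofReal (Real.exp (3 / 8 * ∑ i, (Fin.cons s x : Fin (n + 1) → ℝ) i ^ 2)) =
        ENNReal.ofReal (Real.exp (3 / 8 * s ^ 2)) *
          ENNReal.ofReal (Real.exp (3 / 8 * ∑ i, x i ^ 2)) := by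
      intro s x
      rw [← ENNReal.ofReal_mul (Real.exp_pos _).le, ← Real.exp_add, Fin.sum_univ_succ]
      simp only [Fin.cons_zero, Fin.cons_succ]
      congr 2
      ring
    simp_rw [h1]
    have h2 : ∀ s : ℝ, ∫⁻ x : Fin n → ℝ, ENNReal.ofReal (Real.exp (3 / 8 * s ^ 2)) *
        ENNReal.ofReal (Real.exp (3 / 8 * ∑ i, x i ^ 2)) ∂(Vale.Agent.P262.H493.gB n) =
        ENNReal.ofReal (Real.exp (3 / 8 * s ^ 2)) * 2 ^ n := by
      intro s
      rw [lintegral_const_mul _ (by fun_prop), ih]
    simp_rw [h2]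
    rw [lintegral_mul_const _ (by fun_prop), mom_one, pow_succ, mul_comm]

variable {E : Type*} [NormedAddCommGroup E] [InnerProductSpace ℝ E] [FiniteDimensional ℝ E]
  [MeasurableSpace E] [BorelSpace E]

lemma mom_norm : ∫⁻ z : E, ENNReal.ofReal (Real.exp (3 / 8 * ‖z‖ ^ 2)) ∂(stdGaussian E) =
    2 ^ (Module.finrank ℝ E) := by
  set c := stdOrthonormalBasis ℝ E with hc
  rw [stdGaussian_eq_map_pi_orthonormalBasis c, lintegral_map (by fun_prop) (by fun_prop)]
  have h1 : ∀ y : Fin (Module.finrank ℝ E) → ℝ, ‖∑ i, y i • c i‖ ^ 2 = ∑ i, y i ^ 2 := by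
    intro y
    have h1 := c.sum_sq_norm_inner_right (∑ i, y i • c i)
    rw [← h1]
    refine Finset.sum_congr rfl fun i _ => ?_
    have h2 : ⟪c i, ∑ i, y i • c i⟫ = y i := by
      rw [inner_sum]
      simp [inner_smul_right, orthonormal_iff_ite.mp c.orthonormal]
    rw [h2, Real.norm_eq_abs, sq_abs]
  simp_rw [h1]
  exact mom_pi _

/-- the image of the standard Gaussian law under an orthogonal projection -/
lemma map_proj (F : Submodule ℝ E) :
    (stdGaussian E).map (fun z => (F.orthogonalProjection z : F)) = stdGaussian F := by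
  have hm : Measurable (fun z : E => (F.orthogonalProjection z : F)) :=
    F.orthogonalProjection.continuous.measurable
  haveI : IsProbabilityMeasure ((stdGaussian E).map (fun z => (F.orthogonalProjection z : F))) :=
    Measure.isProbabilityMeasure_map hm.aemeasurable
  apply Measure.ext_of_charFun
  funext t
  rw [charFun_stdGaussian, charFun_apply, integral_map hm.aemeasurable (by fun_prop)]
  have h1 : ∀ z : E, ⟪(F.orthogonalProjection z : F), t⟫ = ⟪z, (t : E)⟫ := by
    intro z
    exact F.inner_orthogonalProjection_eq_of_mem_right t z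
  simp_rw [h1]
  have h2 := charFun_stdGaussian (E := E) (t : E)
  rw [charFun_apply] at h2
  rw [h2]
  rfl

/-- exponential moment of the squared norm of a projection -/
lemma mom_proj (F : Submodule ℝ E) :
    ∫⁻ z : E, ENNReal.ofReal (Real.exp (3 / 8 * ‖F.starProjection z‖ ^ 2)) ∂(stdGaussian E) =
      2 ^ (Module.finrank ℝ F) := by
  rw [← mom_norm (E := F), ← map_proj F,
    lintegral_map (by fun_prop) F.orthogonalProjection.continuous.measurable]
  rfl

/-- tails of the squared norm of a projection -/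
lemma tail_proj (F : Submodule ℝ E) (t : ℝ) :
    stdGaussian E {z | t < ‖F.starProjection z‖ ^ 2} ≤
      2 ^ (Module.finrank ℝ F) * ENNReal.ofReal (Real.exp (-(3 / 8 * t))) := by
  have hm : MeasurableSet {z : E | t < ‖F.starProjection z‖ ^ 2} :=
    measurableSet_lt measurable_const (by fun_prop)
  rw [← mom_proj F, ← lintegral_mul_const _ (by fun_prop), ← lintegral_indicator_one hm]
  refine lintegral_mono fun z => ?_
  by_cases hz : z ∈ {z : E | t < ‖F.starProjection z‖ ^ 2}
  · rw [indicator_of_mem hz, ← ENNReal.ofReal_mul (Real.exp_pos _).le, ← Real.exp_add]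
    rw [Pi.one_apply, ← ENNReal.ofReal_one]
    refine ENNReal.ofReal_le_ofReal (Real.one_le_exp ?_)
    have : t < ‖F.starProjection z‖ ^ 2 := hz
    linarith
  · rw [indicator_of_notMem hz]
    exact bot_le

/-! ### projections on nested spaces -/

lemma proj_sub {W V : Submodule ℝ E} (h : W ≤ V) (z : E) :
    (Wᗮ ⊓ V).starProjection z = V.starProjection z - W.starProjection z := by
  refine Submodule.eq_starProjection_of_mem_of_inner_eq_zero (K := (Wᗮ ⊓ V : Submodule ℝ E)) ?_ ?_
  · refine ⟨?_, ?_⟩
    · refine (Submodule.mem_orthogonal _ _).mpr ?_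
      intro w hw
      have h1 : ⟪w, V.starProjection z⟫ = ⟪w, z⟫ := by
        rw [← Submodule.inner_starProjection_left_eq_right,
          Submodule.starProjection_eq_self_iff.mpr (h hw)]
      have h2 : ⟪w, W.starProjection z⟫ = ⟪w, z⟫ := by
        rw [← Submodule.inner_starProjection_left_eq_right,
          Submodule.starProjection_eq_self_iff.mpr hw]
      rw [inner_sub_right, h1, h2, sub_self]
    · exact Submodule.sub_mem _ (Submodule.starProjection_apply_mem V z)
        (h (Submodule.starProjection_apply_mem W z))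
  · intro w hw
    have h1 : ⟪V.starProjection z, w⟫ = ⟪z, w⟫ := by
      rw [Submodule.inner_starProjection_left_eq_right,
        Submodule.starProjection_eq_self_iff.mpr hw.2]
    have h2 : ⟪W.starProjection z, w⟫ = 0 := by
      have := (Submodule.mem_orthogonal _ _).mp hw.1 _ (Submodule.starProjection_apply_mem W z)
      exact this
    rw [inner_sub_left, inner_sub_left, h1, h2]
    ring

lemma proj_le_of_le {W V : Submodule ℝ E} (h : W ≤ V) (z : E) :
    V.starProjection (W.starProjection z) = W.starProjection z :=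
  Submodule.starProjection_eq_self_iff.mpr (h (Submodule.starProjection_apply_mem W z))

lemma proj_comp_of_le {W V : Submodule ℝ E} (h : W ≤ V) (z : E) :
    W.starProjection (V.starProjection z) = W.starProjection z := by
  have h1 : W.starProjection (V.starProjection z - z) = 0 := by
    apply proj_eq_zero
    have h2 : z - V.starProjection z ∈ Vᗮ := Submodule.sub_starProjection_mem_orthogonal z
    have h3 : z - V.starProjection z ∈ Wᗮ := Submodule.orthogonal_le h h2
    have := Submodule.neg_mem _ h3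
    rwa [neg_sub] at this
  rw [map_sub, sub_eq_zero] at h1
  exact h1

/-- the squared norm of the projection along a fibre -/
lemma norm_proj_mix {W V : Submodule ℝ E} (h : W ≤ V) (x z : E) :
    ‖V.starProjection (mix W x z)‖ ^ 2 =
      ‖W.starProjection x‖ ^ 2 + ‖(Wᗮ ⊓ V).starProjection z‖ ^ 2 := by
  have h1 : V.starProjection (mix W x z) =
      W.starProjection x + (Wᗮ ⊓ V).starProjection z := by
    unfold mix
    rw [proj_sub h, map_add, map_sub, proj_le_of_le h, proj_le_of_le h]
  rw [h1]
  have h2 : ⟪W.starProjection x, (Wᗮ ⊓ V).starProjection z⟫ = 0 := by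
    have h3 : (Wᗮ ⊓ V).starProjection z ∈ Wᗮ :=
      (Submodule.starProjection_apply_mem (Wᗮ ⊓ V : Submodule ℝ E) z).1
    exact (Submodule.mem_orthogonal _ _).mp h3 _ (Submodule.starProjection_apply_mem W x)
  rw [norm_add_sq_real, h2]
  ring

lemma norm_proj_mix_of_ge {W V : Submodule ℝ E} (h : V ≤ W) (x z : E) :
    ‖V.starProjection (mix W x z)‖ ^ 2 = ‖V.starProjection x‖ ^ 2 := by
  rw [← proj_comp_of_le h (mix W x z), starProjection_mix, proj_comp_of_le h]

lemma finrank_inf {W V : Submodule ℝ E} (h : W ≤ V) :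
    Module.finrank ℝ W + Module.finrank ℝ (Wᗮ ⊓ V : Submodule ℝ E) = Module.finrank ℝ V :=
  Submodule.finrank_add_inf_finrank_orthogonal h

end Vale.Agent.P262.H502
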