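import Mathlib
import Vale.Agent.P262.H44.Tree

/-!
# P262, weighted star tree, part 1: regular triples, log-concavity relative to the Gaussian density

`RegW Θ h0 hT h1` is `H44.RegG` with the two convexity conditions required for the functions
multiplied by the Gaussian density `GG x = exp (-‖x‖²/2)`; so the tilts `exp (c ‖P x‖²)`, `c ≤ 1/2`,
are allowed.
-/

set_option linter.all false

open MeasureTheory Set Filter ProbabilityTheory
open scoped ENNReal NNReal Topology RealInnerProductSpace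

namespace Vale.Agent.P262.H502

open Vale.Agent.P262.H493 hiding fib
open Vale.Agent.P262.H395
open Vale.Agent.P262.H44

variable {E : Type*} [NormedAddCommGroup E] [InnerProductSpace ℝ E] [FiniteDimensional ℝ E]
  [MeasurableSpace E] [BorelSpace E]

/-- the Gaussian density without its constant -/
noncomputable def GG (x : E) : ℝ≥0∞ := ENNReal.ofReal (Real.exp (-‖x‖ ^ 2 / 2))

lemma GG_ne_zero (x : E) : GG x ≠ 0 := by
  unfold GG
  simp [Real.exp_pos]

lemma GG_ne_top (x : E) : GG x ≠ ⊤ := ENNReal.ofReal_ne_top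

lemma sq_norm_conv (x y : E) {s t : ℝ} (hs : 0 ≤ s) (ht : 0 ≤ t) (hst : s + t = 1) :
    ‖s • x + t • y‖ ^ 2 ≤ s * ‖x‖ ^ 2 + t * ‖y‖ ^ 2 := by
  have h1 : ‖s • x + t • y‖ ≤ s * ‖x‖ + t * ‖y‖ := by
    refine (norm_add_le _ _).trans ?_
    rw [norm_smul, norm_smul, Real.norm_of_nonneg hs, Real.norm_of_nonneg ht]
  have h2 : ‖s • x + t • y‖ ^ 2 ≤ (s * ‖x‖ + t * ‖y‖) ^ 2 :=
    pow_le_pow_left₀ (norm_nonneg _) h1 2
  have h3 : t = 1 - s := by linarith
  subst h3
  nlinarith [mul_nonneg hs ht, sq_nonneg (‖x‖ - ‖y‖)]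

lemma ofReal_exp_rpow (a s : ℝ) :
    ENNReal.ofReal (Real.exp a) ^ s = ENNReal.ofReal (Real.exp (s * a)) := by
  rw [ENNReal.ofReal_rpow_of_pos (Real.exp_pos _), ← Real.exp_mul, mul_comm]

lemma GG_lc : LogConc (GG (E := E)) := by
  intro x y s t hs ht hst
  unfold GG
  rw [ofReal_exp_rpow, ofReal_exp_rpow, ← ENNReal.ofReal_mul (Real.exp_pos _).le, ← Real.exp_add]
  refine ENNReal.ofReal_le_ofReal (Real.exp_le_exp.mpr ?_)
  have := sq_norm_conv x y hs.le ht.le hst
  nlinarith

/-- regular triples, convexity relative to the Gaussian density -/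
structure RegW (Θ : ℝ) (h0 hT h1 : E → ℝ≥0∞) : Prop where
  m0 : Measurable h0
  mT : Measurable hT
  m1 : Measurable h1
  le1 : ∀ x, h1 x ≤ hT x
  leT : ∀ x, hT x ≤ h0 x
  lc : LogConc fun x => GG x * h0 x
  mix : ∀ x y, (GG x * h0 x) ^ (1 - Θ) * (GG y * h1 y) ^ Θ ≤
    GG ((1 - Θ) • x + Θ • y) * hT ((1 - Θ) • x + Θ • y)
  usc : UpperSemicontinuous h1
  bdd : ∃ M : ℝ≥0∞, M ≠ ⊤ ∧ ∀ x, h0 x ≤ M

lemma GG_split (W : Submodule ℝ E) (z : E) :
    GG z = GG (W.starProjection z) * GG (z - W.starProjection z) := by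
  unfold GG
  rw [← ENNReal.ofReal_mul (Real.exp_pos _).le, ← Real.exp_add]
  congr 2
  have h3 : ⟪W.starProjection z, z - W.starProjection z⟫ = 0 := by
    rw [inner_sub_right, Submodule.inner_starProjection_left_eq_right,
      Submodule.inner_starProjection_left_eq_right]
    rw [proj_proj, sub_self]
  have h4 := norm_add_sq_real (W.starProjection z) (z - W.starProjection z)
  rw [h3, add_sub_cancel] at h4
  rw [h4]
  ring

lemma mix_sub_proj (W : Submodule ℝ E) (x z : E) :
    Vale.Agent.P262.H395.mix W x z - W.starProjection (Vale.Agent.P262.H395.mix W x z) =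
      z - W.starProjection z := by
  rw [starProjection_mix]
  unfold Vale.Agent.P262.H395.mix
  abel

/-- change of the Gaussian factor along a fibre -/
lemma GG_mix (W : Submodule ℝ E) (x z : E) (a : ℝ≥0∞) :
    GG z * a = (GG (W.starProjection x))⁻¹ *
      (GG (W.starProjection z) * (GG (Vale.Agent.P262.H395.mix W x z) * a)) := by
  rw [GG_split W z, GG_split W (Vale.Agent.P262.H395.mix W x z), mix_sub_proj, starProjection_mix]
  have h1 : (GG (W.starProjection x))⁻¹ * GG (W.starProjection x) = 1 :=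
    ENNReal.inv_mul_cancel (GG_ne_zero _) (GG_ne_top _)
  calc GG (W.starProjection z) * GG (z - W.starProjection z) * a
      = ((GG (W.starProjection x))⁻¹ * GG (W.starProjection x)) *
        (GG (W.starProjection z) * GG (z - W.starProjection z) * a) := by rw [h1, one_mul]
    _ = _ := by ring

lemma rpow_const_mul {c a b : ℝ≥0∞} {s t : ℝ} (hs : 0 < s) (ht : 0 < t) (hst : s + t = 1) :
    (c * a) ^ s * (c * b) ^ t = c * (a ^ s * b ^ t) := by
  rw [ENNReal.mul_rpow_of_nonneg _ _ hs.le, ENNReal.mul_rpow_of_nonneg _ _ ht.le]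
  calc c ^ s * a ^ s * (c ^ t * b ^ t) = (c ^ s * c ^ t) * (a ^ s * b ^ t) := by ring
    _ = _ := by rw [rpow_mul_rpow_self hs ht hst]

/-- restriction to a fibre -/
theorem RegW.comp_mix {Θ : ℝ} (hΘ : 0 < Θ) (hΘ1 : Θ < 1) {h0 hT h1 : E → ℝ≥0∞}
    (h : RegW Θ h0 hT h1) (W : Submodule ℝ E)
    (x : E) : RegW Θ (fun z => h0 (Vale.Agent.P262.H395.mix W x z))
      (fun z => hT (Vale.Agent.P262.H395.mix W x z))
      (fun z => h1 (Vale.Agent.P262.H395.mix W x z)) where
  m0 := h.m0.comp (measurable_mix_right W x)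
  mT := h.mT.comp (measurable_mix_right W x)
  m1 := h.m1.comp (measurable_mix_right W x)
  le1 := fun z => h.le1 _
  leT := fun z => h.leT _
  lc := by
    intro z z' s t hs ht hst
    have h2 := h.lc (Vale.Agent.P262.H395.mix W x z) (Vale.Agent.P262.H395.mix W x z') s t hs ht hst
    rw [mix_lin W x s t hst] at h2
    have h3 := GG_lc (W.starProjection z) (W.starProjection z') s t hs ht hst
    rw [← map_smul, ← map_smul, ← map_add] at h3
    show (GG z * h0 _) ^ s * (GG z' * h0 _) ^ t ≤ GG (s • z + t • z') * h0 _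
    rw [GG_mix W x z, GG_mix W x z', GG_mix W x (s • z + t • z'), rpow_const_mul hs ht hst]
    refine mul_le_mul' le_rfl ?_
    rw [ENNReal.mul_rpow_of_nonneg _ _ hs.le, ENNReal.mul_rpow_of_nonneg (GG (W.starProjection z')) _ ht.le]
    calc _ = (GG (W.starProjection z) ^ s * GG (W.starProjection z') ^ t) *
          ((GG (Vale.Agent.P262.H395.mix W x z) * h0 (Vale.Agent.P262.H395.mix W x z)) ^ s *
          (GG (Vale.Agent.P262.H395.mix W x z') * h0 (Vale.Agent.P262.H395.mix W x z')) ^ t) := by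
          ring
      _ ≤ _ := mul_le_mul' h3 h2
  mix := by
    intro z z'
    have h1Θ : 0 < 1 - Θ := by linarith
    have h2 := h.mix (Vale.Agent.P262.H395.mix W x z) (Vale.Agent.P262.H395.mix W x z')
    rw [mix_lin W x (1 - Θ) Θ (by ring)] at h2
    have h3 := GG_lc (W.starProjection z) (W.starProjection z') (1 - Θ) Θ h1Θ hΘ (by ring)
    rw [← map_smul, ← map_smul, ← map_add] at h3
    rw [GG_mix W x z, GG_mix W x z', GG_mix W x ((1 - Θ) • z + Θ • z'),
      rpow_const_mul h1Θ hΘ (by ring)]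
    refine mul_le_mul' le_rfl ?_
    rw [ENNReal.mul_rpow_of_nonneg _ _ h1Θ.le, ENNReal.mul_rpow_of_nonneg (GG (W.starProjection z')) _ hΘ.le]
    calc _ = (GG (W.starProjection z) ^ (1 - Θ) * GG (W.starProjection z') ^ Θ) *
          ((GG (Vale.Agent.P262.H395.mix W x z) * h0 (Vale.Agent.P262.H395.mix W x z)) ^ (1 - Θ) *
          (GG (Vale.Agent.P262.H395.mix W x z') * h1 (Vale.Agent.P262.H395.mix W x z')) ^ Θ) := by
          ring
      _ ≤ _ := mul_le_mul' h3 h2
  usc := by
    have hc : Continuous fun z => Vale.Agent.P262.H395.mix W x z := by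
      unfold Vale.Agent.P262.H395.mix
      fun_prop
    exact usc_comp h.usc hc
  bdd := by
    obtain ⟨M, hM, hb⟩ := h.bdd
    exact ⟨M, hM, fun z => hb _⟩

/-- multiplication by the indicator of a closed convex set -/
theorem RegW.indicator {Θ : ℝ} (hΘ : 0 < Θ) (hΘ1 : Θ < 1) {h0 hT h1 : E → ℝ≥0∞}
    (h : RegW Θ h0 hT h1) {C : Set E} (hC : IsClosed C) (hCc : Convex ℝ C) :
    RegW Θ (C.indicator h0) (C.indicator hT) (C.indicator h1) where
  m0 := h.m0.indicator hC.measurableSet
  mT := h.mT.indicator hC.measurableSet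
  m1 := h.m1.indicator hC.measurableSet
  le1 := fun x => indicator_le_indicator (h.le1 x)
  leT := fun x => indicator_le_indicator (h.leT x)
  lc := by
    intro x y s t hs ht hst
    show (GG x * C.indicator h0 x) ^ s * (GG y * C.indicator h0 y) ^ t ≤
      GG (s • x + t • y) * C.indicator h0 (s • x + t • y)
    by_cases hx : x ∈ C
    · by_cases hy : y ∈ C
      · rw [indicator_of_mem hx, indicator_of_mem hy,
          indicator_of_mem (hCc hx hy hs.le ht.le hst)]
        exact h.lc x y s t hs ht hst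
      · rw [indicator_of_notMem hy, mul_zero, ENNReal.zero_rpow_of_pos ht, mul_zero]
        exact bot_le
    · rw [indicator_of_notMem hx, mul_zero, ENNReal.zero_rpow_of_pos hs, zero_mul]
      exact bot_le
  mix := by
    intro x y
    have h1Θ : 0 < 1 - Θ := by linarith
    by_cases hx : x ∈ C
    · by_cases hy : y ∈ C
      · rw [indicator_of_mem hx, indicator_of_mem hy,
          indicator_of_mem (hCc hx hy h1Θ.le hΘ.le (by ring))]
        exact h.mix x y
      · rw [indicator_of_notMem hy, mul_zero, ENNReal.zero_rpow_of_pos hΘ, mul_zero]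
        exact bot_le
    · rw [indicator_of_notMem hx, mul_zero, ENNReal.zero_rpow_of_pos h1Θ, zero_mul]
      exact bot_le
  usc := by
    intro x r hr
    by_cases hx : x ∈ C
    · rw [indicator_of_mem hx] at hr
      filter_upwards [h.usc x r hr] with y hy
      exact lt_of_le_of_lt (indicator_le_self' (fun _ _ => bot_le) y) hy
    · rw [indicator_of_notMem hx] at hr
      filter_upwards [hC.isOpen_compl.mem_nhds hx] with y hy
      rw [indicator_of_notMem hy]
      exact hr
  bdd := by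
    obtain ⟨M, hM, hb⟩ := h.bdd
    exact ⟨M, hM, fun z => (indicator_le_self' (fun _ _ => bot_le) z).trans (hb z)⟩

lemma norm_SC_sq {N : ℕ} (c : OrthonormalBasis (Fin N) ℝ E) (y : Fin N → ℝ) :
    ‖SC c y‖ ^ 2 = ∑ i, y i ^ 2 := by
  have h1 := c.sum_sq_norm_inner_right (SC c y)
  rw [← h1]
  refine Finset.sum_congr rfl fun i _ => ?_
  have h2 : ⟪c i, SC c y⟫ = y i := by
    unfold SC
    rw [inner_sum]
    simp [inner_smul_right, orthonormal_iff_ite.mp c.orthonormal]
  rw [h2, Real.norm_eq_abs, sq_abs]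

/-- the density in coordinates -/
lemma PP_eq_GG {N : ℕ} (c : OrthonormalBasis (Fin N) ℝ E) (y : Fin N → ℝ) :
    PP y = ENNReal.ofReal ((Real.sqrt (2 * Real.pi))⁻¹ ^ N) * GG (SC c y) := by
  unfold PP pr GG
  rw [← ENNReal.ofReal_mul (by positivity)]
  congr 1
  simp only [gaussianPDFReal, NNReal.coe_one, mul_one, sub_zero]
  rw [Finset.prod_mul_distrib, Finset.prod_const, Finset.card_univ, Fintype.card_fin,
    ← Real.exp_sum, norm_SC_sq]
  congr 2
  rw [← Finset.sum_div, Finset.sum_neg_distrib]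

/-- coordinate form of a regular triple -/
theorem RegW.coord {Θ : ℝ} (hΘ : 0 < Θ) (hΘ1 : Θ < 1) {h0 hT h1 : E → ℝ≥0∞}
    (h : RegW Θ h0 hT h1) {N : ℕ}
    (c : OrthonormalBasis (Fin N) ℝ E) :
    Reg Θ (fun y => PP y * h0 (SC c y)) (fun y => PP y * hT (SC c y))
      (fun y => PP y * h1 (SC c y)) where
  m0 := mPP (h.m0.comp (continuous_SC c).measurable)
  mT := mPP (h.mT.comp (continuous_SC c).measurable)
  m1 := mPP (h.m1.comp (continuous_SC c).measurable)
  le1 := fun y => mul_le_mul' le_rfl (h.le1 _)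
  leT := fun y => mul_le_mul' le_rfl (h.leT _)
  lc := by
    intro x y s t hs ht hst
    show (PP x * h0 (SC c x)) ^ s * (PP y * h0 (SC c y)) ^ t ≤
      PP (s • x + t • y) * h0 (SC c (s • x + t • y))
    rw [PP_eq_GG c x, PP_eq_GG c y, PP_eq_GG c (s • x + t • y), mul_assoc, mul_assoc, mul_assoc,
      rpow_const_mul hs ht hst, SC_lin]
    refine mul_le_mul' le_rfl ?_
    exact h.lc _ _ s t hs ht hst
  mix := by
    intro x y
    have h1Θ : 0 < 1 - Θ := by linarith
    show (PP x * h0 (SC c x)) ^ (1 - Θ) * (PP y * h1 (SC c y)) ^ Θ ≤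
      PP ((1 - Θ) • x + Θ • y) * hT (SC c ((1 - Θ) • x + Θ • y))
    rw [PP_eq_GG c x, PP_eq_GG c y, PP_eq_GG c ((1 - Θ) • x + Θ • y), mul_assoc, mul_assoc,
      mul_assoc, rpow_const_mul h1Θ hΘ (by ring), SC_lin]
    refine mul_le_mul' le_rfl ?_
    exact h.mix _ _
  usc := by
    obtain ⟨M, hM, hb⟩ := h.bdd
    refine usc_mul continuous_PP (fun y => ENNReal.ofReal_ne_top)
      (usc_comp h.usc (continuous_SC c)) fun y => ?_
    exact ne_top_of_le_ne_top hM ((h.le1 _).trans ((h.leT _).trans (hb _)))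
  dom := by
    obtain ⟨M, hM, hb⟩ := h.bdd
    refine ⟨M, ENNReal.ofReal ((Real.sqrt (2 * Real.pi))⁻¹), gaussianPDF 0 1, hM,
      ENNReal.ofReal_ne_top, measurable_gaussianPDF 0 1, ?_, ?_, ?_⟩
    · intro s
      rw [gpdf_eq]
      calc _ ≤ ENNReal.ofReal ((Real.sqrt (2 * Real.pi))⁻¹) * 1 := by
            gcongr
            exact ee_le_one s
        _ = _ := mul_one _
    · rw [lintegral_gaussianPDF_eq_one 0 one_ne_zero]
      exact ENNReal.one_ne_top
    · intro y
      rw [← PP_eq, mul_comm M]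
      gcongr
      exact hb _

/-- root fat ⇒ inequality on the whole space -/
theorem RegW.leaf0 {Θ : ℝ} (hΘ : 0 < Θ) (hΘ1 : Θ ≤ 1 / 88) {h0 hT h1 : E → ℝ≥0∞}
    (h : RegW Θ h0 hT h1)
    (hroot : ENNReal.ofReal (1 / 8) * ∫⁻ x, h0 x ∂stdGaussian E ≤ ∫⁻ x, h1 x ∂stdGaussian E) :
    IneqG (ENNReal.ofReal (88 * Θ)) h0 hT h1 univ := by
  set c := stdOrthonormalBasis ℝ E with hc
  have hreg := h.coord hΘ (by linarith) c
  rw [lintegral_SC c h.m0, lintegral_SC c h.m1] at hroot
  have key := star_abstract8 hΘ hΘ1 hreg (D := fun _ => ∅) (fun _ => MeasurableSet.empty)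
    (fun i x y _ hx => hx.elim) (fun i x hx => hx.elim) hroot
  have hN : NN (fun _ : Fin (Module.finrank ℝ E) => (∅ : Set (Fin (Module.finrank ℝ E) → ℝ)))
      = univ := by
    ext x; simp [NN]
  rw [hN, Measure.restrict_univ] at key
  unfold IneqG
  rw [Measure.restrict_univ, lintegral_SC c h.m0, lintegral_SC c h.mT, lintegral_SC c h.m1]
  exact key

/-- root fat ⇒ inequality on the thin labels of one block -/
theorem RegW.block0 {Θ : ℝ} (hΘ : 0 < Θ) (hΘ1 : Θ ≤ 1 / 88) {h0 hT h1 : E → ℝ≥0∞}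
    (h : RegW Θ h0 hT h1) (W : Submodule ℝ E)
    (hroot : ENNReal.ofReal (1 / 8) * ∫⁻ x, h0 x ∂stdGaussian E ≤ ∫⁻ x, h1 x ∂stdGaussian E) :
    IneqG (ENNReal.ofReal (88 * Θ)) h0 hT h1
      {x | fib W h1 x < ENNReal.ofReal (1 / 4) * fib W h0 x} := by
  set R : Set E := {x | fib W h1 x < ENNReal.ofReal (1 / 4) * fib W h0 x} with hR
  have hRm : MeasurableSet R :=
    measurableSet_lt (measurable_fib h.m1) ((measurable_fib h.m0).const_mul _)
  obtain ⟨N, hN⟩ : ∃ N, Module.finrank ℝ E = N := ⟨_, rfl⟩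
  obtain ⟨c, lev, hlev, hcl⟩ := adapted' hN (fun _ : Fin 1 => W) (fun _ _ _ => le_rfl)
  have hcW : ∀ j, (lev j ≤ 0 → c j ∈ W) ∧ (¬ lev j ≤ 0 → c j ∈ Wᗮ) := by
    intro j
    have := hcl 0 j
    simp only [Fin.val_eq_zero, Fin.coe_ofNat_eq_mod, Nat.zero_mod] at this
    exact ⟨this.1, fun hj => this.2 (not_le.mp hj)⟩
  have hreg := h.coord hΘ (by linarith) c
  by_cases hex : ∃ k : Fin N, lev k ≤ 0
  swap
  · -- `W = ⊥`
    push Not at hex
    have hall : ∀ x : E, x ∈ Wᗮ := by
      intro x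
      rw [← c.sum_repr' x]
      refine Submodule.sum_mem _ fun j _ => Submodule.smul_mem _ _ ?_
      exact (hcW j).2 (not_le.mpr (hex j))
    have hRc : R = univ ∨ R = ∅ := by
      by_cases h0R : (0 : E) ∈ R
      · left
        ext x
        simp only [mem_univ, iff_true]
        have e1 := inv_fib W h1 0 x (hall x)
        have e0 := inv_fib W h0 0 x (hall x)
        rw [zero_add] at e1 e0
        simp only [hR, mem_setOf_eq] at h0R ⊢
        rw [e1, e0]; exact h0R
      · right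
        ext x
        simp only [mem_empty_iff_false, iff_false]
        intro hx
        apply h0R
        have e1 := inv_fib W h1 0 x (hall x)
        have e0 := inv_fib W h0 0 x (hall x)
        rw [zero_add] at e1 e0
        simp only [hR, mem_setOf_eq] at hx ⊢
        rw [← e1, ← e0]; exact hx
    rcases hRc with hu | he
    · rw [hu]; exact h.leaf0 hΘ hΘ1 hroot
    · rw [he]; simp [IneqG]
  -- the last index of `W`
  obtain ⟨k, hk, hkmax⟩ : ∃ k : Fin N, lev k ≤ 0 ∧ ∀ j : Fin N, lev j ≤ 0 ↔ j ≤ k := by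
    classical
    obtain ⟨k0, hk0⟩ := hex
    obtain ⟨k, hk, hkm⟩ := Finset.exists_maximal
      (s := Finset.univ.filter fun k' : Fin N => lev k' ≤ 0)
      ⟨k0, Finset.mem_filter.mpr ⟨Finset.mem_univ _, hk0⟩⟩
    have hk1 : lev k ≤ 0 := (Finset.mem_filter.mp hk).2
    refine ⟨k, hk1, fun j => ⟨fun hj => ?_, fun hj => (hlev hj).trans hk1⟩⟩
    by_contra hlt
    push Not at hlt
    have := hkm (Finset.mem_filter.mpr ⟨Finset.mem_univ _, hj⟩) hlt.le
    exact absurd this (not_le.mpr hlt)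
  have hSm : Measurable (SC c) := (continuous_SC c).measurable
  -- projections
  have hproj : ∀ x y : Fin N → ℝ, (∀ j ≤ k, x j = y j) →
      W.starProjection (SC c x) = W.starProjection (SC c y) := by
    intro x y hxy
    refine proj_congr_of (P := fun j => lev j ≤ 0) (fun j hj => (hcW j).2 hj) fun j hj => ?_
    exact hxy j ((hkmax j).mp hj)
  have hmerge : ∀ x z : Fin N → ℝ,
      SC c (merge k x z) = Vale.Agent.P262.H395.mix W (SC c x) (SC c z) := by
    intro x z
    have m1 : W.starProjection (SC c (merge k x z)) = W.starProjection (SC c x) :=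
      hproj _ _ fun j hj => by simp [merge, hj]
    have m2 : SC c (merge k x z) - SC c z ∈ W := by
      have : SC c (merge k x z) - SC c z = ∑ j, (merge k x z j - z j) • c j := by
        unfold SC
        simp only [sub_smul, Finset.sum_sub_distrib]
      rw [this]
      refine Submodule.sum_mem _ fun j _ => ?_
      by_cases hj : j ≤ k
      · exact Submodule.smul_mem _ _ ((hcW j).1 ((hkmax j).mpr hj))
      · have : merge k x z j - z j = 0 := by simp [merge, hj]
        rw [this, zero_smul]; exact Submodule.zero_mem _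
    have p2 := (Submodule.starProjection_eq_self_iff (K := W)).mpr m2
    rw [map_sub, m1] at p2
    unfold Vale.Agent.P262.H395.mix
    rw [sub_eq_sub_iff_add_eq_add] at p2
    rw [add_sub, p2]
    abel
  have hmg : ∀ f : E → ℝ≥0∞, Measurable f → ∀ x : Fin N → ℝ,
      ∫⁻ z, f (SC c (merge k x z)) ∂(gB N) = fib W f (SC c x) := by
    intro f hf x
    unfold fib
    have e := (SC_mp c).lintegral_comp (hf.comp (measurable_mix_right W (SC c x)))
    simp only [Function.comp] at e
    rw [← e]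
    refine lintegral_congr fun z => ?_
    rw [hmerge]
  set D : Fin N → Set (Fin N → ℝ) := fun i => {y | i = k ∧ SC c y ∉ R} with hD
  have hDm : ∀ i, MeasurableSet (D i) := by
    intro i
    by_cases hi : i = k
    · have : D i = SC c ⁻¹' Rᶜ := by
        ext y; simp [hD, hi]
      rw [this]
      exact hSm hRm.compl
    · have : D i = ∅ := by
        ext y; simp [hD, hi]
      rw [this]; exact MeasurableSet.empty
  have hRinv : ∀ x y : Fin N → ℝ, (∀ j ≤ k, x j = y j) → SC c x ∈ R → SC c y ∈ R := by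
    intro x y hxy hx
    have hp := hproj x y hxy
    simp only [hR, mem_setOf_eq] at hx ⊢
    rw [← (inv_fib W h1).eq_of hp, ← (inv_fib W h0).eq_of hp]
    exact hx
  have hcyl : Cyl D := by
    rintro i x y hxy ⟨hi, hx⟩
    refine ⟨hi, fun hy => hx ?_⟩
    subst hi
    exact hRinv y x (fun j hj => (hxy j hj).symm) hy
  have hdeep : DeepOK8 D (fun y => PP y * h0 (SC c y)) (fun y => PP y * h1 (SC c y)) := by
    rintro i x ⟨hi, hx⟩
    subst hi
    obtain ⟨κ, hκ⟩ := mg_gauss N i x
    rw [hκ (fun y => h0 (SC c y)) (h.m0.comp hSm), hκ (fun y => h1 (SC c y)) (h.m1.comp hSm),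
      hmg h0 h.m0, hmg h1 h.m1]
    simp only [hR, mem_setOf_eq, not_lt] at hx
    calc ENNReal.ofReal (1 / 4) * (κ * fib W h0 (SC c x))
        = κ * (ENNReal.ofReal (1 / 4) * fib W h0 (SC c x)) := by ring
      _ ≤ κ * fib W h1 (SC c x) := by gcongr
  rw [lintegral_SC c h.m0, lintegral_SC c h.m1] at hroot
  have key := star_abstract8 hΘ hΘ1 hreg hDm hcyl hdeep hroot
  have hNN : NN D = SC c ⁻¹' R := by
    ext y
    simp only [NN, hD, mem_setOf_eq, mem_preimage, not_and, not_not]
    exact ⟨fun h => h k rfl, fun h i hi => h⟩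
  rw [hNN] at key
  unfold IneqG
  rw [setLIntegral_SC c h.m0 hRm, setLIntegral_SC c h.mT hRm, setLIntegral_SC c h.m1 hRm]
  exact key

/-- root fat ⇒ inequality on the fibre -/
theorem RegW.leaf {Θ : ℝ} (hΘ : 0 < Θ) (hΘ1 : Θ ≤ 1 / 88) {h0 hT h1 : E → ℝ≥0∞}
    (h : RegW Θ h0 hT h1) (W0 : Submodule ℝ E) (x : E)
    (hroot : ENNReal.ofReal (1 / 8) * fib W0 h0 x ≤ fib W0 h1 x) :
    IneqF (ENNReal.ofReal (88 * Θ)) h0 hT h1 W0 x univ := by
  rw [ineqF_iff _ _ _ _ _ _ MeasurableSet.univ, preimage_univ]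
  exact (h.comp_mix hΘ (by linarith) W0 x).leaf0 hΘ hΘ1 hroot

/-- root fat ⇒ inequality on the thin labels of the next block -/
theorem RegW.block {Θ : ℝ} (hΘ : 0 < Θ) (hΘ1 : Θ ≤ 1 / 88) {h0 hT h1 : E → ℝ≥0∞}
    (h : RegW Θ h0 hT h1) {W0 W : Submodule ℝ E} (hW : W0 ≤ W) (x : E)
    (hroot : ENNReal.ofReal (1 / 8) * fib W0 h0 x ≤ fib W0 h1 x) :
    IneqF (ENNReal.ofReal (88 * Θ)) h0 hT h1 W0 x
      {y | fib W h1 y < ENNReal.ofReal (1 / 4) * fib W h0 y} := by
  have hRm : MeasurableSet {y | fib W h1 y < ENNReal.ofReal (1 / 4) * fib W h0 y} :=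
    measurableSet_lt (measurable_fib h.m1) ((measurable_fib h.m0).const_mul _)
  rw [ineqF_iff _ _ _ _ _ _ hRm]
  have key := (h.comp_mix hΘ (by linarith) W0 x).block0 hΘ hΘ1 W hroot
  simp only [fib_comp_mix hW] at key
  exact key

end Vale.Agent.P262.H502
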