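import Mathlib
import Vale.Agent.P262.H502.RegW

/-!
# P262, weighted star tree, part 2: the functional nested star theorem for tilted laws

`H44.RegG.star_tree` for `RegW` (log-concavity relative to the Gaussian density), same proof.
-/

set_option linter.all false

open MeasureTheory Set Filter ProbabilityTheory
open scoped ENNReal NNReal Topology RealInnerProductSpace

namespace Vale.Agent.P262.H502

open Vale.Agent.P262.H493 hiding fib
open Vale.Agent.P262.H395
open Vale.Agent.P262.H44

variable {E : Type*} [NormedAddCommGroup E] [InnerProductSpace ℝ E] [FiniteDimensional ℝ E]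
  [MeasurableSpace E] [BorelSpace E]

section functional

variable {Θ : ℝ} {h0 hT h1 : E → ℝ≥0∞}

lemma RegW.fib_ne_top (h : RegW Θ h0 hT h1) (W : Submodule ℝ E) (x : E) : fib W h0 x ≠ ⊤ := by
  obtain ⟨M, hM, hb⟩ := h.bdd
  refine ne_top_of_le_ne_top hM ((fib_mono hb x).trans_eq (fib_const W M x))

/-- **thin mass in the nowhere long region** -/
theorem RegW.thin (hΘ : 0 < Θ) (hΘ1 : Θ ≤ 1 / 88) (h : RegW Θ h0 hT h1) :
    ∀ (T : STree E) {W0 : Submodule ℝ E}, T.Valid W0 → ∀ x,
      ENNReal.ofReal (1 / 4) * fib W0 h0 x ≤ fib W0 h1 x →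
      fib W0 ((T.low h0 h1).indicator h0) x ≤ fib W0 ((T.low h0 h1).indicator hT) x +
        ENNReal.ofReal (176 * Θ) * fib W0 ((T.low h0 h1).indicator h0) x := by
  have h8 : ∀ (W0 : Submodule ℝ E) (x : E), ENNReal.ofReal (1 / 4) * fib W0 h0 x ≤ fib W0 h1 x →
      ENNReal.ofReal (1 / 8) * fib W0 h0 x ≤ fib W0 h1 x := by
    intro W0 x hr
    refine le_trans ?_ hr
    gcongr
    norm_num
  have hlT : ∀ (W0 : Submodule ℝ E) (A : Set E) (x : E),
      fib W0 (A.indicator hT) x ≤ fib W0 (A.indicator h0) x := fun W0 A x =>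
    fib_mono (fun y => indicator_le_indicator (h.leT y)) x
  have h176 : ENNReal.ofReal (88 * Θ) * 2 = ENNReal.ofReal (176 * Θ) := by
    rw [show (2 : ℝ≥0∞) = ENNReal.ofReal 2 by norm_num, ← ENNReal.ofReal_mul (by positivity)]
    congr 1; ring
  intro T
  induction T with
  | leaf =>
    intro W0 _ x hroot
    have key := h.leaf hΘ hΘ1 W0 x (h8 W0 x hroot)
    unfold IneqF at key
    simp only [STree.low]
    calc fib W0 (univ.indicator h0) x
        ≤ fib W0 (univ.indicator h0) x + ENNReal.ofReal (88 * Θ) * fib W0 (univ.indicator h1) x :=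
          le_self_add
      _ ≤ fib W0 (univ.indicator hT) x + ENNReal.ofReal (88 * Θ) * fib W0 (univ.indicator hT) x :=
          key
      _ ≤ fib W0 (univ.indicator hT) x +
          ENNReal.ofReal (176 * Θ) * fib W0 (univ.indicator h0) x := by
          gcongr
          · linarith
          · exact hlT W0 univ x
  | node W D cls sub ih =>
    intro W0 hV x hroot
    have hAm := STree.measurableSet_low h.m0 h.m1 _ hV
    obtain ⟨hW, hD, hDi, hc, hci, hs⟩ := hV
    set A := (STree.node W D cls sub).low h0 h1 with hA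
    set R : Set E := {y | fib W h1 y < ENNReal.ofReal (1 / 4) * fib W h0 y} with hR
    have hRm : MeasurableSet R :=
      measurableSet_lt (measurable_fib h.m1) ((measurable_fib h.m0).const_mul _)
    have hRi : InvS W R :=
      invS_lt (inv_fib W h1) ((inv_const W (ENNReal.ofReal (1 / 4))).mul (inv_fib W h0))
    have hblock := h.block hΘ hΘ1 hW x (h8 W0 x hroot)
    rw [← hR] at hblock
    -- at least half of `R` is in `A`
    have hhalf : fib W0 (R.indicator h0) x ≤ 2 * fib W0 ((A ∩ R).indicator h0) x := by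
      refine tower_le_mul hW (h.m0.indicator hRm) (h.m0.indicator (hAm.inter hRm)) (fun y => ?_) x
      by_cases hy : y ∈ R
      · have hlt : fib W h1 y < ENNReal.ofReal (1 / 2) * fib W h0 y := by
          refine lt_of_lt_of_le (show fib W h1 y < ENNReal.ofReal (1 / 4) * fib W h0 y from hy) ?_
          gcongr
          norm_num
        rw [fib_ind_univ h0 (fun z => (hRi.mix y z).mpr hy),
          fib_ind_congr (B := (sub (cls y)).low h0 h1) h0 (fun z => by
            rw [← STree.low_slice_lt (D := D) hci hlt z]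
            exact ⟨fun hz => hz.1, fun hz => ⟨hz, (hRi.mix y z).mpr hy⟩⟩)]
        exact STree.half_low h.m0 h.m1 (hs _) y (h.fib_ne_top W y)
          (show fib W h1 y < ENNReal.ofReal (1 / 4) * fib W h0 y from hy).le
      · rw [fib_ind_empty h0 (fun z hz => hy ((hRi.mix y z).mp hz))]
        exact bot_le
    -- outside `R`
    have hout : fib W0 ((A \ R).indicator h0) x ≤ fib W0 ((A \ R).indicator hT) x +
        ENNReal.ofReal (176 * Θ) * fib W0 ((A \ R).indicator h0) x := by
      have hm := hAm.diff hRm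
      have := tower_lin hW (h.m0.indicator hm) measurable_zero (h.mT.indicator hm)
        (h.m0.indicator hm) (c := 0) (d := ENNReal.ofReal (176 * Θ)) (fun y => by
          rw [zero_mul, add_zero]
          by_cases hlt : fib W h1 y < ENNReal.ofReal (1 / 2) * fib W h0 y
          · by_cases hy : y ∈ R
            · rw [fib_ind_empty h0 (fun z hz => hz.2 ((hRi.mix y z).mpr hy))]
              exact bot_le
            · have hy' : ENNReal.ofReal (1 / 4) * fib W h0 y ≤ fib W h1 y := not_lt.mp hy
              have e : ∀ z, Vale.Agent.P262.H395.mix W y z ∈ A \ R ↔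
                  Vale.Agent.P262.H395.mix W y z ∈ (sub (cls y)).low h0 h1 := by
                intro z
                rw [← STree.low_slice_lt (D := D) hci hlt z]
                exact ⟨fun hz => hz.1, fun hz => ⟨hz, fun hz' => hy ((hRi.mix y z).mp hz')⟩⟩
              rw [fib_ind_congr h0 e, fib_ind_congr hT e]
              exact ih (cls y) (hs _) y hy'
          · rw [fib_ind_empty h0 (fun z hz => STree.low_slice_ge hlt z hz.1)]
            exact bot_le) x
      rwa [zero_mul, add_zero] at this
    -- inside `R`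
    have hin : fib W0 ((A ∩ R).indicator h0) x ≤ fib W0 ((A ∩ R).indicator hT) x +
        ENNReal.ofReal (176 * Θ) * fib W0 ((A ∩ R).indicator h0) x := by
      have s0 := fib_split (W := W0) h.m0 hRm hAm x
      have sT := fib_split (W := W0) h.mT hRm hAm x
      rw [inter_comm] at s0 sT
      unfold IneqF at hblock
      have hfin : fib W0 ((R \ A).indicator h0) x ≠ ⊤ :=
        ne_top_of_le_ne_top (h.fib_ne_top W0 x) (fib_ind_le _ _ _)
      have hcanc : fib W0 ((A ∩ R).indicator h0) x + fib W0 ((R \ A).indicator h0) x ≤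
          (fib W0 ((A ∩ R).indicator hT) x +
            ENNReal.ofReal (176 * Θ) * fib W0 ((A ∩ R).indicator h0) x) +
            fib W0 ((R \ A).indicator h0) x := by
        calc fib W0 ((A ∩ R).indicator h0) x + fib W0 ((R \ A).indicator h0) x
            = fib W0 (R.indicator h0) x := s0.symm
          _ ≤ fib W0 (R.indicator h0) x +
              ENNReal.ofReal (88 * Θ) * fib W0 (R.indicator h1) x := le_self_add
          _ ≤ fib W0 (R.indicator hT) x +
              ENNReal.ofReal (88 * Θ) * fib W0 (R.indicator hT) x := hblock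
          _ ≤ fib W0 (R.indicator hT) x +
              ENNReal.ofReal (88 * Θ) * (2 * fib W0 ((A ∩ R).indicator h0) x) := by
              gcongr
              exact (hlT W0 R x).trans hhalf
          _ = fib W0 ((A ∩ R).indicator hT) x + fib W0 ((R \ A).indicator hT) x +
              ENNReal.ofReal (176 * Θ) * fib W0 ((A ∩ R).indicator h0) x := by
              rw [sT, ← mul_assoc, h176]
          _ ≤ fib W0 ((A ∩ R).indicator hT) x + fib W0 ((R \ A).indicator h0) x +
              ENNReal.ofReal (176 * Θ) * fib W0 ((A ∩ R).indicator h0) x := by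
              gcongr
              exact hlT W0 _ x
          _ = _ := by ring
      exact (ENNReal.add_le_add_iff_right hfin).mp hcanc
    rw [fib_split h.m0 hAm hRm, fib_split h.mT hAm hRm, mul_add]
    calc _ ≤ (fib W0 ((A ∩ R).indicator hT) x +
            ENNReal.ofReal (176 * Θ) * fib W0 ((A ∩ R).indicator h0) x) +
          (fib W0 ((A \ R).indicator hT) x +
            ENNReal.ofReal (176 * Θ) * fib W0 ((A \ R).indicator h0) x) := add_le_add hin hout
      _ = _ := by ring

/-- in the nowhere long region at most half of the mass is long -/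
theorem RegW.mid (h : RegW Θ h0 hT h1) :
    ∀ (T : STree E) {W0 : Submodule ℝ E}, T.Valid W0 → ∀ x,
      (T = STree.leaf → fib W0 h1 x ≤ ENNReal.ofReal (1 / 2) * fib W0 h0 x) →
      fib W0 ((T.low h0 h1).indicator h1) x ≤
        ENNReal.ofReal (1 / 2) * fib W0 ((T.low h0 h1).indicator h0) x := by
  intro T
  induction T with
  | leaf =>
    intro W0 _ x hr
    simp only [STree.low, indicator_univ]
    exact hr rfl
  | node W D cls sub ih =>
    intro W0 hV x _
    have hAm := STree.measurableSet_low h.m0 h.m1 _ hV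
    obtain ⟨hW, hD, hDi, hc, hci, hs⟩ := hV
    refine tower_le_mul hW (h.m1.indicator hAm) (h.m0.indicator hAm) (fun y => ?_) x
    by_cases hlt : fib W h1 y < ENNReal.ofReal (1 / 2) * fib W h0 y
    · rw [fib_ind_congr h1 (STree.low_slice_lt (D := D) hci hlt),
        fib_ind_congr h0 (STree.low_slice_lt (D := D) hci hlt)]
      exact ih (cls y) (hs _) y fun _ => hlt.le
    · rw [fib_ind_empty h1 (STree.low_slice_ge hlt)]
      exact bot_le

/-- the inequality on the nowhere long region (`T` a node, or the root label itself not long) -/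
theorem RegW.ineq_low (hΘ : 0 < Θ) (hΘ1 : Θ ≤ 1 / 704) (h : RegW Θ h0 hT h1) (T : STree E)
    {W0 : Submodule ℝ E} (hV : T.Valid W0) (x : E)
    (hroot : ENNReal.ofReal (1 / 4) * fib W0 h0 x ≤ fib W0 h1 x)
    (hleaf : T = STree.leaf → fib W0 h1 x ≤ ENNReal.ofReal (1 / 2) * fib W0 h0 x) :
    IneqF (ENNReal.ofReal (704 * Θ)) h0 hT h1 W0 x (T.low h0 h1) := by
  refine ineq_of_thin hΘ hΘ1 (ne_top_of_le_ne_top (h.fib_ne_top W0 x) (fib_ind_le _ _ _))
    (fib_mono (fun y => indicator_le_indicator (h.leT y)) x)
    (fib_mono (fun y => indicator_le_indicator (h.le1 y)) x)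
    (h.thin hΘ (by linarith) T hV x hroot) (h.mid T hV x hleaf)

/-- the two inductive statements -/
theorem RegW.star_aux (hΘ : 0 < Θ) (hΘ1 : Θ ≤ 1 / 704) (h : RegW Θ h0 hT h1) :
    ∀ (T : STree E) {W0 : Submodule ℝ E}, T.Valid W0 → T.Deep h0 h1 →
      (∀ x, ENNReal.ofReal (1 / 4) * fib W0 h0 x ≤ fib W0 h1 x →
        IneqF (ENNReal.ofReal (704 * Θ)) h0 hT h1 W0 x T.reg) ∧
      (∀ x, IneqF (ENNReal.ofReal (704 * Θ)) h0 hT h1 W0 x (T.reg \ T.low h0 h1)) := by
  intro T
  induction T with
  | leaf =>
    intro W0 _ _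
    constructor
    · intro x hroot
      have h8 : ENNReal.ofReal (1 / 8) * fib W0 h0 x ≤ fib W0 h1 x := by
        refine le_trans ?_ hroot
        gcongr
        norm_num
      refine ineqF_mono ?_ ENNReal.ofReal_ne_top h.le1 (h.leaf hΘ (by linarith) W0 x h8)
      exact ENNReal.ofReal_le_ofReal (by linarith)
    · intro x
      exact ineqF_empty fun z hz => hz.2 trivial
  | node W D cls sub ih =>
    intro W0 hV hd
    have hQ : ∀ x, IneqF (ENNReal.ofReal (704 * Θ)) h0 hT h1 W0 x
        ((STree.node W D cls sub).reg \ (STree.node W D cls sub).low h0 h1) := by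
      intro x
      have hm := (STree.measurableSet_reg _ hV).diff (STree.measurableSet_low h.m0 h.m1 _ hV)
      obtain ⟨hW, hD, hDi, hc, hci, hs⟩ := hV
      refine ineqF_tower h.m0 h.mT h.m1 hW hm (fun y => ?_) x
      obtain ⟨ihP, ihQ⟩ := ih (cls y) (hs _) (hd.2 _)
      by_cases hyD : y ∈ D
      · exact ineqF_empty fun z hz => hz.1.1 ((hDi.mix y z).mpr hyD)
      by_cases hlt : fib W h1 y < ENNReal.ofReal (1 / 2) * fib W h0 y
      · refine ineqF_congr (B := (sub (cls y)).reg \ (sub (cls y)).low h0 h1) (fun z => ?_) (ihQ y)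
        rw [mem_diff, mem_diff, STree.low_slice_lt (D := D) hci hlt z]
        simp only [STree.reg, mem_setOf_eq, hci.mix, hDi.mix]
        exact ⟨fun hz => ⟨hz.1.2, hz.2⟩, fun hz => ⟨⟨hyD, hz.1⟩, hz.2⟩⟩
      · refine ineqF_congr (B := (sub (cls y)).reg) (fun z => ?_) (ihP y ?_)
        · rw [mem_diff]
          simp only [STree.reg, mem_setOf_eq, hci.mix, hDi.mix]
          exact ⟨fun hz => hz.1.2, fun hz => ⟨⟨hyD, hz⟩, STree.low_slice_ge hlt z⟩⟩
        · refine le_trans ?_ (not_lt.mp hlt)
          gcongr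
          norm_num
    refine ⟨fun x hroot => ?_, hQ⟩
    have hsub := STree.low_subset_reg _ hd
    refine ineqF_union h.m0 h.mT h.m1 (STree.measurableSet_reg _ hV)
      (STree.measurableSet_low h.m0 h.m1 _ hV) ?_ (hQ x)
    rw [inter_eq_right.mpr hsub]
    exact h.ineq_low hΘ hΘ1 _ hV x hroot (fun he => by simp at he)

/-- **Functional nested star theorem for label-dependent flags.** -/
theorem RegW.star_tree (hΘ : 0 < Θ) (hΘ1 : Θ ≤ 1 / 704) (h : RegW Θ h0 hT h1) {T : STree E}
    {W0 : Submodule ℝ E} (hV : T.Valid W0) (hd : T.Deep h0 h1) (x : E)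
    (hroot : ENNReal.ofReal (1 / 4) * fib W0 h0 x ≤ fib W0 h1 x) :
    IneqF (ENNReal.ofReal (704 * Θ)) h0 hT h1 W0 x T.reg :=
  (h.star_aux hΘ hΘ1 T hV hd).1 x hroot

end functional

end Vale.Agent.P262.H502
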