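import Mathlib
import Vale.Agent.P262.H502.TreeW

/-!
# P262, block (A3), part 1: the abstract shell theorem

Integrating the weighted star tree over all shells `{H - 1 < s ≤ H}` with the tilt `exp (s / 4)`:
the `exp (s / 8)`-mass of a closed convex set in the visible region is at most twice its
`exp (b / 8)`-mass, as soon as all stopped labels are healthy for the tilted shell supports.
-/

set_option linter.all false

open MeasureTheory Set Filter ProbabilityTheory
open scoped ENNReal NNReal Topology RealInnerProductSpace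

namespace Vale.Agent.P262.H502

open Vale.Agent.P262.H493 hiding fib
open Vale.Agent.P262.H395
open Vale.Agent.P262.H44

variable {E : Type*} [NormedAddCommGroup E] [InnerProductSpace ℝ E] [FiniteDimensional ℝ E]
  [MeasurableSpace E] [BorelSpace E]

/-- the tilt, normalised at the outer end of the shell -/
noncomputable def wt (s : E → ℝ) (H : ℝ) (x : E) : ℝ≥0∞ :=
  ENNReal.ofReal (Real.exp ((s x - H) / 4))

/-- support of the shell law, with depth at least `t` -/
def Sp (K : Set E) (s b : E → ℝ) (H t : ℝ) : Set E := {x | x ∈ K ∧ s x ≤ H - t ∧ b x ≤ H}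

/-- the density of the shell law at depth at least `t` -/
noncomputable def hh (K : Set E) (s b : E → ℝ) (H t : ℝ) : E → ℝ≥0∞ :=
  (Sp K s b H t).indicator (wt s H)

lemma continuous_wt {s : E → ℝ} (hs : Continuous s) (H : ℝ) : Continuous (wt s H) := by
  unfold wt
  exact ENNReal.continuous_ofReal.comp (by fun_prop)

lemma isClosed_Sp {K : Set E} (hK : IsClosed K) {s b : E → ℝ} (hs : Continuous s)
    (hb : Continuous b) (H t : ℝ) : IsClosed (Sp K s b H t) :=
  hK.inter ((isClosed_le hs continuous_const).inter (isClosed_le hb continuous_const))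

lemma Sp_anti (K : Set E) (s b : E → ℝ) (H : ℝ) {t t' : ℝ} (h : t ≤ t') :
    Sp K s b H t' ⊆ Sp K s b H t := fun x hx => ⟨hx.1, by linarith [hx.2.1], hx.2.2⟩

lemma GG_wt (s : E → ℝ) (H : ℝ) (x : E) :
    GG x * wt s H x = ENNReal.ofReal (Real.exp (-H / 4)) *
      (GG x * ENNReal.ofReal (Real.exp (s x / 4))) := by
  unfold wt
  rw [show (s x - H) / 4 = -H / 4 + s x / 4 by ring, Real.exp_add,
    ENNReal.ofReal_mul (Real.exp_pos _).le]
  ring

lemma measurable_hh {K : Set E} (hK : IsClosed K) {s b : E → ℝ} (hs : Continuous s)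
    (hb : Continuous b) (H t : ℝ) : Measurable (hh K s b H t) :=
  (continuous_wt hs H).measurable.indicator (isClosed_Sp hK hs hb H t).measurableSet

/-- the shell laws are regular triples -/
theorem regW_shell {c0 : ℝ} (hc0 : 1 < c0) {K : Set E} (hK : IsClosed K) (hKc : Convex ℝ K)
    {s b : E → ℝ} (hs : Continuous s) (hsc : ConvexOn ℝ univ s) (hb : Continuous b)
    (hbc : ConvexOn ℝ univ b)
    (hlc : LogConc fun x => GG x * ENNReal.ofReal (Real.exp (s x / 4))) (H : ℝ) :
    RegW (1 / c0) (hh K s b H 0) (hh K s b H 1) (hh K s b H c0) where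
  m0 := measurable_hh hK hs hb H 0
  mT := measurable_hh hK hs hb H 1
  m1 := measurable_hh hK hs hb H c0
  le1 := fun x => indicator_le_indicator_of_subset (Sp_anti K s b H hc0.le)
    (fun _ => bot_le) x
  leT := fun x => indicator_le_indicator_of_subset (Sp_anti K s b H zero_le_one)
    (fun _ => bot_le) x
  lc := by
    intro x y u t hu ht hut
    show (GG x * hh K s b H 0 x) ^ u * (GG y * hh K s b H 0 y) ^ t ≤
      GG (u • x + t • y) * hh K s b H 0 (u • x + t • y)
    by_cases hx : x ∈ Sp K s b H 0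
    · by_cases hy : y ∈ Sp K s b H 0
      · have hz : u • x + t • y ∈ Sp K s b H 0 := by
          refine ⟨hKc hx.1 hy.1 hu.le ht.le hut, ?_, ?_⟩
          · refine (hsc.2 (mem_univ x) (mem_univ y) hu.le ht.le hut).trans ?_
            simp only [smul_eq_mul]
            have h3 : u = 1 - t := by linarith
            subst h3
            nlinarith [hx.2.1, hy.2.1]
          · refine (hbc.2 (mem_univ x) (mem_univ y) hu.le ht.le hut).trans ?_
            simp only [smul_eq_mul]
            have h3 : u = 1 - t := by linarith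
            subst h3
            nlinarith [hx.2.2, hy.2.2]
        unfold hh
        rw [indicator_of_mem hx, indicator_of_mem hy, indicator_of_mem hz, GG_wt, GG_wt, GG_wt,
          rpow_const_mul hu ht hut]
        exact mul_le_mul' le_rfl (hlc x y u t hu ht hut)
      · unfold hh
        rw [indicator_of_notMem hy, mul_zero, ENNReal.zero_rpow_of_pos ht, mul_zero]
        exact bot_le
    · unfold hh
      rw [indicator_of_notMem hx, mul_zero, ENNReal.zero_rpow_of_pos hu, zero_mul]
      exact bot_le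
  mix := by
    intro x y
    have hT : 0 < 1 / c0 := by positivity
    have h1 : 0 < 1 - 1 / c0 := by
      rw [sub_pos, div_lt_one (by linarith)]
      exact hc0
    by_cases hx : x ∈ Sp K s b H 0
    · by_cases hy : y ∈ Sp K s b H c0
      · have hz : (1 - 1 / c0) • x + (1 / c0) • y ∈ Sp K s b H 1 := by
          refine ⟨hKc hx.1 hy.1 h1.le hT.le (by ring), ?_, ?_⟩
          · refine (hsc.2 (mem_univ x) (mem_univ y) h1.le hT.le (by ring)).trans ?_
            simp only [smul_eq_mul]
            have e1 : (1 - 1 / c0) * s x ≤ (1 - 1 / c0) * H := by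
              have := hx.2.1
              rw [sub_zero] at this
              gcongr
            have e2 : (1 / c0) * s y ≤ (1 / c0) * (H - c0) := by
              have := hy.2.1
              gcongr
            have e3 : (1 / c0) * c0 = 1 := by field_simp
            nlinarith
          · refine (hbc.2 (mem_univ x) (mem_univ y) h1.le hT.le (by ring)).trans ?_
            simp only [smul_eq_mul]
            have e1 : (1 - 1 / c0) * b x ≤ (1 - 1 / c0) * H := by
              have := hx.2.2
              gcongr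
            have e2 : (1 / c0) * b y ≤ (1 / c0) * H := by
              have := hy.2.2
              gcongr
            linarith
        unfold hh
        rw [indicator_of_mem hx, indicator_of_mem hy, indicator_of_mem hz, GG_wt, GG_wt, GG_wt,
          rpow_const_mul h1 hT (by ring)]
        exact mul_le_mul' le_rfl (hlc x y _ _ h1 hT (by ring))
      · unfold hh
        rw [indicator_of_notMem hy, mul_zero, ENNReal.zero_rpow_of_pos hT, mul_zero]
        exact bot_le
    · unfold hh
      rw [indicator_of_notMem hx, mul_zero, ENNReal.zero_rpow_of_pos h1, zero_mul]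
      exact bot_le
  usc := by
    intro x r hr
    have hC := isClosed_Sp hK hs hb H c0
    by_cases hx : x ∈ Sp K s b H c0
    · unfold hh at hr ⊢
      rw [indicator_of_mem hx] at hr
      have h2 : ∀ᶠ y in 𝓝 x, wt s H y < r :=
        ((continuous_wt hs H).tendsto x).eventually (gt_mem_nhds hr)
      filter_upwards [h2] with y hy
      exact lt_of_le_of_lt (indicator_le_self' (fun _ _ => bot_le) y) hy
    · unfold hh at hr ⊢
      rw [indicator_of_notMem hx] at hr
      filter_upwards [hC.isOpen_compl.mem_nhds hx] with y hy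
      rw [indicator_of_notMem hy]
      exact hr
  bdd := by
    refine ⟨1, ENNReal.one_ne_top, fun x => ?_⟩
    unfold hh
    by_cases hx : x ∈ Sp K s b H 0
    · rw [indicator_of_mem hx]
      unfold wt
      rw [← ENNReal.ofReal_one]
      refine ENNReal.ofReal_le_ofReal ?_
      rw [Real.exp_le_one_iff]
      have := hx.2.1
      linarith
    · rw [indicator_of_notMem hx]
      exact bot_le

/-- one shell -/
theorem shell_one {c0 : ℝ} (hc0 : 704 ≤ c0) {K : Set E} (hK : IsClosed K) (hKc : Convex ℝ K)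
    {s b : E → ℝ} (hs : Continuous s) (hsc : ConvexOn ℝ univ s) (hb : Continuous b)
    (hbc : ConvexOn ℝ univ b)
    (hlc : LogConc fun x => GG x * ENNReal.ofReal (Real.exp (s x / 4))) (H : ℝ)
    {T : STree E} {W0 : Submodule ℝ E} (hV : T.Valid W0)
    (hd : T.Deep (hh K s b H 0) (hh K s b H c0)) (x0 : E)
    (hroot : ENNReal.ofReal (1 / 4) * fib W0 (hh K s b H 0) x0 ≤ fib W0 (hh K s b H c0) x0) :
    fib W0 (T.reg.indicator ((Sp K s b H 0 \ Sp K s b H 1).indicator (wt s H))) x0 ≤
      ENNReal.ofReal (704 / c0) * fib W0 (T.reg.indicator (hh K s b H 0)) x0 := by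
  have hreg := regW_shell (by linarith) hK hKc hs hsc hb hbc hlc H
  have key := hreg.star_tree (by positivity) (by
    rw [div_le_div_iff₀ (by linarith) (by norm_num)]; linarith) hV hd x0 hroot
  unfold IneqF at key
  have hTm := STree.measurableSet_reg T hV
  have hSm := (isClosed_Sp hK hs hb H 1).measurableSet
  have hsplit : fib W0 (T.reg.indicator (hh K s b H 0)) x0 =
      fib W0 (T.reg.indicator (hh K s b H 1)) x0 +
      fib W0 (T.reg.indicator ((Sp K s b H 0 \ Sp K s b H 1).indicator (wt s H))) x0 := by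
    rw [← fib_add (hreg.mT.indicator hTm)]
    congr 1
    funext y
    by_cases hy : y ∈ T.reg
    · rw [indicator_of_mem hy, indicator_of_mem hy, indicator_of_mem hy]
      unfold hh
      by_cases h1 : y ∈ Sp K s b H 1
      · have h0 := Sp_anti K s b H zero_le_one h1
        rw [indicator_of_mem h0, indicator_of_mem h1,
          indicator_of_notMem (fun h : y ∈ Sp K s b H 0 \ Sp K s b H 1 => h.2 h1), add_zero]
      · rw [indicator_of_notMem h1, zero_add]
        by_cases h0 : y ∈ Sp K s b H 0
        · rw [indicator_of_mem h0,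
            indicator_of_mem (show y ∈ Sp K s b H 0 \ Sp K s b H 1 from ⟨h0, h1⟩)]
        · rw [indicator_of_notMem h0,
            indicator_of_notMem (fun h : y ∈ Sp K s b H 0 \ Sp K s b H 1 => h0 h.1)]
    · rw [indicator_of_notMem hy, indicator_of_notMem hy, indicator_of_notMem hy, add_zero]
  have hfin : fib W0 (T.reg.indicator (hh K s b H 1)) x0 ≠ ⊤ :=
    ne_top_of_le_ne_top (hreg.fib_ne_top W0 x0) ((fib_ind_le _ _ _).trans (fib_mono hreg.leT x0))
  have hle : fib W0 (T.reg.indicator (hh K s b H 1)) x0 ≤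
      fib W0 (T.reg.indicator (hh K s b H 0)) x0 :=
    fib_mono (fun y => indicator_le_indicator (hreg.leT y)) x0
  have h2 : fib W0 (T.reg.indicator (hh K s b H 1)) x0 +
      fib W0 (T.reg.indicator ((Sp K s b H 0 \ Sp K s b H 1).indicator (wt s H))) x0 ≤
      fib W0 (T.reg.indicator (hh K s b H 1)) x0 +
        ENNReal.ofReal (704 / c0) * fib W0 (T.reg.indicator (hh K s b H 0)) x0 := by
    rw [← hsplit]
    calc _ ≤ fib W0 (T.reg.indicator (hh K s b H 0)) x0 +
          ENNReal.ofReal (704 * (1 / c0)) * fib W0 (T.reg.indicator (hh K s b H c0)) x0 :=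
          le_self_add
      _ ≤ _ := key
      _ ≤ _ := by
          rw [show 704 * (1 / c0) = 704 / c0 by ring]
          gcongr
  exact (ENNReal.add_le_add_iff_left hfin).mp h2

/-! ### integration over the shells -/

lemma int_exp (σ M : ℝ) : ∫⁻ H in Ici M, ENNReal.ofReal (Real.exp (H / 8 + (σ - H) / 4)) =
    ENNReal.ofReal (8 * Real.exp (σ / 4 - M / 8)) := by
  rw [setLIntegral_congr Ioi_ae_eq_Ici.symm]
  have h1 : ∀ H : ℝ, Real.exp (H / 8 + (σ - H) / 4) =
      Real.exp (σ / 4) * Real.exp ((-(1 / 8)) * H) := by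
    intro H
    rw [← Real.exp_add]
    congr 1
    ring
  simp_rw [h1]
  rw [← ofReal_integral_eq_lintegral_ofReal
    ((integrableOn_exp_mul_Ioi (by norm_num : (-(1 / 8) : ℝ) < 0) M).const_mul _)
    (Eventually.of_forall fun x => by positivity), integral_const_mul,
    integral_exp_mul_Ioi (by norm_num)]
  congr 1
  rw [show σ / 4 - M / 8 = σ / 4 + (-(1 / 8)) * M by ring, Real.exp_add]
  ring

/-- the integrand of the shell integral -/
noncomputable def FA (R K : Set E) (s b : E → ℝ) (H : ℝ) (x : E) : ℝ≥0∞ :=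
  ENNReal.ofReal (Real.exp (H / 8)) * R.indicator (hh K s b H 0) x

noncomputable def FS (R K : Set E) (s b : E → ℝ) (H : ℝ) (x : E) : ℝ≥0∞ :=
  ENNReal.ofReal (Real.exp (H / 8)) *
    R.indicator ((Sp K s b H 0 \ Sp K s b H 1).indicator (wt s H)) x

lemma measurable_FA {R K : Set E} (hR : MeasurableSet R) (hK : IsClosed K) {s b : E → ℝ}
    (hs : Continuous s) (hb : Continuous b) :
    Measurable (Function.uncurry (FA R K s b)) := by
  have hS : MeasurableSet {p : ℝ × E | p.2 ∈ R ∧ p.2 ∈ K ∧ s p.2 ≤ p.1 - 0 ∧ b p.2 ≤ p.1} := by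
    refine (measurable_snd hR).inter ((measurable_snd hK.measurableSet).inter ?_)
    exact (measurableSet_le (f := fun p : ℝ × E => s p.2) (g := fun p : ℝ × E => p.1 - 0)
      (hs.measurable.comp measurable_snd) (by fun_prop)).inter
      (measurableSet_le (f := fun p : ℝ × E => b p.2) (g := fun p : ℝ × E => p.1)
      (hb.measurable.comp measurable_snd) (by fun_prop))
  have e : Function.uncurry (FA R K s b) =
      {p : ℝ × E | p.2 ∈ R ∧ p.2 ∈ K ∧ s p.2 ≤ p.1 - 0 ∧ b p.2 ≤ p.1}.indicator
        (fun p => ENNReal.ofReal (Real.exp (p.1 / 8)) *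
          ENNReal.ofReal (Real.exp ((s p.2 - p.1) / 4))) := by
    funext p
    obtain ⟨H, x⟩ := p
    simp only [Function.uncurry, FA]
    by_cases h1 : x ∈ R
    · rw [indicator_of_mem h1]
      unfold hh
      by_cases h2 : x ∈ Sp K s b H 0
      · rw [indicator_of_mem h2, indicator_of_mem (show (H, x) ∈ {p : ℝ × E | p.2 ∈ R ∧ p.2 ∈ K ∧
          s p.2 ≤ p.1 - 0 ∧ b p.2 ≤ p.1} from ⟨h1, h2⟩)]
        rfl
      · rw [indicator_of_notMem h2, mul_zero, indicator_of_notMem (fun h : (H, x) ∈
          {p : ℝ × E | p.2 ∈ R ∧ p.2 ∈ K ∧ s p.2 ≤ p.1 - 0 ∧ b p.2 ≤ p.1} => h2 h.2)]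
    · rw [indicator_of_notMem h1, mul_zero, indicator_of_notMem (fun h : (H, x) ∈
          {p : ℝ × E | p.2 ∈ R ∧ p.2 ∈ K ∧ s p.2 ≤ p.1 - 0 ∧ b p.2 ≤ p.1} => h1 h.1)]
  rw [e]
  exact Measurable.indicator (by fun_prop) hS

lemma measurable_FS {R K : Set E} (hR : MeasurableSet R) (hK : IsClosed K) {s b : E → ℝ}
    (hs : Continuous s) (hb : Continuous b) :
    Measurable (Function.uncurry (FS R K s b)) := by
  have hS : MeasurableSet {p : ℝ × E | p.1 - 1 < s p.2} :=
    measurableSet_lt (f := fun p : ℝ × E => p.1 - 1) (g := fun p : ℝ × E => s p.2)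
      (by fun_prop) (hs.measurable.comp measurable_snd)
  have e : Function.uncurry (FS R K s b) =
      {p : ℝ × E | p.1 - 1 < s p.2}.indicator (Function.uncurry (FA R K s b)) := by
    funext p
    obtain ⟨H, x⟩ := p
    by_cases h0 : H - 1 < s x
    · rw [indicator_of_mem (show (H, x) ∈ {p : ℝ × E | p.1 - 1 < s p.2} from h0)]
      simp only [Function.uncurry, FA, FS]
      have h2 : x ∉ Sp K s b H 1 := fun h => by linarith [h.2.1]
      by_cases h1 : x ∈ R
      · rw [indicator_of_mem h1, indicator_of_mem h1]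
        unfold hh
        by_cases h3 : x ∈ Sp K s b H 0
        · rw [indicator_of_mem h3,
            indicator_of_mem (show x ∈ Sp K s b H 0 \ Sp K s b H 1 from ⟨h3, h2⟩)]
        · rw [indicator_of_notMem h3,
            indicator_of_notMem (fun h : x ∈ Sp K s b H 0 \ Sp K s b H 1 => h3 h.1)]
      · rw [indicator_of_notMem h1, indicator_of_notMem h1]
    · rw [indicator_of_notMem (fun h : (H, x) ∈ {p : ℝ × E | p.1 - 1 < s p.2} => h0 h)]
      simp only [Function.uncurry, FS]
      by_cases h1 : x ∈ R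
      · rw [indicator_of_mem h1, indicator_of_notMem, mul_zero]
        intro h
        exact h.2 ⟨h.1.1, by linarith, h.1.2.2⟩
      · rw [indicator_of_notMem h1, mul_zero]
  rw [e]
  exact (measurable_FA hR hK hs hb).indicator hS

lemma inner_upper (R K : Set E) (s b : E → ℝ) (x : E) :
    ∫⁻ H, FA R K s b H x ≤ 8 *
      ((R ∩ K ∩ {x | b x ≤ s x}).indicator (fun x => ENNReal.ofReal (Real.exp (s x / 8))) x +
       (R ∩ K ∩ {x | s x < b x}).indicator (fun x => ENNReal.ofReal (Real.exp (b x / 8))) x) := by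
  by_cases hx : x ∈ R ∩ K
  · have h1 : ∀ H, FA R K s b H x = (Ici (max (s x) (b x))).indicator
        (fun H => ENNReal.ofReal (Real.exp (H / 8 + (s x - H) / 4))) H := by
      intro H
      unfold FA hh
      rw [indicator_of_mem hx.1]
      by_cases h2 : H ∈ Ici (max (s x) (b x))
      · have h2' : max (s x) (b x) ≤ H := h2
        rw [max_le_iff] at h2'
        rw [indicator_of_mem h2, indicator_of_mem
          (show x ∈ Sp K s b H 0 from ⟨hx.2, by linarith [h2'.1], h2'.2⟩)]
        unfold wt
        rw [← ENNReal.ofReal_mul (Real.exp_pos _).le, ← Real.exp_add]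
      · rw [indicator_of_notMem h2, indicator_of_notMem, mul_zero]
        intro h
        apply h2
        show max (s x) (b x) ≤ H
        rw [max_le_iff]
        exact ⟨by linarith [h.2.1], h.2.2⟩
    simp_rw [h1]
    rw [lintegral_indicator measurableSet_Ici, int_exp]
    have h8 : (8 : ℝ≥0∞) = ENNReal.ofReal 8 := by norm_num
    by_cases h3 : b x ≤ s x
    · rw [indicator_of_mem (show x ∈ R ∩ K ∩ {x | b x ≤ s x} from ⟨hx, h3⟩),
        indicator_of_notMem (fun h : x ∈ R ∩ K ∩ {x | s x < b x} => not_lt.mpr h3 h.2), add_zero,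
        max_eq_left h3, h8, ← ENNReal.ofReal_mul (by norm_num)]
      refine ENNReal.ofReal_le_ofReal (le_of_eq ?_)
      congr 2
      ring
    · have h3' : s x < b x := not_le.mp h3
      rw [indicator_of_notMem (fun h : x ∈ R ∩ K ∩ {x | b x ≤ s x} => h3 h.2),
        indicator_of_mem (show x ∈ R ∩ K ∩ {x | s x < b x} from ⟨hx, h3'⟩), zero_add,
        max_eq_right h3'.le, h8, ← ENNReal.ofReal_mul (by norm_num)]
      refine ENNReal.ofReal_le_ofReal ?_
      have : Real.exp (s x / 4 - b x / 8) ≤ Real.exp (b x / 8) := by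
        apply Real.exp_le_exp.mpr
        linarith
      linarith
  · have h1 : ∀ H, FA R K s b H x = 0 := by
      intro H
      unfold FA hh
      by_cases h2 : x ∈ R
      · rw [indicator_of_mem h2, indicator_of_notMem (fun h : x ∈ Sp K s b H 0 => hx ⟨h2, h.1⟩),
          mul_zero]
      · rw [indicator_of_notMem h2, mul_zero]
    simp_rw [h1]
    rw [lintegral_zero]
    exact bot_le

lemma inner_lower (R K : Set E) (s b : E → ℝ) (x : E) :
    ENNReal.ofReal (Real.exp (-(1 / 8))) *
      (R ∩ K ∩ {x | b x ≤ s x}).indicator (fun x => ENNReal.ofReal (Real.exp (s x / 8))) x ≤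
      ∫⁻ H, FS R K s b H x := by
  by_cases hx : x ∈ R ∩ K ∩ {x | b x ≤ s x}
  · rw [indicator_of_mem hx]
    have h3 : b x ≤ s x := hx.2
    have h1 : ∀ H, (Ico (s x) (s x + 1)).indicator
        (fun _ => ENNReal.ofReal (Real.exp (-(1 / 8) + s x / 8))) H ≤ FS R K s b H x := by
      intro H
      by_cases h2 : H ∈ Ico (s x) (s x + 1)
      · rw [indicator_of_mem h2]
        unfold FS
        rw [indicator_of_mem hx.1.1, indicator_of_mem
          (show x ∈ Sp K s b H 0 \ Sp K s b H 1 from ⟨⟨hx.1.2, by linarith [h2.1],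
            by linarith [h2.1]⟩, fun h => by linarith [h.2.1, h2.2]⟩)]
        unfold wt
        rw [← ENNReal.ofReal_mul (Real.exp_pos _).le, ← Real.exp_add]
        refine ENNReal.ofReal_le_ofReal (Real.exp_le_exp.mpr ?_)
        linarith [h2.2]
      · rw [indicator_of_notMem h2]
        exact bot_le
    refine le_trans (le_of_eq ?_) (lintegral_mono h1)
    rw [lintegral_indicator measurableSet_Ico, setLIntegral_const, Real.volume_Ico]
    rw [← ENNReal.ofReal_mul (Real.exp_pos _).le, ← Real.exp_add]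
    simp
  · rw [indicator_of_notMem hx, mul_zero]
    exact bot_le

/-- arithmetic of the absorption -/
lemma absorb {X1 X2 k : ℝ≥0∞} (hX1 : X1 ≠ ⊤) (hk : k ≤ ENNReal.ofReal (704 / 2 ^ 14))
    (h : ENNReal.ofReal (Real.exp (-(1 / 8))) * X1 ≤ k * (8 * (X1 + X2))) : X1 ≤ X2 := by
  by_cases hX2 : X2 = ⊤
  · rw [hX2]; exact le_top
  have h1 : ENNReal.ofReal (7 / 8) ≤ ENNReal.ofReal (Real.exp (-(1 / 8))) := by
    refine ENNReal.ofReal_le_ofReal ?_
    have := Real.add_one_le_exp (-(1 / 8) : ℝ)
    linarith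
  have h2 : ENNReal.ofReal (7 / 8) * X1 ≤ ENNReal.ofReal (11 / 32) * (X1 + X2) := by
    calc ENNReal.ofReal (7 / 8) * X1 ≤ ENNReal.ofReal (Real.exp (-(1 / 8))) * X1 := by gcongr
      _ ≤ k * (8 * (X1 + X2)) := h
      _ ≤ ENNReal.ofReal (704 / 2 ^ 14) * (8 * (X1 + X2)) := by gcongr
      _ = ENNReal.ofReal (704 / 2 ^ 14) * 8 * (X1 + X2) := by ring
      _ = ENNReal.ofReal (11 / 32) * (X1 + X2) := by
          congr 1
          rw [show (8 : ℝ≥0∞) = ENNReal.ofReal 8 by norm_num,
            ← ENNReal.ofReal_mul (by norm_num)]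
          norm_num
  lift X1 to ℝ≥0 using hX1
  lift X2 to ℝ≥0 using hX2
  have h3 : ENNReal.ofReal (7 / 8 * X1) ≤ ENNReal.ofReal (11 / 32 * (X1 + X2)) := by
    rw [ENNReal.ofReal_mul (by norm_num), ENNReal.ofReal_mul (by norm_num),
      ENNReal.ofReal_add X1.coe_nonneg X2.coe_nonneg, ENNReal.ofReal_coe_nnreal,
      ENNReal.ofReal_coe_nnreal]
    exact h2
  have h4 := (ENNReal.ofReal_le_ofReal_iff (by positivity)).mp h3
  have h5 : (X1 : ℝ) ≤ X2 := by
    have := X1.coe_nonneg
    have := X2.coe_nonneg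
    nlinarith
  exact_mod_cast h5

/-- **The abstract shell theorem.** -/
theorem shell_abs {c0 : ℝ} (hc0 : 2 ^ 14 ≤ c0) {K : Set E} (hK : IsClosed K) (hKc : Convex ℝ K)
    {s b : E → ℝ} (hs : Continuous s) (hsc : ConvexOn ℝ univ s) (hb : Continuous b)
    (hbc : ConvexOn ℝ univ b)
    (hlc : LogConc fun x => GG x * ENNReal.ofReal (Real.exp (s x / 4)))
    (hsK : ∃ M : ℝ, ∀ x ∈ K, s x ≤ M)
    {T : STree E} {W0 : Submodule ℝ E} (hV : T.Valid W0)
    (hd : ∀ H, T.Deep (hh K s b H 0) (hh K s b H c0)) (x0 : E)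
    (hroot : ∀ H, ENNReal.ofReal (1 / 4) * fib W0 (hh K s b H 0) x0 ≤
      fib W0 (hh K s b H c0) x0) :
    fib W0 (T.reg.indicator (K.indicator fun x => ENNReal.ofReal (Real.exp (s x / 8)))) x0 ≤
      2 * fib W0 (T.reg.indicator (K.indicator fun x => ENNReal.ofReal (Real.exp (b x / 8)))) x0 := by
  have hTm := STree.measurableSet_reg T hV
  set R := T.reg with hR
  have hms : Measurable fun x : E => ENNReal.ofReal (Real.exp (s x / 8)) :=
    (hs.measurable.div_const 8).exp.ennreal_ofReal
  have hmb : Measurable fun x : E => ENNReal.ofReal (Real.exp (b x / 8)) :=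
    (hb.measurable.div_const 8).exp.ennreal_ofReal
  have hfar : MeasurableSet (R ∩ K ∩ {x | b x ≤ s x}) :=
    (hTm.inter hK.measurableSet).inter (measurableSet_le hb.measurable hs.measurable)
  have hnear : MeasurableSet (R ∩ K ∩ {x | s x < b x}) :=
    (hTm.inter hK.measurableSet).inter (measurableSet_lt hs.measurable hb.measurable)
  set f1 : E → ℝ≥0∞ := (R ∩ K ∩ {x | b x ≤ s x}).indicator
    (fun x => ENNReal.ofReal (Real.exp (s x / 8))) with hf1
  set f2 : E → ℝ≥0∞ := (R ∩ K ∩ {x | s x < b x}).indicator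
    (fun x => ENNReal.ofReal (Real.exp (b x / 8))) with hf2
  have hf1m : Measurable f1 := hms.indicator hfar
  have hf2m : Measurable f2 := hmb.indicator hnear
  set X1 := fib W0 f1 x0 with hX1
  set X2 := fib W0 f2 x0 with hX2
  -- the shell integral
  have hFA := measurable_FA hTm hK hs hb
  have e1 : ∫⁻ H, ENNReal.ofReal (Real.exp (H / 8)) * fib W0 (R.indicator (hh K s b H 0)) x0 ≤
      8 * (X1 + X2) := by
    have h1 : ∀ H, ENNReal.ofReal (Real.exp (H / 8)) * fib W0 (R.indicator (hh K s b H 0)) x0 =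
        ∫⁻ z, FA R K s b H (Vale.Agent.P262.H395.mix W0 x0 z) ∂stdGaussian E := by
      intro H
      unfold FA fib
      rw [lintegral_const_mul' _ _ ENNReal.ofReal_ne_top]
    simp_rw [h1]
    rw [lintegral_lintegral_swap]
    · have h2 : ∀ z, ∫⁻ H, FA R K s b H (Vale.Agent.P262.H395.mix W0 x0 z) ≤
          8 * (f1 (Vale.Agent.P262.H395.mix W0 x0 z) + f2 (Vale.Agent.P262.H395.mix W0 x0 z)) :=
        fun z => inner_upper R K s b _
      refine (lintegral_mono h2).trans (le_of_eq ?_)
      rw [hX1, hX2, ← fib_add hf1m]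
      unfold fib
      rw [lintegral_const_mul' _ _ (by norm_num)]
    · have h3 : Measurable fun p : ℝ × E => (p.1, Vale.Agent.P262.H395.mix W0 x0 p.2) :=
        measurable_fst.prodMk ((measurable_mix_right W0 x0).comp measurable_snd)
      exact (hFA.comp h3).aemeasurable
  have e2 : ENNReal.ofReal (Real.exp (-(1 / 8))) * X1 ≤
      ∫⁻ H, ENNReal.ofReal (Real.exp (H / 8)) *
        fib W0 (R.indicator ((Sp K s b H 0 \ Sp K s b H 1).indicator (wt s H))) x0 := by
    have hFS := measurable_FS hTm hK hs hb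
    have h1 : ∀ H, ENNReal.ofReal (Real.exp (H / 8)) *
        fib W0 (R.indicator ((Sp K s b H 0 \ Sp K s b H 1).indicator (wt s H))) x0 =
        ∫⁻ z, FS R K s b H (Vale.Agent.P262.H395.mix W0 x0 z) ∂stdGaussian E := by
      intro H
      unfold FS fib
      rw [lintegral_const_mul' _ _ ENNReal.ofReal_ne_top]
    simp_rw [h1]
    rw [lintegral_lintegral_swap]
    · refine le_trans (le_of_eq ?_) (lintegral_mono fun z => inner_lower R K s b _)
      rw [lintegral_const_mul' _ _ ENNReal.ofReal_ne_top]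
      rfl
    · have h3 : Measurable fun p : ℝ × E => (p.1, Vale.Agent.P262.H395.mix W0 x0 p.2) :=
        measurable_fst.prodMk ((measurable_mix_right W0 x0).comp measurable_snd)
      exact (hFS.comp h3).aemeasurable
  have e3 : ENNReal.ofReal (Real.exp (-(1 / 8))) * X1 ≤
      ENNReal.ofReal (704 / c0) * (8 * (X1 + X2)) := by
    refine e2.trans ?_
    refine le_trans ?_ (mul_le_mul' le_rfl e1)
    rw [← lintegral_const_mul' _ _ ENNReal.ofReal_ne_top]
    refine lintegral_mono fun H => ?_
    have := shell_one (by linarith) hK hKc hs hsc hb hbc hlc H hV (hd H) x0 (hroot H)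
    calc _ ≤ ENNReal.ofReal (Real.exp (H / 8)) *
          (ENNReal.ofReal (704 / c0) * fib W0 (R.indicator (hh K s b H 0)) x0) := by
          gcongr
      _ = _ := by ring
  have hX1fin : X1 ≠ ⊤ := by
    obtain ⟨M, hM⟩ := hsK
    have h1 : ∀ y, f1 y ≤ ENNReal.ofReal (Real.exp (M / 8)) := by
      intro y
      by_cases hy : y ∈ R ∩ K ∩ {x | b x ≤ s x}
      · rw [hf1, indicator_of_mem hy]
        refine ENNReal.ofReal_le_ofReal (Real.exp_le_exp.mpr ?_)
        have := hM y hy.1.2
        linarith
      · rw [hf1, indicator_of_notMem hy]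
        exact bot_le
    refine ne_top_of_le_ne_top ENNReal.ofReal_ne_top ((fib_mono h1 x0).trans_eq (fib_const W0 _ x0))
  have hk : ENNReal.ofReal (704 / c0) ≤ ENNReal.ofReal (704 / 2 ^ 14) := by
    refine ENNReal.ofReal_le_ofReal ?_
    gcongr
  have h12 := absorb hX1fin hk e3
  -- conclusion
  have hsum : fib W0 (R.indicator (K.indicator fun x => ENNReal.ofReal (Real.exp (s x / 8)))) x0 ≤
      X1 + X2 := by
    rw [hX1, hX2, ← fib_add hf1m]
    refine fib_mono (fun y => ?_) x0
    by_cases h1 : y ∈ R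
    · rw [indicator_of_mem h1]
      by_cases h2 : y ∈ K
      · rw [indicator_of_mem h2]
        by_cases h3 : b y ≤ s y
        · rw [hf1, hf2, indicator_of_mem (show y ∈ R ∩ K ∩ {x | b x ≤ s x} from ⟨⟨h1, h2⟩, h3⟩)]
          exact le_self_add
        · have h3' : s y < b y := not_le.mp h3
          rw [hf1, hf2, indicator_of_mem (show y ∈ R ∩ K ∩ {x | s x < b x} from ⟨⟨h1, h2⟩, h3'⟩)]
          refine le_trans ?_ le_add_self
          refine ENNReal.ofReal_le_ofReal (Real.exp_le_exp.mpr ?_)
          linarith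
      · rw [indicator_of_notMem h2]
        exact bot_le
    · rw [indicator_of_notMem h1]
      exact bot_le
  have hX2le : X2 ≤ fib W0 (R.indicator (K.indicator fun x =>
      ENNReal.ofReal (Real.exp (b x / 8)))) x0 := by
    refine fib_mono (fun y => ?_) x0
    by_cases hy : y ∈ R ∩ K ∩ {x | s x < b x}
    · rw [hf2, indicator_of_mem hy, indicator_of_mem hy.1.1, indicator_of_mem hy.1.2]
    · rw [hf2, indicator_of_notMem hy]
      exact bot_le
  calc _ ≤ X1 + X2 := hsum
    _ ≤ X2 + X2 := by gcongr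
    _ = 2 * X2 := (two_mul _).symm
    _ ≤ _ := by gcongr

end Vale.Agent.P262.H502
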