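import Mathlib
import Vale.Agent.P262.H502.Shell
import Vale.Agent.P262.H606.Dist

/-!
# P262, block (A3), part 2: exponent preserving tip theorem for DIST caps

`K` closed convex and bounded, `B ⊆ Bl` closed convex (`B = B_i`, `Bl = B_l`, `l ≤ i`), stopped
labels healthy (`2/3`) with flat fibres (`H606.FlatD`): in the visible region the
`exp (dist(·,B)²/8)`-mass of `K` is at most `2 e^{c0/8}` times its `exp (dist(·,Bl)²/8)`-mass.
-/

set_option linter.all false

open MeasureTheory Set Filter ProbabilityTheory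
open scoped ENNReal NNReal Topology RealInnerProductSpace

namespace Vale.Agent.P262.H502

open Vale.Agent.P262.H493 hiding fib
open Vale.Agent.P262.H395
open Vale.Agent.P262.H44
open Vale.Agent.P262.H606 (dw FlatD gd)

variable {E : Type*} [NormedAddCommGroup E] [InnerProductSpace ℝ E] [FiniteDimensional ℝ E]
  [MeasurableSpace E] [BorelSpace E]

lemma continuous_infSq (B : Set E) : Continuous fun x => Metric.infDist x B ^ 2 :=
  (Metric.continuous_infDist_pt B).pow 2

lemma convexOn_infSq {B : Set E} (hB : IsClosed B) (hBc : Convex ℝ B) (hne : B.Nonempty) :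
    ConvexOn ℝ univ fun x => Metric.infDist x B ^ 2 := by
  refine ⟨convex_univ, fun x _ y _ u t hu ht hut => ?_⟩
  obtain ⟨p, hp, hpx⟩ := hB.exists_infDist_eq_dist hne x
  obtain ⟨q, hq, hqy⟩ := hB.exists_infDist_eq_dist hne y
  have h1 : Metric.infDist (u • x + t • y) B ≤ u * dist x p + t * dist y q := by
    refine (Metric.infDist_le_dist_of_mem (hBc hp hq hu ht hut)).trans ?_
    rw [dist_eq_norm, dist_eq_norm, dist_eq_norm]
    have e : u • x + t • y - (u • p + t • q) = u • (x - p) + t • (y - q) := by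
      rw [smul_sub, smul_sub]; abel
    rw [e]
    refine (norm_add_le _ _).trans ?_
    rw [norm_smul, norm_smul, Real.norm_of_nonneg hu, Real.norm_of_nonneg ht]
  have h2 := pow_le_pow_left₀ (Metric.infDist_nonneg (x := u • x + t • y) (s := B)) h1 2
  simp only [smul_eq_mul]
  rw [hpx, hqy]
  refine h2.trans ?_
  have h3 : u = 1 - t := by linarith
  subst h3
  nlinarith [mul_nonneg hu ht, sq_nonneg (dist x p - dist y q)]

lemma wt_eq (B : Set E) (H : ℝ) (x : E) :
    wt (fun x => Metric.infDist x B ^ 2) H x =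
      ENNReal.ofReal (Real.exp (-H / 4)) * dw (1 / 4) B x := by
  unfold wt dw
  rw [← ENNReal.ofReal_mul (Real.exp_pos _).le, ← Real.exp_add]
  congr 2
  ring

/-- deepness of a flat healthy label for the shell laws -/
lemma deep_flat {W : Submodule ℝ E} {B Bl P C : Set E} {ε a : ℝ} (hε : 0 ≤ ε) (hε1 : ε < 1)
    (h : FlatD ε W B P C) (hne : B.Nonempty) (hBl : B ⊆ Bl) (hP : Bl ⊆ P) {K : Set E}
    (hK : IsClosed K) (hBlc : IsClosed Bl) {c0 : ℝ} (H : ℝ) {r : ℝ} (hr0 : 0 ≤ r)
    (hr : r * (1 - ε)⁻¹ + ε ≤ a) (x : E)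
    (hx : ENNReal.ofReal a ≤ fib W (K.indicator 1) x) :
    ENNReal.ofReal r * fib W (hh K (fun x => Metric.infDist x B ^ 2)
      (fun x => Metric.infDist x Bl ^ 2 + c0) H 0) x ≤
      fib W (hh K (fun x => Metric.infDist x B ^ 2)
      (fun x => Metric.infDist x Bl ^ 2 + c0) H c0) x := by
  set s : E → ℝ := fun x => Metric.infDist x B ^ 2 with hs
  set b : E → ℝ := fun x => Metric.infDist x Bl ^ 2 + c0 with hb
  have hsc : Continuous s := continuous_infSq B
  have hbc : Continuous b := (continuous_infSq Bl).add continuous_const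
  have hBlne : Bl.Nonempty := hne.mono hBl
  by_cases hω : Metric.infDist x P ^ 2 ≤ H - c0
  · -- the label meets the support
    have hSm := (isClosed_Sp hK hsc hbc H c0).measurableSet
    have h1 : fib W (K.indicator 1) x ≤
        fib W ((Sp K s b H c0).indicator 1) x + ENNReal.ofReal ε := by
      refine h.fib_inter_le hε hK.measurableSet hSm x fun z hz hzK => ?_
      have h2 : s (Vale.Agent.P262.H395.mix W x z) ≤ Metric.infDist x P ^ 2 :=
        h.dist_le_of_mem hε1 hne x hz
      refine ⟨hzK, h2.trans hω, ?_⟩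
      have h3 : Metric.infDist (Vale.Agent.P262.H395.mix W x z) Bl ≤
          Metric.infDist (Vale.Agent.P262.H395.mix W x z) B :=
        Metric.infDist_le_infDist_of_subset hBl hne
      have h4 := pow_le_pow_left₀ Metric.infDist_nonneg h3 2
      show Metric.infDist (Vale.Agent.P262.H395.mix W x z) Bl ^ 2 + c0 ≤ H
      have h5 : Metric.infDist (Vale.Agent.P262.H395.mix W x z) B ^ 2 ≤
        Metric.infDist x P ^ 2 := h2
      linarith
    -- lower bound
    have hlow : ENNReal.ofReal (Real.exp (-H / 4)) *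
        (dw (1 / 4) P x * fib W ((Sp K s b H c0).indicator 1) x) ≤ fib W (hh K s b H c0) x := by
      have h2 := h.le_fib_dw hne (by norm_num : (0 : ℝ) ≤ 1 / 4) (Sp K s b H c0) hSm x
      refine (mul_le_mul' le_rfl h2).trans ?_
      rw [← fib_mul (inv_const W _) ((Vale.Agent.P262.H606.continuous_dw _ _).measurable.indicator hSm)]
      refine fib_mono (fun y => ?_) x
      unfold hh
      by_cases hy : y ∈ Sp K s b H c0
      · rw [indicator_of_mem hy, indicator_of_mem hy, wt_eq]
      · rw [indicator_of_notMem hy, indicator_of_notMem hy, mul_zero]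
    -- upper bound
    have hup : fib W (hh K s b H 0) x ≤ ENNReal.ofReal (Real.exp (-H / 4)) *
        (dw (1 / 4) P x * ENNReal.ofReal ((1 - ε)⁻¹)) := by
      have h2 := h.fib_dw_le hε1 hne (by norm_num : (0 : ℝ) ≤ 1 / 4) le_rfl x
      refine le_trans ?_ (mul_le_mul' le_rfl h2)
      rw [← fib_mul (inv_const W _) (Vale.Agent.P262.H606.continuous_dw _ _).measurable]
      refine fib_mono (fun y => ?_) x
      unfold hh
      refine (indicator_le_self' (fun _ _ => bot_le) y).trans ?_
      rw [wt_eq]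
    -- health of the support
    have hS : ENNReal.ofReal (r * (1 - ε)⁻¹) ≤ fib W ((Sp K s b H c0).indicator 1) x := by
      have h2 : ENNReal.ofReal (r * (1 - ε)⁻¹) + ENNReal.ofReal ε ≤
          fib W ((Sp K s b H c0).indicator 1) x + ENNReal.ofReal ε := by
        have h1ε : 0 < 1 - ε := by linarith
        rw [← ENNReal.ofReal_add (by positivity) hε]
        exact (ENNReal.ofReal_le_ofReal hr).trans (hx.trans h1)
      exact (ENNReal.add_le_add_iff_right ENNReal.ofReal_ne_top).mp h2
    calc ENNReal.ofReal r * fib W (hh K s b H 0) x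
        ≤ ENNReal.ofReal r * (ENNReal.ofReal (Real.exp (-H / 4)) *
          (dw (1 / 4) P x * ENNReal.ofReal ((1 - ε)⁻¹))) := by gcongr
      _ = ENNReal.ofReal (Real.exp (-H / 4)) *
          (dw (1 / 4) P x * ENNReal.ofReal (r * (1 - ε)⁻¹)) := by
          rw [ENNReal.ofReal_mul hr0]; ring
      _ ≤ ENNReal.ofReal (Real.exp (-H / 4)) *
          (dw (1 / 4) P x * fib W ((Sp K s b H c0).indicator 1) x) := by gcongr
      _ ≤ _ := hlow
  · have h0 : fib W (hh K s b H 0) x = 0 := by
      have h1 : ∀ z, hh K s b H 0 (Vale.Agent.P262.H395.mix W x z) = 0 := by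
        intro z
        unfold hh
        rw [indicator_of_notMem]
        rintro ⟨_, _, h3⟩
        apply hω
        have h4 : Metric.infDist x P ≤ Metric.infDist (Vale.Agent.P262.H395.mix W x z) Bl := by
          rw [← Vale.Agent.P262.H606.infDist_mix h.cyl x z]
          exact Metric.infDist_le_infDist_of_subset hP hBlne
        have h5 := pow_le_pow_left₀ Metric.infDist_nonneg h4 2
        have h6 : Metric.infDist (Vale.Agent.P262.H395.mix W x z) Bl ^ 2 + c0 ≤ H := h3
        linarith
      unfold fib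
      simp [h1]
    rw [h0, mul_zero]
    exact bot_le

/-- all stopped labels healthy and flat -/
def Flt (K B Bl : Set E) : STree E → Prop
  | STree.leaf => True
  | STree.node W D cls sub => (∀ x ∈ D, ENNReal.ofReal (2 / 3) ≤ fib W (K.indicator 1) x) ∧
      (∃ P C, FlatD (1 / 10) W B P C ∧ Bl ⊆ P) ∧ ∀ n, Flt K B Bl (sub n)

lemma Flt.deep {K B Bl : Set E} (hne : B.Nonempty) (hBl : B ⊆ Bl) (hK : IsClosed K)
    (hBlc : IsClosed Bl) {c0 : ℝ} (H : ℝ) : ∀ T : STree E, Flt K B Bl T →
      T.Deep (hh K (fun x => Metric.infDist x B ^ 2) (fun x => Metric.infDist x Bl ^ 2 + c0) H 0)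
        (hh K (fun x => Metric.infDist x B ^ 2) (fun x => Metric.infDist x Bl ^ 2 + c0) H c0) := by
  intro T
  induction T with
  | leaf => intro _; trivial
  | node W D cls sub ih =>
    rintro ⟨h1, ⟨P, C, hF, hP⟩, h3⟩
    refine ⟨fun x hx => ?_, fun n => ih n (h3 n)⟩
    exact deep_flat (by norm_num) (by norm_num) hF hne hBl hP hK hBlc H (by norm_num)
      (by norm_num) x (h1 x hx)

/-- **(A3), exponent preserving tip theorem for DIST caps** -/
theorem cap_tip {K : Set E} (hK : IsClosed K) (hKc : Convex ℝ K) {R : ℝ}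
    (hKR : K ⊆ Metric.closedBall 0 R) {B Bl : Set E} (hB : IsClosed B) (hBc : Convex ℝ B)
    (hne : B.Nonempty) (hBl : IsClosed Bl) (hBlc : Convex ℝ Bl) (hsub : B ⊆ Bl)
    {T : STree E} {W0 : Submodule ℝ E} (hV : T.Valid W0) (hT : Flt K B Bl T)
    (hF0 : ∃ P C, FlatD (1 / 10) W0 B P C ∧ Bl ⊆ P) (x0 : E)
    (hroot : ENNReal.ofReal (1 / 2) ≤ fib W0 (K.indicator 1) x0) :
    fib W0 (T.reg.indicator (K.indicator (dw (1 / 8) B))) x0 ≤
      ENNReal.ofReal (2 * Real.exp (2 ^ 11)) *
        fib W0 (T.reg.indicator (K.indicator (dw (1 / 8) Bl))) x0 := by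
  obtain ⟨P, C, hF, hP⟩ := hF0
  have hlc : LogConc fun x => GG x * ENNReal.ofReal (Real.exp (Metric.infDist x B ^ 2 / 4)) := by
    have := Vale.Agent.P262.H606.gd_dw_lc (E := E) hB hne (by norm_num : (0 : ℝ) ≤ 1 / 4)
      (by norm_num)
    have e : (fun x => GG x * ENNReal.ofReal (Real.exp (Metric.infDist x B ^ 2 / 4))) =
        fun x => gd x * dw (1 / 4) B x := by
      funext x
      unfold GG gd dw
      congr 3
      ring
    rw [e]
    exact this
  obtain ⟨p, hp⟩ := hne
  have key := shell_abs (c0 := 2 ^ 14) le_rfl hK hKc (continuous_infSq B)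
    (convexOn_infSq hB hBc ⟨p, hp⟩) ((continuous_infSq Bl).add continuous_const)
    (((convexOn_infSq hBl hBlc ⟨p, hsub hp⟩)).add (convexOn_const (2 ^ 14) convex_univ)) hlc
    ⟨(R + ‖p‖) ^ 2, fun x hx => by
      have h1 : Metric.infDist x B ≤ R + ‖p‖ := by
        refine (Metric.infDist_le_dist_of_mem hp).trans ?_
        rw [dist_eq_norm]
        refine (norm_sub_le _ _).trans ?_
        have := hKR hx
        rw [mem_closedBall_zero_iff] at this
        linarith
      exact pow_le_pow_left₀ Metric.infDist_nonneg h1 2⟩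
    hV (fun H => Flt.deep ⟨p, hp⟩ hsub hK hBl H T hT) x0
    (fun H => deep_flat (by norm_num) (by norm_num) hF ⟨p, hp⟩ hsub hP hK hBl H (by norm_num)
      (by norm_num : (1 / 4 : ℝ) * (1 - 1 / 10)⁻¹ + 1 / 10 ≤ 1 / 2) x0 hroot)
  have e1 : (fun x => ENNReal.ofReal (Real.exp (Metric.infDist x B ^ 2 / 8))) = dw (1 / 8) B := by
    funext x
    unfold dw
    congr 2
    ring
  have e2 : (fun x => ENNReal.ofReal (Real.exp ((Metric.infDist x Bl ^ 2 + 2 ^ 14) / 8))) =
      fun x => ENNReal.ofReal (Real.exp (2 ^ 11)) * dw (1 / 8) Bl x := by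
    funext x
    unfold dw
    rw [← ENNReal.ofReal_mul (Real.exp_pos _).le, ← Real.exp_add]
    congr 2
    ring
  have hTm := STree.measurableSet_reg T hV
  have e3 : fib W0 (T.reg.indicator (K.indicator fun x =>
      ENNReal.ofReal (Real.exp (2 ^ 11)) * dw (1 / 8) Bl x)) x0 =
      ENNReal.ofReal (Real.exp (2 ^ 11)) *
        fib W0 (T.reg.indicator (K.indicator (dw (1 / 8) Bl))) x0 := by
    rw [← fib_mul (inv_const W0 _) (((Vale.Agent.P262.H606.continuous_dw _ _).measurable.indicator
      hK.measurableSet).indicator hTm)]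
    congr 1
    funext y
    by_cases h1 : y ∈ T.reg
    · rw [indicator_of_mem h1, indicator_of_mem h1]
      by_cases h2 : y ∈ K
      · rw [indicator_of_mem h2, indicator_of_mem h2]
      · rw [indicator_of_notMem h2, indicator_of_notMem h2, mul_zero]
    · rw [indicator_of_notMem h1, indicator_of_notMem h1, mul_zero]
  simp only [Pi.add_apply] at key
  rw [e1, e2, e3] at key
  refine key.trans (le_of_eq ?_)
  rw [ENNReal.ofReal_mul (by norm_num), mul_assoc]
  norm_num

end Vale.Agent.P262.H502
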