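import Mathlib
import Vale.Agent.P262.H502.CapTip
import Vale.Agent.P262.H924.Box2

/-!
# P262, block (A3), part 3: the tip theorem for the box caps of milestone 1

Names of helper924: `Box f h j`, `cap A0 kap f h j`, `Cb f h i j`; flag `L f j` of helper118.
-/

set_option linter.all false

open MeasureTheory Set Filter ProbabilityTheory
open scoped ENNReal NNReal Topology RealInnerProductSpace

namespace Vale.Agent.P262.H502

open Vale.Agent.P262.H395
open Vale.Agent.P262.H44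
open Vale.Agent.P262.H118
open Vale.Agent.P262.H924
open Vale.Agent.P262.H606 (dw FlatD gd)

variable {E : Type*} [NormedAddCommGroup E] [InnerProductSpace ℝ E] [FiniteDimensional ℝ E]
  [MeasurableSpace E] [BorelSpace E]

/-- flags as trees -/
def chain (W : ℕ → Submodule ℝ E) (D : ℕ → Set E) : ℕ → ℕ → STree E
  | _, 0 => STree.leaf
  | r, n + 1 => STree.node (W r) (D r) (fun _ => 0) (fun _ => chain W D (r + 1) n)

omit [FiniteDimensional ℝ E] [MeasurableSpace E] [BorelSpace E] in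
lemma reg_chain (W : ℕ → Submodule ℝ E) (D : ℕ → Set E) : ∀ (n r : ℕ),
    (chain W D r n).reg = {x | ∀ k, r ≤ k → k < r + n → x ∉ D k} := by
  intro n
  induction n with
  | zero =>
    intro r
    ext x
    simp only [chain, STree.reg, mem_univ, mem_setOf_eq, true_iff]
    intro k h1 h2
    omega
  | succ n ih =>
    intro r
    ext x
    simp only [chain, STree.reg, ih (r + 1), mem_setOf_eq]
    constructor
    · rintro ⟨h1, h2⟩ k h3 h4
      rcases Nat.eq_or_lt_of_le h3 with h5 | h5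
      · rw [← h5]; exact h1
      · exact h2 k h5 (by omega)
    · intro h
      exact ⟨h r le_rfl (by omega), fun k h3 h4 => h k (by omega) (by omega)⟩

omit [FiniteDimensional ℝ E] [BorelSpace E] in
lemma valid_chain {W : ℕ → Submodule ℝ E} {D : ℕ → Set E} : ∀ (n r : ℕ) {W0 : Submodule ℝ E},
    W0 ≤ W r → (∀ k, r ≤ k → k + 1 < r + n → W k ≤ W (k + 1)) →
    (∀ k, r ≤ k → k < r + n → MeasurableSet (D k)) →
    (∀ k, r ≤ k → k < r + n → InvS (W k) (D k)) → (chain W D r n).Valid W0 := by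
  intro n
  induction n with
  | zero => intro r W0 _ _ _ _; trivial
  | succ n ih =>
    intro r W0 h0 hW hm hi
    refine ⟨h0, hm r le_rfl (by omega), hi r le_rfl (by omega), measurable_const,
      fun _ _ _ => rfl, fun _ => ?_⟩
    cases n with
    | zero => trivial
    | succ n =>
      refine ih (r + 1) (hW r le_rfl (by omega)) (fun k h1 h2 => hW k (by omega) (by omega))
        (fun k h1 h2 => hm k (by omega) (by omega)) (fun k h1 h2 => hi k (by omega) (by omega))

lemma flt_chain {K B Bl : Set E} {W : ℕ → Submodule ℝ E} {D : ℕ → Set E} : ∀ (n r : ℕ),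
    (∀ k, r ≤ k → k < r + n → ∀ x ∈ D k, ENNReal.ofReal (2 / 3) ≤ fib (W k) (K.indicator 1) x) →
    (∀ k, r ≤ k → k < r + n → ∃ P C, FlatD (1 / 10) (W k) B P C ∧ Bl ⊆ P) →
    Flt K B Bl (chain W D r n) := by
  intro n
  induction n with
  | zero => intro r _ _; trivial
  | succ n ih =>
    intro r h1 h2
    exact ⟨h1 r le_rfl (by omega), h2 r le_rfl (by omega), fun _ =>
      ih (r + 1) (fun k h3 h4 => h1 k (by omega) (by omega))
        (fun k h3 h4 => h2 k (by omega) (by omega))⟩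

variable {f : ℕ → E} {h A0 kap : ℝ} {d : ℕ}

omit [FiniteDimensional ℝ E] [MeasurableSpace E] [BorelSpace E] in
lemma box_add_perp {j : ℕ} (x : E) {w : E} (hw : w ∈ (L f j)ᗮ) :
    x + w ∈ Box f h j ↔ x ∈ Box f h j := by
  unfold Box
  simp only [mem_setOf_eq]
  refine forall_congr' fun k => forall_congr' fun hk => ?_
  rw [inner_add_right, inner_perp hk hw, add_zero]

/-- the box caps are flat below every label -/
lemma flatD_box (hf : ONB f d) (hh : 0 ≤ h) (h2 : 2 * d * Real.exp (-h ^ 2 / 2) ≤ 1 / 10)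
    {j i : ℕ} (hji : j ≤ i) (hi : i ≤ d) :
    FlatD (1 / 10) (L f j) (Box f h i) (Box f h j) (Cb f h j i) where
  clP := isClosed_Box j
  cyl := fun x w hw => box_add_perp x hw
  sub := Box_antitone hji
  clC := isClosed_Cb j i
  mix := fun p hp c hc => mix_mem_Box hf hi hp hc
  gam := by
    have h1 := gauss_Cb_compl (f := f) hf hh (i := j) hi
    have h3 : stdGaussian E (Cb f h j i)ᶜ ≤ ENNReal.ofReal (1 / 10) := by
      refine h1.trans (ENNReal.ofReal_le_ofReal (le_trans ?_ h2))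
      have h4 : ((i - j : ℕ) : ℝ) ≤ d := by
        exact_mod_cast (Nat.sub_le i j).trans hi
      gcongr
    have h5 := measure_add_measure_compl (μ := stdGaussian E) (isClosed_Cb (f := f) (h := h) j i).measurableSet
    rw [measure_univ] at h5
    have h6 : (1 : ℝ≥0∞) ≤ stdGaussian E (Cb f h j i) + ENNReal.ofReal (1 / 10) := by
      rw [← h5]
      gcongr
    have h7 : ENNReal.ofReal (1 - 1 / 10) + ENNReal.ofReal (1 / 10) = 1 := by
      rw [← ENNReal.ofReal_add (by norm_num) (by norm_num)]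
      norm_num
    rw [← h7] at h6
    exact (ENNReal.add_le_add_iff_right ENNReal.ofReal_ne_top).mp h6

lemma cap_eq_dw (hf : ONB f d) (hh : 0 ≤ h) (hA : 0 ≤ A0) (hk : 0 ≤ kap) {j : ℕ} (hj : j ≤ d) :
    cap A0 kap f h j = fun x => ENNReal.ofReal (A0 * kap ^ j) * dw (1 / 8) (Box f h j) x := by
  funext x
  unfold cap capR dw
  rw [infDist_box_sq hf hj hh, ← ENNReal.ofReal_mul (by positivity)]
  congr 3
  ring

lemma fib_ind_mul_const {W0 : Submodule ℝ E} {R K : Set E} (hR : MeasurableSet R)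
    (hK : MeasurableSet K) {g : E → ℝ≥0∞} (hg : Measurable g) (c : ℝ≥0∞) (x0 : E) :
    fib W0 (R.indicator (K.indicator fun x => c * g x)) x0 =
      c * fib W0 (R.indicator (K.indicator g)) x0 := by
  rw [← fib_mul (inv_const W0 _) ((hg.indicator hK).indicator hR)]
  congr 1
  funext y
  by_cases h1 : y ∈ R
  · rw [indicator_of_mem h1, indicator_of_mem h1]
    by_cases h2 : y ∈ K
    · rw [indicator_of_mem h2, indicator_of_mem h2]
    · rw [indicator_of_notMem h2, indicator_of_notMem h2, mul_zero]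
  · rw [indicator_of_notMem h1, indicator_of_notMem h1, mul_zero]

/-- **(A3) for the box caps of milestone 1**: stopped sets `D k`, `r ≤ k ≤ l`, any jump `l → i`. -/
theorem box_tip (hf : ONB f d) (hh : 0 ≤ h) (h2 : 2 * d * Real.exp (-h ^ 2 / 2) ≤ 1 / 10)
    (hA : 0 ≤ A0) (hkap : 0 ≤ kap) {r l i : ℕ} (hrl : r ≤ l) (hli : l ≤ i) (hi : i ≤ d)
    {K : Set E} (hK : IsClosed K) (hKc : Convex ℝ K) {R : ℝ} (hKR : K ⊆ Metric.closedBall 0 R)
    {D : ℕ → Set E} (hDm : ∀ k, r ≤ k → k ≤ l → MeasurableSet (D k))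
    (hDi : ∀ k, r ≤ k → k ≤ l → ∀ x, ∀ w ∈ (L f k)ᗮ, (x + w ∈ D k ↔ x ∈ D k))
    (hdeep : ∀ k, r ≤ k → k ≤ l → ∀ x ∈ D k,
      ENNReal.ofReal (2 / 3) ≤ fib (L f k) (K.indicator 1) x) (x0 : E)
    (hroot : ENNReal.ofReal (1 / 2) ≤ fib (L f r) (K.indicator 1) x0) :
    fib (L f r) ({x | ∀ k, r ≤ k → k ≤ l → x ∉ D k}.indicator
      (K.indicator (cap A0 kap f h i))) x0 ≤
      ENNReal.ofReal (2 * Real.exp (2 ^ 11) * kap ^ (i - l)) *
        fib (L f r) ({x | ∀ k, r ≤ k → k ≤ l → x ∉ D k}.indicator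
          (K.indicator (cap A0 kap f h l))) x0 := by
  obtain ⟨n, hn⟩ : ∃ n, r + n = l + 1 := ⟨l + 1 - r, by omega⟩
  have hreg := reg_chain (L f) D n r
  have hset : {x | ∀ k, r ≤ k → k < r + n → x ∉ D k} = {x : E | ∀ k, r ≤ k → k ≤ l → x ∉ D k} := by
    ext x
    simp only [mem_setOf_eq]
    constructor
    · intro H k h1 h3; exact H k h1 (by omega)
    · intro H k h1 h3; exact H k h1 (by omega)
  rw [hset] at hreg
  have hV : (chain (L f) D r n).Valid (L f r) :=
    valid_chain n r le_rfl (fun k _ _ => L_mono f (by omega))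
      (fun k h1 h3 => hDm k h1 (by omega)) (fun k h1 h3 => hDi k h1 (by omega))
  have hFlt : Flt K (Box f h i) (Box f h l) (chain (L f) D r n) :=
    flt_chain n r (fun k h1 h3 => hdeep k h1 (by omega)) (fun k h1 h3 =>
      ⟨Box f h k, Cb f h k i, flatD_box hf hh h2 (by omega) hi, Box_antitone (by omega)⟩)
  have hne : (Box f h i).Nonempty := ⟨0, fun k _ => by simpa using hh⟩
  have key := cap_tip hK hKc hKR (isClosed_Box i) (convex_Box i) hne (isClosed_Box l)
    (convex_Box l) (Box_antitone hli) hV hFlt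
    ⟨Box f h r, Cb f h r i, flatD_box hf hh h2 (by omega) hi, Box_antitone hrl⟩ x0 hroot
  rw [hreg] at key
  have hRm : MeasurableSet {x : E | ∀ k, r ≤ k → k ≤ l → x ∉ D k} := by
    rw [← hreg]; exact STree.measurableSet_reg _ hV
  rw [cap_eq_dw hf hh hA hkap hi, cap_eq_dw hf hh hA hkap (hli.trans hi),
    fib_ind_mul_const hRm hK.measurableSet (Vale.Agent.P262.H606.continuous_dw _ _).measurable,
    fib_ind_mul_const hRm hK.measurableSet (Vale.Agent.P262.H606.continuous_dw _ _).measurable]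
  refine (mul_le_mul' le_rfl key).trans (le_of_eq ?_)
  rw [← mul_assoc, ← mul_assoc, ← ENNReal.ofReal_mul (by positivity),
    ← ENNReal.ofReal_mul (by positivity)]
  congr 2
  have e : kap ^ i = kap ^ (i - l) * kap ^ l := by rw [← pow_add]; congr 1; omega
  rw [e]
  ring

/-- (A3) for the box caps, root = the whole space -/
theorem box_tip_int (hf : ONB f d) (hh : 0 ≤ h) (h2 : 2 * d * Real.exp (-h ^ 2 / 2) ≤ 1 / 10)
    (hA : 0 ≤ A0) (hkap : 0 ≤ kap) {l i : ℕ} (hli : l ≤ i) (hi : i ≤ d)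
    {K : Set E} (hK : IsClosed K) (hKc : Convex ℝ K) {R : ℝ} (hKR : K ⊆ Metric.closedBall 0 R)
    {D : ℕ → Set E} (hDm : ∀ k, k ≤ l → MeasurableSet (D k))
    (hDi : ∀ k, k ≤ l → ∀ x, ∀ w ∈ (L f k)ᗮ, (x + w ∈ D k ↔ x ∈ D k))
    (hdeep : ∀ k, k ≤ l → ∀ x ∈ D k,
      ENNReal.ofReal (2 / 3) ≤ fib (L f k) (K.indicator 1) x)
    (hroot : ENNReal.ofReal (1 / 2) ≤ stdGaussian E K) :
    ∫⁻ x, {x | ∀ k, k ≤ l → x ∉ D k}.indicator (K.indicator (cap A0 kap f h i)) x
        ∂stdGaussian E ≤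
      ENNReal.ofReal (2 * Real.exp (2 ^ 11) * kap ^ (i - l)) *
        ∫⁻ x, {x | ∀ k, k ≤ l → x ∉ D k}.indicator (K.indicator (cap A0 kap f h l)) x
          ∂stdGaussian E := by
  have hroot' : ENNReal.ofReal (1 / 2) ≤ fib (L f 0) (K.indicator 1) 0 := by
    show _ ≤ fib (⊥ : Submodule ℝ E) (K.indicator 1) 0
    rw [fib_bot, lintegral_indicator_one hK.measurableSet]
    exact hroot
  have key := box_tip (r := 0) hf hh h2 hA hkap (Nat.zero_le l) hli hi hK hKc hKR
    (fun k _ h3 => hDm k h3) (fun k _ h3 => hDi k h3) (fun k _ h3 => hdeep k h3) 0 hroot'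
  have e : {x : E | ∀ k, 0 ≤ k → k ≤ l → x ∉ D k} = {x : E | ∀ k, k ≤ l → x ∉ D k} := by
    ext x; simp
  rw [e] at key
  have key' : fib (⊥ : Submodule ℝ E) ({x | ∀ k, k ≤ l → x ∉ D k}.indicator
      (K.indicator (cap A0 kap f h i))) 0 ≤
      ENNReal.ofReal (2 * Real.exp (2 ^ 11) * kap ^ (i - l)) *
        fib (⊥ : Submodule ℝ E) ({x | ∀ k, k ≤ l → x ∉ D k}.indicator
          (K.indicator (cap A0 kap f h l))) 0 := key
  rw [fib_bot, fib_bot] at key'
  exact key'

end Vale.Agent.P262.H502
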