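import Mathlib
import Vale.Agent.P262.M1.Blocks
import Vale.Agent.P262.H118.Bod
import Vale.Agent.P262.H359.Top
import Vale.Agent.P262.H703.Wrap

/-!
# P262, milestone 1: elementary facts about `M1.Sys` (bodies, rule sets, nested blocks)
-/

set_option linter.all false

open MeasureTheory ProbabilityTheory Set
open scoped ENNReal RealInnerProductSpace
open Vale.Agent.P262.H118 (L Iv st en ONB K1 rotE ON tau)
open Vale.Agent.P262.H395 (fib mix Inv)
open Vale.Agent.P262.H493 (star)

namespace Vale.Agent.P262.H502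

open Vale.Agent.P262.M1 Vale.Agent.P262.H395

variable {E : Type*} [NormedAddCommGroup E] [InnerProductSpace ℝ E] [FiniteDimensional ℝ E]

lemma body_subset (v : ℕ → E) (R : ℝ) (t : ℕ) : body v R t ⊆ Metric.closedBall 0 R := by
  cases t with
  | zero => exact subset_rfl
  | succ t => exact inter_subset_right

lemma isCompact_body (v : ℕ → E) (R : ℝ) (t : ℕ) : IsCompact (body v R t) := by
  induction t with
  | zero => exact isCompact_closedBall 0 R
  | succ t ih =>
    exact (isCompact_closedBall (0 : E) R).inter_left (Vale.Agent.P262.H359.isClosed_star ih _)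

lemma convex_body (v : ℕ → E) (R : ℝ) (t : ℕ) : Convex ℝ (body v R t) := by
  induction t with
  | zero => exact convex_closedBall 0 R
  | succ t ih => exact (Vale.Agent.P262.H703.convex_star ih _).inter (convex_closedBall 0 R)

variable [MeasurableSpace E] [BorelSpace E] (S : Sys E)

lemma Sys_X_eq (i m : ℕ) : S.X i m = S.el.Bd (body S.v S.R) i m := by
  unfold Sys.X Sys.Kb Sys.cnt Sys.IsStar Sys.tm H118.Elem.Bd H118.Elem.Kb
  by_cases h : m = S.el.n (tau S.el.n m)
  · rw [if_pos h, if_pos h]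
  · rw [if_neg h, if_neg h]

lemma isClosed_X (i m : ℕ) : IsClosed (S.X i m) := by
  rw [Sys_X_eq]
  exact S.el.isClosed_Bd (fun t => (isCompact_body _ _ t).isClosed) i m

lemma convex_X (i m : ℕ) : Convex ℝ (S.X i m) := by
  rw [Sys_X_eq]
  exact S.el.convex_Bd (fun t => convex_body _ _ t) i m

lemma X_subset_ball (i m : ℕ) : S.X i m ⊆ Metric.closedBall 0 S.R := by
  rw [Sys_X_eq]
  exact S.el.Bd_subset_ball (fun t => body_subset _ _ t) i m

lemma measurableSet_X (i m : ℕ) : MeasurableSet (S.X i m) := (isClosed_X S i m).measurableSet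

lemma measurable_De (i m : ℕ) : Measurable (S.De i m) :=
  measurable_fib (measurable_one.indicator (measurableSet_X S i m).compl)

lemma measurable_Dc (i m : ℕ) : Measurable (S.Dc i m) :=
  measurable_fib (measurable_one.indicator
    ((measurableSet_X S i m).inter (measurableSet_X S i (m + 1))).compl)

lemma inv_De (i m : ℕ) : Inv (L S.f i) (S.De i m) := inv_fib _ _

lemma inv_Dc (i m : ℕ) : Inv (L S.f i) (S.Dc i m) := inv_fib _ _

lemma measurableSet_Z (i : ℕ) : MeasurableSet (S.cp.Z i) := by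
  have := (S.cp.Z_closed i).measurableSet.compl
  rwa [compl_compl] at this

lemma measurableSet_om (i m : ℕ) : MeasurableSet (S.om i m) := by
  have h1 : MeasurableSet {x | ENNReal.ofReal (S.cp.A i x) ≤ S.De i (S.eB i m) x} :=
    measurableSet_le (S.cp.A_meas i).ennreal_ofReal (measurable_De S i _)
  have h2 : ∀ k, MeasurableSet {x | ENNReal.ofReal (S.M * S.cp.A i x) ≤ S.Dc i k x} := fun k =>
    measurableSet_le ((S.cp.A_meas i).const_mul _).ennreal_ofReal (measurable_Dc S i k)
  have e : S.om i m = (S.cp.Z i)ᶜ ∩ ({x | ENNReal.ofReal (S.cp.A i x) ≤ S.De i (S.eB i m) x} ∪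
      ⋃ k : {k // S.sB i m ≤ k ∧ k < S.eB i m},
        {x | ENNReal.ofReal (S.M * S.cp.A i x) ≤ S.Dc i k x}) := by
    ext x
    simp only [Sys.om, mem_setOf_eq, mem_inter_iff, mem_compl_iff, mem_union, mem_iUnion,
      Subtype.exists, exists_prop, and_assoc]
  rw [e]
  exact (measurableSet_Z S i).compl.inter (h1.union (MeasurableSet.iUnion fun k => h2 k))

lemma cyl_om (i m : ℕ) (x w : E) (hw : w ∈ (L S.f i)ᗮ) : x + w ∈ S.om i m ↔ x ∈ S.om i m := by
  simp only [Sys.om, mem_setOf_eq, S.cp.Z_cyl i x w hw, S.cp.A_cyl i x w hw,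
    inv_De S i _ x w hw, inv_Dc S i _ x w hw]

lemma om_subset (i m : ℕ) : S.om i m ⊆ (S.cp.Z i)ᶜ := fun _ h => h.1

lemma Z_mono_le {i j : ℕ} (h : i ≤ j) : S.cp.Z i ⊆ S.cp.Z j := by
  induction j, h using Nat.le_induction with
  | base => exact subset_rfl
  | succ j _ ih => exact ih.trans (S.cp.Z_mono j)

lemma measurableSet_OM (r m : ℕ) : MeasurableSet (S.OM r m) := by
  have e : S.OM r m = ⋂ i : {i // i ≤ r}, S.om i m := by
    ext x
    simp only [Sys.OM, mem_setOf_eq, mem_iInter, Subtype.forall]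
  rw [e]
  exact MeasurableSet.iInter fun i => measurableSet_om S i m

lemma cyl_OM (r m : ℕ) (x w : E) (hw : w ∈ (L S.f r)ᗮ) : x + w ∈ S.OM r m ↔ x ∈ S.OM r m := by
  simp only [Sys.OM, mem_setOf_eq]
  refine forall_congr' fun i => forall_congr' fun hi => ?_
  exact cyl_om S i m x w (Submodule.orthogonal_le (H118.L_mono _ hi) hw)

/-! ### the time axis -/

lemma strictMono_n : StrictMono S.el.n := strictMono_nat_of_lt_succ S.el.n_lt

lemma tm_spec (m : ℕ) : S.el.n (S.tm m) ≤ m ∧ m < S.el.n (S.tm m + 1) :=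
  H118.tau_spec S.el.n_zero S.el.n_lt m

lemma tm_lt {m : ℕ} (hm : m ≤ S.mT) : S.tm m < S.T := by
  have h1 := (tm_spec S m).1
  have h2 : 0 < S.el.n S.T := by
    have := (strictMono_n S) S.hT
    omega
  have h3 : S.el.n (S.tm m) < S.el.n S.T := by
    unfold Sys.mT at hm
    omega
  exact (strictMono_n S).lt_iff_lt.1 h3

lemma nb_mono {k l : ℕ} (h : k ≤ l) : S.K.nb k ⊆ S.K.nb l := by
  induction l, h using Nat.le_induction with
  | base => exact subset_rfl
  | succ l _ ih => exact ih.trans ((S.K.nb_subset_nw l).trans (S.K.nw_subset_nb (l + 1)))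

lemma sT_spec {k m : ℕ} (hm : m ≤ S.mT) :
    Iv (S.K.nb k) S.T (S.sT k m) (S.eT k m) ∧ S.sT k m ≤ S.tm m ∧ S.tm m < S.eT k m :=
  H118.iv_st (S.K.zero_mem_nb k) (tm_lt S hm)

lemma sT_mono {k l m : ℕ} (h : k ≤ l) (hm : m ≤ S.mT) : S.sT k m ≤ S.sT l m := by
  by_contra hcon
  push Not at hcon
  have h1 := sT_spec S (k := k) hm
  exact H118.not_mem_of_st (B := S.K.nb l) (t := S.tm m) (r := S.sT k m) hcon h1.2.1
    (nb_mono S h h1.1.1)

lemma eT_anti {k l m : ℕ} (h : k ≤ l) (hm : m ≤ S.mT) : S.eT l m ≤ S.eT k m := by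
  have h1 := sT_spec S (k := k) hm
  have h2 := sT_spec S (k := l) hm
  obtain ⟨a1, a2, a3, a4, a5⟩ := h1.1
  obtain ⟨b1, b2, b3, b4, b5⟩ := h2.1
  rcases a4 with a4 | a4
  · by_contra hcon
    push Not at hcon
    exact b5 (S.eT k m) (by omega) hcon (nb_mono S h a4)
  · omega

lemma sB_le {k m : ℕ} (hm : m ≤ S.mT) : S.el.n (S.sT k m) ≤ S.sB k m := by
  unfold Sys.sB
  have h1 := (sT_spec S (k := k) hm).2.1
  have h2 := (strictMono_n S).monotone h1
  have h3 := tm_spec S m
  split_ifs with a b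
  · omega
  · omega
  · exact le_rfl

lemma le_eB {k m : ℕ} (hm : m ≤ S.mT) : S.eB k m ≤ S.el.n (S.eT k m) - 1 := by
  unfold Sys.eB
  have h1 := (sT_spec S (k := k) hm).2.2
  have h2 := (strictMono_n S).monotone (Nat.succ_le_of_lt h1)
  have h3 := S.el.n_succ (S.tm m)
  split_ifs with a b
  · have : m = S.el.n (S.tm m) := b
    simp only [Nat.succ_eq_add_one] at h2
    omega
  · simp only [Nat.succ_eq_add_one] at h2
    omega
  · exact le_rfl

lemma sB_of_lt {k m : ℕ} (hk : k < S.lf) : S.sB k m = S.el.n (S.sT k m) := by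
  unfold Sys.sB
  rw [if_neg (by omega)]

lemma eB_of_lt {k m : ℕ} (hk : k < S.lf) : S.eB k m = S.el.n (S.eT k m) - 1 := by
  unfold Sys.eB
  rw [if_neg (by omega)]

/-- blocks are nested -/
theorem same_mono {k l m' m : ℕ} (hkl : k ≤ l) (hl : l < S.d) (hm' : m' ≤ S.mT)
    (h : S.Same l m' m) : S.Same k m' m := by
  rcases Nat.eq_or_lt_of_le hkl with rfl | hlt
  · exact h
  have hk : k < S.lf := by unfold Sys.lf; omega
  have h1 := sT_mono S hkl hm'
  have h2 := eT_anti S hkl hm'
  have h3 := (strictMono_n S).monotone h1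
  have h4 := (strictMono_n S).monotone h2
  have h5 := sB_le S (k := l) hm'
  have h6 := le_eB S (k := l) hm'
  obtain ⟨a, b⟩ := h
  constructor
  · rw [sB_of_lt S hk]; omega
  · rw [eB_of_lt S hk]; omega

/-- the block containing `m` -/
lemma same_self {l m : ℕ} (hm : m ≤ S.mT) (hm1 : l = S.lf → S.IsStar m ∨ S.el.n (S.tm m) + 1 ≤ m) :
    S.Same l m m := by
  have h3 := tm_spec S m
  have h1 := sT_spec S (k := l) hm
  have h2 := (strictMono_n S).monotone h1.2.1
  have h4 := (strictMono_n S).monotone (Nat.succ_le_of_lt h1.2.2)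
  simp only [Nat.succ_eq_add_one] at h4
  unfold Sys.Same Sys.sB Sys.eB
  by_cases a : l = S.lf
  · rw [if_pos a, if_pos a]
    by_cases b : S.IsStar m
    · rw [if_pos b, if_pos b]; omega
    · rw [if_neg b, if_neg b]
      rcases hm1 a with c | c
      · exact absurd c b
      · omega
  · rw [if_neg a, if_neg a]; omega

end Vale.Agent.P262.H502
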