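import Mathlib
import Vale.Agent.P262.H502.SysA
import Vale.Agent.P262.H502.BoxTip

/-!
# P262, milestone 1: block (G2) on `M1.Sys`, from (A3) for the caps and (R1)
-/

set_option linter.all false

open MeasureTheory ProbabilityTheory Set
open scoped ENNReal RealInnerProductSpace
open Vale.Agent.P262.H118 (L Iv st en ONB K1 rotE ON tau)
open Vale.Agent.P262.H395 (fib mix Inv)
open Vale.Agent.P262.H493 (star)

namespace Vale.Agent.P262.H502

open Vale.Agent.P262.M1 Vale.Agent.P262.H395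

variable {E : Type*} [NormedAddCommGroup E] [InnerProductSpace ℝ E] [FiniteDimensional ℝ E]
  [MeasurableSpace E] [BorelSpace E]

/-- (A3) for abstract caps: exponent preserving, one constant `C` for all jumps -/
def Tip {f : ℕ → E} {d : ℕ} {R : ℝ} (cp : Caps f d R) (C κ : ℝ) : Prop :=
  ∀ l i, l ≤ i → i < d → ∀ K : Set E, IsClosed K → Convex ℝ K → K ⊆ Metric.closedBall 0 R →
    ∀ D : ℕ → Set E, (∀ k, k ≤ l → MeasurableSet (D k)) →
    (∀ k, k ≤ l → ∀ x, ∀ w ∈ (L f k)ᗮ, (x + w ∈ D k ↔ x ∈ D k)) →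
    (∀ k, k ≤ l → ∀ x ∈ D k, ENNReal.ofReal (2 / 3) ≤ fib (L f k) (K.indicator 1) x) →
    ENNReal.ofReal (1 / 2) ≤ stdGaussian E K →
    ∫⁻ x, {x | ∀ k, k ≤ l → x ∉ D k}.indicator
        (K.indicator (fun x => ENNReal.ofReal (cp.A i x))) x ∂stdGaussian E ≤
      ENNReal.ofReal (C * κ ^ (i - l)) *
        ∫⁻ x, {x | ∀ k, k ≤ l → x ∉ D k}.indicator
          (K.indicator (fun x => ENNReal.ofReal (cp.A l x))) x ∂stdGaussian E

/-- (A3) holds for caps given by 924's formula -/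
theorem tip_box {f : ℕ → E} {d : ℕ} {R h A0 kap : ℝ} (cp : Caps f d R) (hf : ONB f d)
    (hh : 0 ≤ h) (h2 : 2 * d * Real.exp (-h ^ 2 / 2) ≤ 1 / 10) (hA : 0 ≤ A0) (hkap : 0 ≤ kap)
    (hcp : ∀ i, i < d → ∀ x, cp.A i x = H924.capR A0 kap f h i x) :
    Tip cp (2 * Real.exp (2 ^ 11)) kap := by
  intro l i hli hi K hK hKc hKR D hDm hDi hD hroot
  have key := box_tip_int hf hh h2 hA hkap hli hi.le hK hKc hKR hDm hDi hD hroot
  have e : ∀ j, j < d → (fun x => ENNReal.ofReal (cp.A j x)) = H924.cap A0 kap f h j := by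
    intro j hj
    funext x
    rw [hcp j hj x]
    rfl
  rw [e i hi, e l (hli.trans_lt hi)]
  exact key

variable (S : Sys E)

/-- the stopped, not killed labels of level `k` during the block of `m'` -/
def Stp (m' k : ℕ) : Set E := {x | x ∉ S.cp.Z k ∧ x ∉ S.om k m'}

lemma measurableSet_Stp (m' k : ℕ) : MeasurableSet (Stp S m' k) :=
  (measurableSet_Z S k).compl.inter (measurableSet_om S k m').compl

lemma cyl_Stp (m' k : ℕ) (x w : E) (hw : w ∈ (L S.f k)ᗮ) :
    x + w ∈ Stp S m' k ↔ x ∈ Stp S m' k := by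
  simp only [Stp, mem_setOf_eq, S.cp.Z_cyl k x w hw, cyl_om S k m' x w hw]

/-- body minus labels killed at the levels `≤ l` -/
def KZ (l m : ℕ) : Set E := S.X S.lf m ∩ (S.cp.Z l)ᶜ

lemma isClosed_KZ (l m : ℕ) : IsClosed (KZ S l m) := (isClosed_X S _ m).inter (S.cp.Z_closed l)

lemma convex_KZ (l m : ℕ) : Convex ℝ (KZ S l m) := (convex_X S _ m).inter (S.cp.Z_convex l)

lemma KZ_subset_ball (l m : ℕ) : KZ S l m ⊆ Metric.closedBall 0 S.R :=
  inter_subset_left.trans (X_subset_ball S _ m)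

lemma Kq_subset_KZ {l m : ℕ} (hl : l ≤ S.lf) : S.Kq m ⊆ KZ S l m :=
  fun x hx => ⟨hx.1, fun h => hx.2 (Z_mono_le S hl h)⟩

/-- the visible integrand -/
lemma ind_eq (l m' m : ℕ) (g : E → ℝ≥0∞) (x : E) :
    {x | ∀ k, k ≤ l → x ∉ Stp S m' k}.indicator ((KZ S l m).indicator g) x =
      Sys.iw (S.OM l m') x * g x * Sys.iw (S.X S.lf m) x := by
  unfold Sys.iw
  by_cases h1 : x ∈ S.OM l m'
  · by_cases h2 : x ∈ S.X S.lf m
    · have h3 : x ∈ {x | ∀ k, k ≤ l → x ∉ Stp S m' k} := fun k hk h => h.2 (h1 k hk)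
      have h4 : x ∈ KZ S l m := ⟨h2, (h1 l le_rfl).1⟩
      rw [indicator_of_mem h3, indicator_of_mem h4, indicator_of_mem h1, indicator_of_mem h2]
      simp
    · rw [indicator_of_notMem h2, mul_zero]
      by_cases h3 : x ∈ {x | ∀ k, k ≤ l → x ∉ Stp S m' k}
      · rw [indicator_of_mem h3, indicator_of_notMem (fun h : x ∈ KZ S l m => h2 h.1)]
      · rw [indicator_of_notMem h3]
  · rw [indicator_of_notMem h1, zero_mul, zero_mul]
    by_cases h3 : x ∈ {x | ∀ k, k ≤ l → x ∉ Stp S m' k}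
    · rw [indicator_of_mem h3, indicator_of_notMem]
      intro h4
      apply h1
      intro k hk
      by_contra h5
      exact h3 k hk ⟨fun h6 => h4.2 (Z_mono_le S hk h6), h5⟩
    · rw [indicator_of_notMem h3]

/-- **(G2)** from (A3) and (R1) -/
theorem G2_of_tip {C κ0 κ : ℝ} (hC : 1 ≤ C) (hκ0 : 0 ≤ κ0) (hκ : C * κ0 ≤ κ)
    (tip : Tip S.cp C κ0) (hR1 : S.R1) : S.G2 κ := by
  intro l i m' m hli hi hm' hm hsame hH
  rcases Nat.eq_or_lt_of_le hli with rfl | hlt
  · rw [Nat.sub_self, pow_zero, ENNReal.ofReal_one, one_mul]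
  have hlf : l ≤ S.lf := by unfold Sys.lf; omega
  have hfib : ∀ k, k ≤ l → ∀ x ∈ Stp S m' k,
      ENNReal.ofReal (2 / 3) ≤ fib (L S.f k) ((KZ S l m).indicator 1) x := by
    intro k hk x hx
    have h1 := hR1 k m' m x (by omega) hm' (same_mono S hk (by omega) hm' hsame) hx.1 hx.2
    refine (ENNReal.ofReal_le_ofReal (by norm_num)).trans (h1.trans ?_)
    exact fib_mono (fun y => indicator_le_indicator_of_subset (Kq_subset_KZ S hlf)
      (fun _ => bot_le) y) x
  have hroot : ENNReal.ofReal (1 / 2) ≤ stdGaussian E (KZ S l m) := by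
    refine (ENNReal.ofReal_le_ofReal (by norm_num)).trans (LE.le.trans hH ?_)
    exact measure_mono (Kq_subset_KZ S hlf)
  have key := tip l i hli hi (KZ S l m) (isClosed_KZ S l m) (convex_KZ S l m)
    (KZ_subset_ball S l m) (Stp S m') (fun k _ => measurableSet_Stp S m' k)
    (fun k _ x w hw => cyl_Stp S m' k x w hw) hfib hroot
  simp_rw [ind_eq] at key
  refine key.trans (mul_le_mul' (ENNReal.ofReal_le_ofReal ?_) le_rfl)
  obtain ⟨n, hn⟩ : ∃ n, i - l = n + 1 := ⟨i - l - 1, by omega⟩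
  rw [hn]
  calc C * κ0 ^ (n + 1) ≤ C ^ (n + 1) * κ0 ^ (n + 1) := by
        have : C ≤ C ^ (n + 1) := by
          calc C = C ^ 1 := (pow_one C).symm
            _ ≤ C ^ (n + 1) := pow_le_pow_right₀ hC (by omega)
        gcongr
    _ = (C * κ0) ^ (n + 1) := (mul_pow _ _ _).symm
    _ ≤ κ ^ (n + 1) := by gcongr

end Vale.Agent.P262.H502
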