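import Mathlib
import Vale.Agent.P262.H502.G2

/-!
# P262, milestone 1: block (G2') on `M1.Sys` (one factor `κ`), from (G2)

At labels killed at some level `k ≤ i` the value `a i` is one, so the exponent `i - l` cannot be
kept; one factor is enough for the accounting.
-/

set_option linter.all false

open MeasureTheory ProbabilityTheory Set
open scoped ENNReal RealInnerProductSpace
open Vale.Agent.P262.H118 (L Iv st en ONB K1 rotE ON tau)
open Vale.Agent.P262.H395 (fib mix Inv)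
open Vale.Agent.P262.H493 (star)

namespace Vale.Agent.P262.H502

open Vale.Agent.P262.M1 Vale.Agent.P262.H395

variable {E : Type*} [NormedAddCommGroup E] [InnerProductSpace ℝ E] [FiniteDimensional ℝ E]
  [MeasurableSpace E] [BorelSpace E] (S : Sys E)

lemma geo_aux {κ : ℝ} (h0 : 0 ≤ κ) (h1 : κ ≤ 1 / 3) (l n : ℕ) :
    ∑ k ∈ Finset.Ioc l (l + n), κ ^ (k - l) ≤ 3 / 2 * κ * (1 - κ ^ n) := by
  induction n with
  | zero => simp
  | succ n ih =>
    rw [← add_assoc, Finset.sum_Ioc_succ_top (by omega)]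
    have e : l + n + 1 - l = n + 1 := by omega
    rw [e]
    have h2 : 0 ≤ κ ^ (n + 1) := by positivity
    have h3 : κ ^ (n + 1) = κ * κ ^ n := by ring
    nlinarith [mul_nonneg h0 h2]

lemma geo {κ : ℝ} (h0 : 0 ≤ κ) (h1 : κ ≤ 1 / 3) {l i : ℕ} (hli : l ≤ i) :
    ∑ k ∈ Finset.Ioc l i, κ ^ (k - l) ≤ 3 / 2 * κ := by
  obtain ⟨n, rfl⟩ := Nat.exists_eq_add_of_le hli
  refine (geo_aux h0 h1 l n).trans ?_
  have : 0 ≤ κ ^ n := by positivity
  nlinarith

/-- the integral of the cap of level `k` over the counted labels of the levels `≤ l` -/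
noncomputable def Xk (l m' m k : ℕ) : ℝ≥0∞ :=
  ∫⁻ x, Sys.iw (S.OM l m') x * ENNReal.ofReal (S.cp.A k x) * Sys.iw (S.X S.lf m) x ∂stdGaussian E

lemma measurable_iw {s : Set E} (hs : MeasurableSet s) : Measurable (Sys.iw s) :=
  measurable_one.indicator hs

lemma measurable_Xk (l m' m k : ℕ) : Measurable fun x =>
    Sys.iw (S.OM l m') x * ENNReal.ofReal (S.cp.A k x) * Sys.iw (S.X S.lf m) x :=
  ((measurable_iw (measurableSet_OM S l m')).mul (S.cp.A_meas k).ennreal_ofReal).mul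
    (measurable_iw (measurableSet_X S _ m))

lemma measurableSet_Kq (m : ℕ) : MeasurableSet (S.Kq m) :=
  (measurableSet_X S _ m).diff (measurableSet_Z S _)

/-- at counted labels of level `l`, killed at a level `≤ i`: some cap between is large -/
lemma exists_big {l m' i : ℕ} {x : E} (hx : x ∈ S.OM l m') (hi : x ∈ S.cp.Z i) :
    ∃ k, l < k ∧ k ≤ i ∧ S.cp.b0 < S.cp.A k x := by
  obtain ⟨k, hk, hA⟩ := S.cp.lt_A i x hi
  refine ⟨k, ?_, hk, hA⟩
  by_contra hcon
  push Not at hcon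
  have h1 : x ∉ S.cp.Z k := fun h => (hx l le_rfl).1 (Z_mono_le S hcon h)
  exact absurd (S.cp.A_le k x h1) (not_le.mpr hA)

lemma Xk_ne_top (l m' m : ℕ) : Xk S l m' m l ≠ ⊤ := by
  have h1 : ∀ x, Sys.iw (S.OM l m') x * ENNReal.ofReal (S.cp.A l x) * Sys.iw (S.X S.lf m) x ≤
      ENNReal.ofReal S.cp.b0 := by
    intro x
    unfold Sys.iw
    by_cases hx : x ∈ S.OM l m'
    · rw [indicator_of_mem hx]
      have h2 := ENNReal.ofReal_le_ofReal (S.cp.A_le l x (hx l le_rfl).1)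
      calc (1 : E → ℝ≥0∞) x * ENNReal.ofReal (S.cp.A l x) * (S.X S.lf m).indicator 1 x
          ≤ 1 * ENNReal.ofReal (S.cp.b0) * 1 := by
            gcongr
            · exact le_rfl
            · exact indicator_le_self' (fun _ _ => zero_le_one) x
        _ = _ := by simp
    · rw [indicator_of_notMem hx, zero_mul, zero_mul]
      exact bot_le
  have h3 := lintegral_mono (μ := stdGaussian E) h1
  rw [lintegral_const, measure_univ, mul_one] at h3
  exact ne_top_of_le_ne_top ENNReal.ofReal_ne_top h3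

lemma sum_Xk_le {κ : ℝ} (h0 : 0 ≤ κ) (h1 : κ ≤ 1 / 3) (hG2 : S.G2 κ) {l i m' m : ℕ} (hli : l ≤ i)
    (hi : i < S.d) (hm' : m' ≤ S.mT) (hm : m ≤ S.mT) (hs : S.Same l m' m) (hH : S.Healthy m) :
    ∑ k ∈ Finset.Ioc l i, Xk S l m' m k ≤ ENNReal.ofReal (3 / 2 * κ) * Xk S l m' m l := by
  calc ∑ k ∈ Finset.Ioc l i, Xk S l m' m k
      ≤ ∑ k ∈ Finset.Ioc l i, ENNReal.ofReal (κ ^ (k - l)) * Xk S l m' m l := by
        refine Finset.sum_le_sum fun k hk => ?_
        rw [Finset.mem_Ioc] at hk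
        exact hG2 l k m' m hk.1.le (by omega) hm' hm hs hH
    _ = ENNReal.ofReal (∑ k ∈ Finset.Ioc l i, κ ^ (k - l)) * Xk S l m' m l := by
        rw [ENNReal.ofReal_sum_of_nonneg (fun k _ => by positivity), Finset.sum_mul]
    _ ≤ _ := by
        gcongr
        exact geo h0 h1 hli

/-- the unit with the plain body is at most twice the alive unit -/
theorem Xk_le_Un {κ : ℝ} (h0 : 0 ≤ κ) (h1 : κ ≤ 1 / 3) (hG2 : S.G2 κ) {l m' m : ℕ}
    (hl : l < S.d) (hm' : m' ≤ S.mT) (hm : m ≤ S.mT) (hs : S.Same l m' m) (hH : S.Healthy m) :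
    Xk S l m' m l ≤ 2 * S.Un l m' m := by
  have hlf : l ≤ S.lf := by unfold Sys.lf; omega
  have hlfd : S.lf < S.d := by unfold Sys.lf; have := S.hd2; omega
  have hmK : Measurable fun x =>
      Sys.iw (S.OM l m') x * ENNReal.ofReal (S.cp.A l x) * Sys.iw (S.Kq m) x :=
    ((measurable_iw (measurableSet_OM S l m')).mul (S.cp.A_meas l).ennreal_ofReal).mul
      (measurable_iw (measurableSet_Kq S m))
  have hpt : ∀ x, Sys.iw (S.OM l m') x * ENNReal.ofReal (S.cp.A l x) * Sys.iw (S.X S.lf m) x ≤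
      Sys.iw (S.OM l m') x * ENNReal.ofReal (S.cp.A l x) * Sys.iw (S.Kq m) x +
      ∑ k ∈ Finset.Ioc l S.lf,
        Sys.iw (S.OM l m') x * ENNReal.ofReal (S.cp.A k x) * Sys.iw (S.X S.lf m) x := by
    intro x
    by_cases hx : x ∈ S.OM l m'
    swap
    · unfold Sys.iw
      rw [indicator_of_notMem hx, zero_mul, zero_mul]
      exact bot_le
    by_cases hX : x ∈ S.X S.lf m
    swap
    · unfold Sys.iw
      rw [indicator_of_notMem hX, mul_zero]
      exact bot_le
    by_cases hZ : x ∈ S.cp.Z S.lf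
    · obtain ⟨k, hk1, hk2, hk3⟩ := exists_big S hx hZ
      have hA : S.cp.A l x ≤ S.cp.A k x := (S.cp.A_le l x (hx l le_rfl).1).trans hk3.le
      refine le_trans ?_ le_add_self
      refine le_trans ?_ (Finset.single_le_sum (fun _ _ => bot_le) (Finset.mem_Ioc.mpr ⟨hk1, hk2⟩))
      gcongr
    · have hq : x ∈ S.Kq m := ⟨hX, hZ⟩
      refine le_trans (le_of_eq ?_) le_self_add
      unfold Sys.iw
      rw [indicator_of_mem hX, indicator_of_mem hq]
  have h2 : Xk S l m' m l ≤ S.Un l m' m + ∑ k ∈ Finset.Ioc l S.lf, Xk S l m' m k := by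
    have h3 := lintegral_mono (μ := stdGaussian E) hpt
    rw [lintegral_add_left hmK, lintegral_finset_sum _ (fun k _ => measurable_Xk S l m' m k)] at h3
    exact h3
  have h4 := sum_Xk_le S h0 h1 hG2 hlf hlfd hm' hm hs hH
  have hfin := Xk_ne_top S l m' m
  have h5 : ENNReal.ofReal (3 / 2 * κ) ≤ ENNReal.ofReal (1 / 2) :=
    ENNReal.ofReal_le_ofReal (by linarith)
  have h6 : Xk S l m' m l ≤ S.Un l m' m + ENNReal.ofReal (1 / 2) * Xk S l m' m l := by
    refine h2.trans ?_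
    gcongr
    exact h4.trans (mul_le_mul' h5 le_rfl)
  have h7 : ENNReal.ofReal (1 / 2) * Xk S l m' m l + ENNReal.ofReal (1 / 2) * Xk S l m' m l ≤
      S.Un l m' m + ENNReal.ofReal (1 / 2) * Xk S l m' m l := by
    rw [Vale.Agent.P262.H44.STree.ofReal_add_half]
    exact h6
  have h8 : ENNReal.ofReal (1 / 2) * Xk S l m' m l ≤ S.Un l m' m :=
    (ENNReal.add_le_add_iff_right (ENNReal.mul_ne_top ENNReal.ofReal_ne_top hfin)).mp h7
  calc Xk S l m' m l = ENNReal.ofReal (1 / 2) * Xk S l m' m l +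
        ENNReal.ofReal (1 / 2) * Xk S l m' m l :=
        (Vale.Agent.P262.H44.STree.ofReal_add_half _).symm
    _ ≤ S.Un l m' m + S.Un l m' m := add_le_add h8 h8
    _ = _ := (two_mul _).symm

/-- **(G2') in the form with one factor** -/
def G2p (κ : ℝ) : Prop := ∀ l i m' m, l < i → i < S.d → m' ≤ S.mT → m ≤ S.mT → S.Same l m' m →
  S.Healthy m →
  ∫⁻ x, Sys.iw (S.OM l m') x * S.a i x * Sys.iw (S.X S.lf m) x ∂stdGaussian E ≤
    ENNReal.ofReal κ * S.Un l m' m

theorem G2p_of_G2 {κ : ℝ} (h0 : 0 ≤ κ) (h1 : κ ≤ 1 / 3) (hG2 : S.G2 κ) :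
    G2p S (3 * κ * (1 + 1 / S.cp.b0)) := by
  intro l i m' m hli hi hm' hm hs hH
  have hb := S.cp.b0_pos
  have hpt : ∀ x, Sys.iw (S.OM l m') x * S.a i x * Sys.iw (S.X S.lf m) x ≤
      ENNReal.ofReal (1 + 1 / S.cp.b0) * ∑ k ∈ Finset.Ioc l i,
        Sys.iw (S.OM l m') x * ENNReal.ofReal (S.cp.A k x) * Sys.iw (S.X S.lf m) x := by
    intro x
    by_cases hx : x ∈ S.OM l m'
    swap
    · unfold Sys.iw
      rw [indicator_of_notMem hx, zero_mul, zero_mul]
      exact bot_le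
    by_cases hZ : x ∈ S.cp.Z i
    · obtain ⟨k, hk1, hk2, hk3⟩ := exists_big S hx hZ
      refine le_trans ?_ (mul_le_mul' le_rfl
        (Finset.single_le_sum (fun _ _ => bot_le) (Finset.mem_Ioc.mpr ⟨hk1, hk2⟩)))
      have ha : S.a i x = 1 := by unfold Sys.a; rw [if_pos hZ]
      have h3 : (1 : ℝ≥0∞) ≤ ENNReal.ofReal (1 + 1 / S.cp.b0) * ENNReal.ofReal (S.cp.A k x) := by
        rw [← ENNReal.ofReal_mul (by positivity), ← ENNReal.ofReal_one]
        refine ENNReal.ofReal_le_ofReal ?_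
        have h4 : 1 / S.cp.b0 * S.cp.b0 = 1 := by field_simp
        have h5 : 0 < S.cp.A k x := S.cp.A_pos k x
        have h6 : 1 / S.cp.b0 * S.cp.b0 ≤ 1 / S.cp.b0 * S.cp.A k x := by gcongr
        linarith
      rw [ha]
      calc Sys.iw (S.OM l m') x * 1 * Sys.iw (S.X S.lf m) x
          ≤ Sys.iw (S.OM l m') x * (ENNReal.ofReal (1 + 1 / S.cp.b0) *
            ENNReal.ofReal (S.cp.A k x)) * Sys.iw (S.X S.lf m) x := by gcongr
        _ = _ := by ring
    · refine le_trans ?_ (mul_le_mul' le_rfl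
        (Finset.single_le_sum (fun _ _ => bot_le) (Finset.mem_Ioc.mpr ⟨hli, le_rfl⟩)))
      have ha : S.a i x = ENNReal.ofReal (S.cp.A i x) := by unfold Sys.a; rw [if_neg hZ]
      rw [ha]
      have h3 : (1 : ℝ≥0∞) ≤ ENNReal.ofReal (1 + 1 / S.cp.b0) := by
        rw [ENNReal.one_le_ofReal]
        have : 0 < 1 / S.cp.b0 := by positivity
        linarith
      calc _ = 1 * (Sys.iw (S.OM l m') x * ENNReal.ofReal (S.cp.A i x) *
            Sys.iw (S.X S.lf m) x) := (one_mul _).symm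
        _ ≤ _ := mul_le_mul' h3 le_rfl
  have h2 := lintegral_mono (μ := stdGaussian E) hpt
  rw [lintegral_const_mul' _ _ ENNReal.ofReal_ne_top,
    lintegral_finset_sum _ (fun k _ => measurable_Xk S l m' m k)] at h2
  refine h2.trans ?_
  have h3 := sum_Xk_le S h0 h1 hG2 hli.le hi hm' hm hs hH
  have h4 := Xk_le_Un S h0 h1 hG2 (by omega : l < S.d) hm' hm hs hH
  calc _ ≤ ENNReal.ofReal (1 + 1 / S.cp.b0) *
        (ENNReal.ofReal (3 / 2 * κ) * (2 * S.Un l m' m)) :=
        mul_le_mul' le_rfl (h3.trans (mul_le_mul' le_rfl h4))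
    _ = ENNReal.ofReal (3 * κ * (1 + 1 / S.cp.b0)) * S.Un l m' m := by
        have h8 : (2 : ℝ≥0∞) = ENNReal.ofReal 2 := by norm_num
        rw [h8, ← mul_assoc, ← mul_assoc, ← ENNReal.ofReal_mul (by positivity),
          ← ENNReal.ofReal_mul (by positivity)]
        congr 2
        ring

end Vale.Agent.P262.H502
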