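import Vale.Agent.P262.M2.Nodes
import Vale.Agent.P262.H837.ThrH
import Vale.Agent.P262.H962.PCap3

/-!
# P262, milestone 2, throughput: the geometric instance of one list

A rotation move `m` of the node `c :: p`, seen at a descendant `r` of `c :: p`, in the coordinates
of `r`: the body moves by a plane rotation in a plane `(θ, b)`, `θ` an own direction of `c :: p` and
`b = ∑ β_i + a • f`, `β_i` own directions of the levels below, `f` in the fibre of `r`.
-/

set_option linter.all false

open MeasureTheory ProbabilityTheory Set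
open scoped ENNReal RealInnerProductSpace
open Vale.Agent.P262.H118 (Iv st en ON rotE rotL tau wd wrd Mg Piece K2 El2 paths)
open Vale.Agent.P262.H395 (fib mix Inv)

namespace Vale.Agent.P262.M2.Sys

variable {E : Type*} [NormedAddCommGroup E] [InnerProductSpace ℝ E] [FiniteDimensional ℝ E]
  [MeasurableSpace E] [BorelSpace E] {S : Sys E}

/-! ### directions adapted to the flag of a node -/

/-- the spaces of the flag of `r` are the label spaces of its nonempty suffixes -/
lemma mem_chn_g {r : List ℕ} {m : ℕ} {V : Submodule ℝ E} (h : V ∈ S.chn r m) :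
    ∃ s, s ≠ [] ∧ s <:+ r ∧ V = S.W s m := by
  induction r with
  | nil => simp [chn] at h
  | cons c r ih =>
    rw [chn, List.mem_append, List.mem_singleton] at h
    rcases h with h | h
    · obtain ⟨s, h1, h2, h3⟩ := ih h
      exact ⟨s, h1, h2.trans (List.suffix_cons c r), h3⟩
    · exact ⟨c :: r, List.cons_ne_nil _ _, List.suffix_refl _, h⟩

/-- suffixes of one list are comparable -/
lemma suffix_or_g {s t r : List ℕ} (hs : s <:+ r) (ht : t <:+ r) (h : s.length ≤ t.length) :
    s <:+ t := List.suffix_of_suffix_length_le hs ht h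

/-- own directions of a level are adapted to the flag of all descendants -/
lemma adapted_g {r s : List ℕ} {c m : ℕ} (h : (c :: s) <:+ r) {u : E}
    (h1 : u ∈ S.W (c :: s) m) (h2 : u ∈ (S.W s m)ᗮ) : H962.Adapted u (S.chn r m) := by
  intro V hV
  obtain ⟨t, -, ht, rfl⟩ := mem_chn_g hV
  rcases Nat.lt_or_ge s.length t.length with hl | hl
  · left
    exact S.W_mono (suffix_or_g h ht (by rw [List.length_cons]; omega)) m h1
  · right
    have h3 : t <:+ s := suffix_or_g ht ((List.suffix_cons c s).trans h) hl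
    exact Submodule.orthogonal_le (S.W_mono h3 m) h2

/-- `u` is a direction of the labels of `r` over the labels of `p`, adapted to the flag -/
structure Dir (S : Sys E) (m : ℕ) (p r : List ℕ) (u : E) : Prop where
  mem : u ∈ S.W r m
  perp : u ∈ (S.W p m)ᗮ
  ad : H962.Adapted u (S.chn r m)

lemma Dir.smul {m : ℕ} {p r : List ℕ} {u : E} (h : Dir S m p r u) (a : ℝ) :
    Dir S m p r (a • u) := by
  refine ⟨Submodule.smul_mem _ _ h.mem, Submodule.smul_mem _ _ h.perp, fun V hV => ?_⟩
  rcases h.ad V hV with h1 | h1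
  · exact Or.inl (Submodule.smul_mem _ _ h1)
  · exact Or.inr (Submodule.smul_mem _ _ h1)

/-! ### decomposition of a vector along the flag -/

/-- a vector orthogonal to the label space of `q` is a sum of own directions of the levels between
`q` and `r` and of a vector of the fibre of `r`. -/
lemma decomp_g {q r : List ℕ} (hqr : q <:+ r) (hq : q ≠ []) {m : ℕ} {b : E}
    (hb : b ∈ (S.W q m)ᗮ) (hbn : ‖b‖ ≤ 1) :
    ∃ β : Fin (r.length - q.length) → E,
      (∀ i, Dir S m q r (β i) ∧ ‖β i‖ ≤ 1) ∧ b - ∑ i, β i ∈ (S.W r m)ᗮ ∧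
        b - ∑ i, β i = b - (S.W r m).starProjection b := by
  set n := r.length - q.length with hn
  have hqd : r.drop n = q := (List.suffix_iff_eq_drop.1 hqr).symm
  let V : ℕ → List ℕ := fun i => r.drop (n - i)
  have hV0 : V 0 = q := by simp only [V, Nat.sub_zero]; exact hqd
  have hVn : V n = r := by simp only [V, Nat.sub_self, List.drop_zero]
  have hVs : ∀ i < n, ∃ c, V (i + 1) = c :: V i := by
    intro i hi
    have hlt : n - (i + 1) < r.length := by omega
    refine ⟨r[n - (i + 1)], ?_⟩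
    simp only [V]
    rw [List.drop_eq_getElem_cons hlt]
    congr 2
    omega
  have hVr : ∀ i, V i <:+ r := fun i => List.drop_suffix _ _
  have hqV : ∀ i, q <:+ V i := by
    intro i
    refine suffix_or_g hqr (hVr i) ?_
    simp only [V, List.length_drop]
    have := hqr.length_le
    omega
  let P : ℕ → E := fun i => (S.W (V i) m).starProjection b
  have hP0 : P 0 = 0 := by
    simp only [P, hV0]
    exact (Submodule.starProjection_apply_eq_zero_iff _).2 hb
  have hsum : ∑ i : Fin n, (P (i + 1) - P i) = (S.W r m).starProjection b := by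
    rw [Fin.sum_univ_eq_sum_range (fun i => P (i + 1) - P i) n, Finset.sum_range_sub, hP0,
      sub_zero]
    simp only [P, hVn]
  refine ⟨fun i => P (i + 1) - P i, fun i => ?_, ?_, ?_⟩
  · obtain ⟨c, hc⟩ := hVs i i.2
    have hle : S.W (V i) m ≤ S.W (V (i + 1)) m := by rw [hc]; exact S.W_le c _ m
    have h1 : P (i + 1) - P i ∈ S.W (V (i + 1)) m :=
      Submodule.sub_mem _ (Submodule.starProjection_apply_mem _ _)
        (hle (Submodule.starProjection_apply_mem _ _))
    have h2 : P (i + 1) - P i ∈ (S.W (V i) m)ᗮ := by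
      have e : P (i + 1) - P i = (b - P i) - (b - P (i + 1)) := by abel
      rw [e]
      exact Submodule.sub_mem _ (Submodule.sub_starProjection_mem_orthogonal _)
        (Submodule.orthogonal_le hle (Submodule.sub_starProjection_mem_orthogonal _))
    refine ⟨⟨S.W_mono (hVr _) m h1, Submodule.orthogonal_le (S.W_mono (hqV i) m) h2, ?_⟩, ?_⟩
    · rw [hc] at h1
      exact adapted_g (c := c) (s := V i) (by rw [← hc]; exact hVr _) h1 h2
    · have e : P (i + 1) - P i = (S.W (V (i + 1)) m).starProjection (b - P i) := by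
        rw [map_sub]
        congr 1
        exact (Submodule.starProjection_eq_self_iff.2
          (hle (Submodule.starProjection_apply_mem _ _))).symm
      have h3 : ‖b - P i‖ ≤ 1 := by
        have h4 : b - P i = (S.W (V i) m)ᗮ.starProjection b := by
          rw [Submodule.starProjection_orthogonal']
          rfl
        rw [h4]
        exact (Submodule.norm_starProjection_apply_le _ _).trans hbn
      show ‖P (i + 1) - P i‖ ≤ 1
      rw [e]
      exact (Submodule.norm_starProjection_apply_le _ _).trans h3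
  · rw [hsum]
    exact Submodule.sub_starProjection_mem_orthogonal _
  · rw [hsum]

lemma exists_unit_g (V : Submodule ℝ E) (h : 1 ≤ Module.finrank ℝ V) :
    ∃ f ∈ V, ‖f‖ = 1 := by
  have h1 : Nontrivial V := Module.nontrivial_of_finrank_pos (R := ℝ) (by omega)
  obtain ⟨w, hw⟩ := exists_ne (0 : V)
  have h2 : ‖(w : E)‖ ≠ 0 := by simpa using hw
  refine ⟨‖(w : E)‖⁻¹ • (w : E), V.smul_mem _ w.2, ?_⟩
  rw [norm_smul, norm_inv, norm_norm, inv_mul_cancel₀ h2]

lemma exists_dir_g (V : Submodule ℝ E) (h : 1 ≤ Module.finrank ℝ V) {w : E} (hw : w ∈ V)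
    (hw1 : ‖w‖ ≤ 1) : ∃ (f : E) (a : ℝ), f ∈ V ∧ ‖f‖ = 1 ∧ |a| ≤ 1 ∧ w = a • f := by
  by_cases h0 : w = 0
  · obtain ⟨f, hf, hf1⟩ := exists_unit_g V h
    exact ⟨f, 0, hf, hf1, by simp, by simp [h0]⟩
  · have h2 : ‖w‖ ≠ 0 := norm_ne_zero_iff.2 h0
    refine ⟨‖w‖⁻¹ • w, ‖w‖, V.smul_mem _ hw, ?_, by rwa [abs_norm], ?_⟩
    · rw [norm_smul, norm_inv, norm_norm, inv_mul_cancel₀ h2]
    · rw [smul_smul, mul_inv_cancel₀ h2, one_smul]

/-! ### the rotation in the coordinates of a descendant -/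

/-- **(G1)** the plane of the rotation in the coordinates of a descendant `r` of the rotating node
`c :: p`. -/
theorem rot_dir {m : ℕ} (hm : S.mv.tm m < S.T) (hr : S.mv.IsRot m) {c : ℕ} {p r : List ℕ}
    (hq : S.mv.jj m = c :: p) (hqr : (c :: p) <:+ r) :
    ∃ (θ b : E) (hb : ON θ b) (β : Fin (r.length - (p.length + 1)) → E) (f : E) (a : ℝ),
      Dir S m p r θ ∧ b ∈ (S.W (c :: p) m)ᗮ ∧ b = ∑ i, β i + a • f ∧
      (∀ i, Dir S m p r (β i) ∧ ‖β i‖ ≤ 1 ∧ ⟪θ, β i⟫ = 0) ∧ f ∈ (S.W r m)ᗮ ∧ ‖f‖ = 1 ∧ |a| ≤ 1 ∧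
      S.X r (m + 1) = (rotL θ b (S.mv.ph m)) ⁻¹' S.X r m := by
  obtain ⟨θ, hθ1, hθ2, h⟩ := S.mv.Bd_rot (Kt := S.Kt) hr.1 hr.2
  rw [hq] at hθ1 hθ2 h
  have hθ1' : θ ∈ S.W (c :: p) m := hθ1
  have hθ2' : θ ∈ (S.W p m)ᗮ := hθ2
  obtain ⟨b, hb, hbq, -, hX⟩ := h r hqr
  have hbq' : b ∈ (S.W (c :: p) m)ᗮ := hbq
  obtain ⟨β, h1, h2, h3⟩ := decomp_g (S := S) hqr (List.cons_ne_nil _ _) hbq' hb.hq.le
  have h4 : ‖b - (S.W r m).starProjection b‖ ≤ 1 := by
    have h5 : b - (S.W r m).starProjection b = (S.W r m)ᗮ.starProjection b := by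
      rw [Submodule.starProjection_orthogonal']
      rfl
    rw [h5]
    exact (Submodule.norm_starProjection_apply_le _ _).trans hb.hq.le
  obtain ⟨f, a, hf, hf1, ha, haf⟩ := exists_dir_g (S.W r m)ᗮ
    (S.K.one_le_perp S.hδ S.hv r hm) h2 (by rw [h3]; exact h4)
  refine ⟨θ, b, hb, β, f, a, ⟨S.W_mono hqr m hθ1', hθ2', adapted_g hqr hθ1' hθ2'⟩, hbq', ?_, ?_,
    hf, hf1, ha, ?_⟩
  · rw [← haf]
    exact (add_sub_cancel _ _).symm
  · intro i
    obtain ⟨h5, h6⟩ := h1 i
    refine ⟨⟨h5.mem, Submodule.orthogonal_le (S.W_le c p m) h5.perp, h5.ad⟩, h6, ?_⟩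
    exact Submodule.inner_right_of_mem_orthogonal hθ1' h5.perp
  · show S.mv.Bd S.Kt r (m + 1) = _
    rw [hX]
    rfl

end Vale.Agent.P262.M2.Sys
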