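import Vale.Agent.P262.H502.Geo
import Vale.Agent.P262.M2.Blocks

/-!
# P262, milestone 2, throughput: one list, concrete caps

`one_list`: the throughput of a rotation at a fixed descendant of the rotating node.
-/

set_option linter.all false

open MeasureTheory ProbabilityTheory Set
open scoped ENNReal RealInnerProductSpace
open Vale.Agent.P262.H118 (Iv st en ON rotE rotL tau wd wrd Mg Piece K2 El2 paths)
open Vale.Agent.P262.H395 (fib mix Inv)

namespace Vale.Agent.P262.M2.Sys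

variable {E : Type*} [NormedAddCommGroup E] [InnerProductSpace ℝ E] [FiniteDimensional ℝ E]
  [MeasurableSpace E] [BorelSpace E] {S : Sys E}

/-! ### concavity -/

omit [NormedAddCommGroup E] [InnerProductSpace ℝ E] [FiniteDimensional ℝ E] [MeasurableSpace E]
  [BorelSpace E] in
lemma conc_g {th s : ℝ} (hth : 0 < th) (hs : 0 < s) (hsum : th + s = 1) {D C : ℝ≥0∞}
    (hC : C ≠ ⊤) (hD : D ≤ C) :
    ENNReal.ofReal s * ((C - D) * (C ^ th)⁻¹) + D ^ s ≤ C ^ s := by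
  rcases eq_or_ne C 0 with rfl | hC0
  · have hD0 : D = 0 := le_antisymm hD zero_le
    rw [hD0, tsub_self, zero_mul, mul_zero, zero_add]
  lift C to NNReal using hC
  lift D to NNReal using (ne_top_of_le_ne_top ENNReal.coe_ne_top hD)
  have hC1 : (0 : ℝ) < C := by
    have : C ≠ 0 := by simpa using hC0
    positivity
  have hDC : (D : ℝ) ≤ C := by exact_mod_cast hD
  have hD1 : (0 : ℝ) ≤ D := D.2
  have key : s * ((C - D : ℝ) * ((C : ℝ) ^ th)⁻¹) + (D : ℝ) ^ s ≤ (C : ℝ) ^ s := by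
    have hCt : 0 < (C : ℝ) ^ th := Real.rpow_pos_of_pos hC1 _
    have h1 : (C : ℝ) ^ th * (D : ℝ) ^ s ≤ th * C + s * D :=
      Real.geom_mean_le_arith_mean2_weighted hth.le hs.le hC1.le hD1 hsum
    have h2 : (C : ℝ) ^ th * (C : ℝ) ^ s = C := by
      rw [← Real.rpow_add hC1, hsum, Real.rpow_one]
    have h3 : (s * ((C - D : ℝ) * ((C : ℝ) ^ th)⁻¹) + (D : ℝ) ^ s) * (C : ℝ) ^ th
        ≤ (C : ℝ) ^ s * (C : ℝ) ^ th := by
      have e1 : (s * ((C - D : ℝ) * ((C : ℝ) ^ th)⁻¹) + (D : ℝ) ^ s) * (C : ℝ) ^ th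
          = s * (C - D) + (C : ℝ) ^ th * (D : ℝ) ^ s := by
        field_simp
      rw [e1, mul_comm ((C : ℝ) ^ s), h2]
      have h4 : s = 1 - th := by linarith
      have h5 : s * ((C : ℝ) - D) = s * C - s * D := by ring
      rw [h5]
      nlinarith
    exact le_of_mul_le_mul_right h3 hCt
  have e1 : (((C : ℝ≥0∞)) - (D : ℝ≥0∞)) = ENNReal.ofReal ((C : ℝ) - D) := by
    rw [ENNReal.ofReal_sub _ hD1, ENNReal.ofReal_coe_nnreal, ENNReal.ofReal_coe_nnreal]
  have e2 : ((C : ℝ≥0∞) ^ th)⁻¹ = ENNReal.ofReal (((C : ℝ) ^ th)⁻¹) := by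
    rw [ENNReal.ofReal_inv_of_pos (Real.rpow_pos_of_pos hC1 _),
      ← ENNReal.ofReal_rpow_of_pos hC1, ENNReal.ofReal_coe_nnreal]
  have e3 : (D : ℝ≥0∞) ^ s = ENNReal.ofReal ((D : ℝ) ^ s) := by
    rw [← ENNReal.ofReal_rpow_of_nonneg hD1 hs.le, ENNReal.ofReal_coe_nnreal]
  have e4 : (C : ℝ≥0∞) ^ s = ENNReal.ofReal ((C : ℝ) ^ s) := by
    rw [← ENNReal.ofReal_rpow_of_nonneg hC1.le hs.le, ENNReal.ofReal_coe_nnreal]
  have h6 : 0 ≤ (C : ℝ) - D := by linarith
  rw [e1, e2, e3, e4, ← ENNReal.ofReal_mul h6, ← ENNReal.ofReal_mul hs.le,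
    ← ENNReal.ofReal_add (by positivity) (by positivity)]
  exact ENNReal.ofReal_le_ofReal key

/-! ### the flag below a node -/

lemma chn_ext_g {m : ℕ} (hm : S.mv.tm m < S.T) {c : ℕ} {p : List ℕ} (hp : ¬ S.Leaf p m)
    (u : List ℕ) (hu : ∀ v w, u = v ++ w → v ≠ [] → ¬ S.Leaf (w ++ c :: p) m) :
    ∃ l', S.chn (u ++ c :: p) m = S.chn p m ++ l' ∧ l'.Pairwise (· < ·) ∧
      (∀ V ∈ l', S.W p m < V) ∧ ∀ V ∈ l', V ≤ S.W (u ++ c :: p) m := by
  induction u with
  | nil =>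
    refine ⟨[S.W (c :: p) m], rfl, List.pairwise_singleton _ _, ?_, ?_⟩
    · intro V hV
      rw [List.mem_singleton] at hV
      rw [hV]
      exact W_lt hm hp c
    · intro V hV
      rw [List.mem_singleton] at hV
      rw [hV]
      exact le_rfl
  | cons a u ih =>
    obtain ⟨l', h1, h2, h3, h4⟩ := ih fun v w hvw hv => hu (a :: v) w (by rw [hvw]; rfl)
      (List.cons_ne_nil _ _)
    have h5 : ¬ S.Leaf (u ++ c :: p) m := hu [a] u rfl (List.cons_ne_nil _ _)
    have h6 := W_lt hm h5 a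
    refine ⟨l' ++ [S.W (a :: (u ++ c :: p)) m], ?_, ?_, ?_, ?_⟩
    · rw [List.cons_append, chn, h1, List.append_assoc]
    · rw [List.pairwise_append]
      refine ⟨h2, List.pairwise_singleton _ _, fun V hV V' hV' => ?_⟩
      rw [List.mem_singleton] at hV'
      rw [hV']
      exact (h4 V hV).trans_lt h6
    · intro V hV
      rw [List.mem_append, List.mem_singleton] at hV
      rcases hV with hV | rfl
      · exact h3 V hV
      · refine lt_of_le_of_lt ?_ h6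
        exact S.W_mono ((List.suffix_cons c p).trans (List.suffix_append u (c :: p))) m
    · intro V hV
      rw [List.mem_append, List.mem_singleton] at hV
      rcases hV with hV | rfl
      · exact (h4 V hV).trans h6.le
      · exact le_rfl

/-! ### growth and moments of the caps in adapted directions -/

lemma growV_g {m : ℕ} {p r : List ℕ} {v : E} (hv : Dir S m p r v) (t : ℝ) :
    H837.GrowV (S.A r m) (t • v) (1 / 8) := by
  intro x
  rcases eq_or_ne v 0 with rfl | hv0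
  · rw [smul_zero, sub_zero]
    have h1 : (1 : ℝ≥0∞) ≤ ENNReal.ofReal (Real.exp (1 / 8 * max 0 (‖(0 : E)‖ ^ 2 -
        2 * ⟪(0 : E), x⟫))) := by
      rw [← ENNReal.ofReal_one]
      apply ENNReal.ofReal_le_ofReal
      apply Real.one_le_exp
      positivity
    calc S.A r m x = 1 * S.A r m x := (one_mul _).symm
      _ ≤ _ := by gcongr
  have hn : ‖v‖ ≠ 0 := norm_ne_zero_iff.2 hv0
  obtain ⟨e, he1, had, hve⟩ : ∃ e : E, ‖e‖ = 1 ∧ H962.Adapted e (S.chn r m) ∧ v = ‖v‖ • e := by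
    refine ⟨‖v‖⁻¹ • v, ?_, (hv.smul _).ad, ?_⟩
    · rw [norm_smul, norm_inv, norm_norm, inv_mul_cancel₀ hn]
    · rw [smul_smul, mul_inv_cancel₀ hn, one_smul]
  have h1 := H962.capS_shift_le (W := S.W r m) (A0 := S.A0) (kap := S.kap) (q := S.qq) (s := 1)
    he1 had x (-(t * ‖v‖)) S.hqq.le zero_le_one
  have e1 : x + (-(t * ‖v‖)) • e = x - t • v := by
    rw [neg_smul, ← sub_eq_add_neg, mul_smul, ← hve]
  have e2 : (-(t * ‖v‖)) ^ 2 + 2 * -(t * ‖v‖) * ⟪e, x⟫ = ‖t • v‖ ^ 2 - 2 * ⟪t • v, x⟫ := by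
    have e3 : ⟪v, x⟫ = ‖v‖ * ⟪e, x⟫ := by
      conv_lhs => rw [hve]
      rw [real_inner_smul_left]
    have e4 : ⟪t • v, x⟫ = t * (‖v‖ * ⟪e, x⟫) := by rw [real_inner_smul_left, e3]
    have e5 : ‖t • v‖ ^ 2 = t ^ 2 * ‖v‖ ^ 2 := by
      rw [norm_smul, Real.norm_eq_abs, mul_pow, sq_abs]
    rw [e4, e5]
    ring
  rw [e1, e2] at h1
  exact h1

lemma ew_le_g {th : ℝ} (hth : 0 < th) {v e : E} (hv : ‖v‖ ≤ 1) (hve : v = ‖v‖ • e) (x : E) :
    H837.ew v x ^ (1 / th) ≤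
      ENNReal.ofReal (Real.exp (8 / th ^ 2)) * ENNReal.ofReal (Real.exp (1 / 8 * ⟪e, x⟫ ^ 2)) := by
  unfold H837.ew
  have h0 : 0 ≤ |⟪v, x⟫| := abs_nonneg _
  have hpos : 0 ≤ (1 + |⟪v, x⟫|) * Real.exp |⟪v, x⟫| := by positivity
  rw [ENNReal.ofReal_rpow_of_nonneg hpos (by positivity), ← ENNReal.ofReal_mul (Real.exp_nonneg _),
    ← Real.exp_add]
  apply ENNReal.ofReal_le_ofReal
  have h1 : (1 + |⟪v, x⟫|) * Real.exp |⟪v, x⟫| ≤ Real.exp (2 * |⟪v, x⟫|) := by
    have h2 : 1 + |⟪v, x⟫| ≤ Real.exp |⟪v, x⟫| := by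
      have := Real.add_one_le_exp |⟪v, x⟫|
      linarith
    calc (1 + |⟪v, x⟫|) * Real.exp |⟪v, x⟫| ≤ Real.exp |⟪v, x⟫| * Real.exp |⟪v, x⟫| := by gcongr
      _ = Real.exp (2 * |⟪v, x⟫|) := by rw [← Real.exp_add]; ring_nf
  refine (Real.rpow_le_rpow hpos h1 (by positivity)).trans ?_
  rw [← Real.exp_mul]
  apply Real.exp_le_exp.2
  have e3 : ⟪v, x⟫ = ‖v‖ * ⟪e, x⟫ := by
    conv_lhs => rw [hve]
    rw [real_inner_smul_left]
  have h3 : ⟪v, x⟫ ^ 2 ≤ ⟪e, x⟫ ^ 2 := by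
    rw [e3, mul_pow]
    have h4 : ‖v‖ ^ 2 ≤ 1 := by nlinarith [norm_nonneg v]
    nlinarith [sq_nonneg ⟪e, x⟫]
  have h5 : |⟪v, x⟫| ^ 2 = ⟪v, x⟫ ^ 2 := sq_abs _
  set y := |⟪v, x⟫| with hy
  have h6 : 2 * y * (1 / th) ≤ 8 / th ^ 2 + 1 / 8 * y ^ 2 := by
    have h7 : 0 ≤ (8 / th - y) ^ 2 := sq_nonneg _
    have e5 : (8 / th - y) ^ 2 = 64 / th ^ 2 - 16 * y * (1 / th) + y ^ 2 := by
      field_simp
      ring
    rw [e5] at h7
    have e6 : 64 / th ^ 2 = 8 * (8 / th ^ 2) := by ring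
    rw [e6] at h7
    nlinarith
  nlinarith

/-- the cap of a descendant: the first moment with the weight of an adapted direction -/
lemma mom_g (hε : 2 * (Real.sqrt 2 * Real.exp (-(S.qq / 4))) ≤ 1 / 4) {m : ℕ}
    (hm : S.mv.tm m < S.T) {c : ℕ} {p : List ℕ} (hp : ¬ S.Leaf p m)
    (u : List ℕ) (hu : ∀ v w, u = v ++ w → v ≠ [] → ¬ S.Leaf (w ++ c :: p) m) {v : E}
    (hv : Dir S m p (u ++ c :: p) v) (hv1 : ‖v‖ ≤ 1) {th : ℝ} (hth : 0 < th) (x : E) :
    fib (S.W p m) (fun y => H837.ew v y ^ (1 / th) * S.A (u ++ c :: p) m y) x ≤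
      ENNReal.ofReal (2 * Real.exp (8 / th ^ 2) *
        S.kap ^ (Module.finrank ℝ (S.W (u ++ c :: p) m) - Module.finrank ℝ (S.W p m))) *
        S.A p m x := by
  obtain ⟨l', h1, h2, h3, h4⟩ := chn_ext_g hm hp u hu
  have hpr : p <:+ u ++ c :: p := (List.suffix_cons c p).trans (List.suffix_append u (c :: p))
  have hWW : S.W p m ≤ S.W (u ++ c :: p) m := S.W_mono hpr m
  -- a unit vector
  obtain ⟨e, he, heW, hve⟩ : ∃ e : E, ‖e‖ = 1 ∧ e ∈ (S.W p m)ᗮ ∧ v = ‖v‖ • e := by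
    rcases eq_or_ne v 0 with rfl | hv0
    · obtain ⟨e, he, he1⟩ := exists_unit_g (S.W p m)ᗮ (S.K.one_le_perp S.hδ S.hv p hm)
      exact ⟨e, he1, he, by simp⟩
    · have hn : ‖v‖ ≠ 0 := norm_ne_zero_iff.2 hv0
      refine ⟨‖v‖⁻¹ • v, ?_, Submodule.smul_mem _ _ hv.perp, ?_⟩
      · rw [norm_smul, norm_inv, norm_norm, inv_mul_cancel₀ hn]
      · rw [smul_smul, mul_inv_cancel₀ hn, one_smul]
  have hexp : Measurable fun y : E => ENNReal.ofReal (Real.exp (1 / 8 * ⟪e, y⟫ ^ 2)) := by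
    fun_prop
  have h5 := H962.fib_capS_exp_le (A0 := S.A0) (kap := S.kap) (s := 1) (q := S.qq)
    (ε := 1 / 4) hε le_rfl (fun V hV => S.le_of_mem_chn hV) (S.W_mem_chn p m) h2 h3 hWW S.hA0
    S.hkap zero_le_one le_rfl S.hqq.le he heW (c := 1 / 8) le_rfl x
  calc fib (S.W p m) (fun y => H837.ew v y ^ (1 / th) * S.A (u ++ c :: p) m y) x
      ≤ fib (S.W p m) (fun y => ENNReal.ofReal (Real.exp (8 / th ^ 2)) *
        (H962.capS S.A0 S.kap S.qq 1 (S.chn p m ++ l') (S.W (u ++ c :: p) m) y *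
          ENNReal.ofReal (Real.exp (1 / 8 * ⟪e, y⟫ ^ 2)))) x := by
        refine H395.fib_mono (fun y => ?_) x
        have h6 := ew_le_g hth hv1 hve y
        have h7 : S.A (u ++ c :: p) m y =
            H962.capS S.A0 S.kap S.qq 1 (S.chn p m ++ l') (S.W (u ++ c :: p) m) y := by
          rw [← h1]; rfl
        rw [h7]
        calc _ ≤ (ENNReal.ofReal (Real.exp (8 / th ^ 2)) *
            ENNReal.ofReal (Real.exp (1 / 8 * ⟪e, y⟫ ^ 2))) *
            H962.capS S.A0 S.kap S.qq 1 (S.chn p m ++ l') (S.W (u ++ c :: p) m) y := by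
              gcongr
          _ = _ := by ring
    _ = ENNReal.ofReal (Real.exp (8 / th ^ 2)) * fib (S.W p m) (fun y =>
        H962.capS S.A0 S.kap S.qq 1 (S.chn p m ++ l') (S.W (u ++ c :: p) m) y *
          ENNReal.ofReal (Real.exp (1 / 8 * ⟪e, y⟫ ^ 2))) x :=
        H395.fib_mul (g := fun _ => ENNReal.ofReal (Real.exp (8 / th ^ 2)))
          (H395.inv_const _ _) (H962.measurable_capS.mul hexp) x
    _ ≤ ENNReal.ofReal (Real.exp (8 / th ^ 2)) * (ENNReal.ofReal (2 * (S.kap ^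
        (Module.finrank ℝ (S.W (u ++ c :: p) m) - Module.finrank ℝ (S.W p m))) ^ (1 : ℝ)) *
          H962.capS S.A0 S.kap S.qq 1 (S.chn p m) (S.W p m) x) := by gcongr
    _ = _ := by
        rw [← mul_assoc, ← ENNReal.ofReal_mul (Real.exp_nonneg _), Real.rpow_one]
        congr 2
        ring

/-! ### one rotation, one list -/

/-- the parent of a rotating node is not a leaf -/
lemma not_leaf_g {m : ℕ} (hm : S.mv.tm m < S.T) (hr : S.mv.IsRot m) {c : ℕ} {p : List ℕ}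
    (hq : S.mv.jj m = c :: p) : ¬ S.Leaf p m := by
  intro hl
  obtain ⟨θ, b, hb, β, f, a, hθ, -, -, -, -, -, -, -⟩ :=
    rot_dir (S := S) hm hr hq (List.suffix_refl (c :: p))
  have h1 : S.W (c :: p) m = S.W p m := W_leaf hl c
  have h2 : θ ∈ S.W p m := by rw [← h1]; exact hθ.mem
  have h3 : ⟪θ, θ⟫ = (0 : ℝ) := Submodule.inner_right_of_mem_orthogonal h2 hθ.perp
  rw [real_inner_self_eq_norm_sq, hb.hp] at h3
  norm_num at h3

lemma rotL_neg_preimage {θ b : E} (h : ON θ b) (φ : ℝ) (K : Set E) :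
    (rotL θ b (-φ)) ⁻¹' ((rotL θ b φ) ⁻¹' K) = K := by
  ext x
  rw [mem_preimage, mem_preimage, h.rot_rot, add_neg_cancel, ON.rot_zero]

lemma ofReal_exp_pos_g (x : ℝ) : ENNReal.ofReal (Real.exp x) ≠ 0 := by
  rw [Ne, ENNReal.ofReal_eq_zero, not_le]
  exact Real.exp_pos x

lemma one_side_g {W0 W : Submodule ℝ E} {K K' : Set E} (hK : MeasurableSet K)
    (hK' : MeasurableSet K') {th s : ℝ} (hth : 0 < th) (hs : 0 < s) (hsum : th + s = 1)
    {A : E → ℝ≥0∞} (hA : Measurable A) {x0 : E} (hfin : fib W0 (fun x => A x ^ th) x0 ≠ ⊤)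
    {X : ℝ≥0∞}
    (h : fib W0 (fun x => A x ^ th * fib W ((K ∩ K')ᶜ.indicator 1) x ^ s) x0
      ≤ fib W0 (fun x => A x ^ th * fib W (Kᶜ.indicator 1) x ^ s) x0 + X) :
    ENNReal.ofReal s * fib W0 (fun x => A x ^ th *
      ((fib W ((K ∩ K')ᶜ.indicator 1) x - fib W (Kᶜ.indicator 1) x) *
        (fib W ((K ∩ K')ᶜ.indicator 1) x ^ th)⁻¹)) x0 ≤ X := by
  have mC : Measurable (fib W ((K ∩ K')ᶜ.indicator (1 : E → ℝ≥0∞))) :=
    H395.measurable_fib (measurable_one.indicator (hK.inter hK').compl)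
  have mD : Measurable (fib W (Kᶜ.indicator (1 : E → ℝ≥0∞))) :=
    H395.measurable_fib (measurable_one.indicator hK.compl)
  have hC1 : ∀ x, fib W ((K ∩ K')ᶜ.indicator (1 : E → ℝ≥0∞)) x ≠ ⊤ := fun x =>
    ne_top_of_le_ne_top ENNReal.one_ne_top
      (H395.fib_le_one (fun y => indicator_le_one' _ y) x)
  have hDC : ∀ x, fib W (Kᶜ.indicator (1 : E → ℝ≥0∞)) x ≤ fib W ((K ∩ K')ᶜ.indicator 1) x :=
    fun x => H395.fib_mono (fun y => ind_le_ind (compl_subset_compl.2 inter_subset_left) y) x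
  have hD1 : ∀ x, fib W (Kᶜ.indicator (1 : E → ℝ≥0∞)) x ≤ 1 := fun x =>
    H395.fib_le_one (fun y => indicator_le_one' _ y) x
  have hfin2 : fib W0 (fun x => A x ^ th * fib W (Kᶜ.indicator 1) x ^ s) x0 ≠ ⊤ := by
    refine ne_top_of_le_ne_top hfin (H395.fib_mono (fun x => ?_) x0)
    calc A x ^ th * fib W (Kᶜ.indicator 1) x ^ s ≤ A x ^ th * 1 ^ s := by
          gcongr; exact hD1 x
      _ = A x ^ th := by rw [ENNReal.one_rpow, mul_one]
  have h1 : ENNReal.ofReal s * fib W0 (fun x => A x ^ th *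
      ((fib W ((K ∩ K')ᶜ.indicator 1) x - fib W (Kᶜ.indicator 1) x) *
        (fib W ((K ∩ K')ᶜ.indicator 1) x ^ th)⁻¹)) x0
      + fib W0 (fun x => A x ^ th * fib W (Kᶜ.indicator 1) x ^ s) x0
      ≤ fib W0 (fun x => A x ^ th * fib W ((K ∩ K')ᶜ.indicator 1) x ^ s) x0 := by
    have m1 : Measurable fun x => A x ^ th *
        ((fib W ((K ∩ K')ᶜ.indicator 1) x - fib W (Kᶜ.indicator 1) x) *
          (fib W ((K ∩ K')ᶜ.indicator (1 : E → ℝ≥0∞)) x ^ th)⁻¹) :=
      (hA.pow_const _).mul ((mC.sub mD).mul (mC.pow_const _).inv)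
    have e1 : ENNReal.ofReal s * fib W0 (fun x => A x ^ th *
        ((fib W ((K ∩ K')ᶜ.indicator 1) x - fib W (Kᶜ.indicator 1) x) *
          (fib W ((K ∩ K')ᶜ.indicator 1) x ^ th)⁻¹)) x0
        = fib W0 (fun x => ENNReal.ofReal s * (A x ^ th *
          ((fib W ((K ∩ K')ᶜ.indicator 1) x - fib W (Kᶜ.indicator 1) x) *
            (fib W ((K ∩ K')ᶜ.indicator 1) x ^ th)⁻¹))) x0 :=
      (H395.fib_mul (g := fun _ => ENNReal.ofReal s) (H395.inv_const _ _) m1 x0).symm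
    rw [e1, ← H395.fib_add (m1.const_mul _)]
    refine H395.fib_mono (fun x => ?_) x0
    have h2 := conc_g hth hs hsum (hC1 x) (hDC x)
    calc ENNReal.ofReal s * (A x ^ th *
          ((fib W ((K ∩ K')ᶜ.indicator 1) x - fib W (Kᶜ.indicator 1) x) *
            (fib W ((K ∩ K')ᶜ.indicator 1) x ^ th)⁻¹)) + A x ^ th * fib W (Kᶜ.indicator 1) x ^ s
        = A x ^ th * (ENNReal.ofReal s * ((fib W ((K ∩ K')ᶜ.indicator 1) x -
          fib W (Kᶜ.indicator 1) x) * (fib W ((K ∩ K')ᶜ.indicator 1) x ^ th)⁻¹) +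
            fib W (Kᶜ.indicator 1) x ^ s) := by ring
      _ ≤ _ := by gcongr
  have h3 := h1.trans h
  rw [add_comm (fib W0 (fun x => A x ^ th * fib W (Kᶜ.indicator 1) x ^ s) x0) X] at h3
  exact (ENNReal.add_le_add_iff_right hfin2).1 h3

/-- **(G3)** the throughput of one rotation at one descendant -/
theorem one_list (hε : 2 * (Real.sqrt 2 * Real.exp (-(S.qq / 4))) ≤ 1 / 4) {m : ℕ}
    (hm : m < S.mT) (hr : S.mv.IsRot m) {c : ℕ} {p : List ℕ} (hq : S.mv.jj m = c :: p)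
    (u : List ℕ) (hu : ∀ v w, u = v ++ w → v ≠ [] → ¬ S.Leaf (w ++ c :: p) m) (x0 : E) :
    fib (S.W p m) (S.xd (u ++ c :: p) m) x0 ≤
      ENNReal.ofReal (20 / (1 - S.th) * (2 * Real.exp (8 / S.th ^ 2)) ^ S.th *
        ((u.length : ℝ) + 2) ^ 2 * S.mv.ph m *
        (S.kap ^ (Module.finrank ℝ (S.W (u ++ c :: p) m) -
          Module.finrank ℝ (S.W p m))) ^ S.th) *
        (S.As S.th p m x0 * H837.Psi (1 - S.th) (2 * S.De p m x0)) := by
  set r := u ++ c :: p with hrdef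
  have hact : S.mv.IsStar m ∨ S.mv.IsRot m := Or.inr hr
  have hmT : S.mv.tm m < S.T := S.mv.tm_lt_of_lt (by unfold mT at hm; omega)
  have hp := not_leaf_g hmT hr hq
  have hqr : (c :: p) <:+ r := List.suffix_append u (c :: p)
  have hpr : p <:+ r := (List.suffix_cons c p).trans hqr
  have hWW : S.W p m ≤ S.W r m := S.W_mono hpr m
  obtain ⟨θ, b, hb, β, f, a, hθ, hbq, hbsum, hβ, hf, hf1, ha, hX⟩ :=
    rot_dir (S := S) hmT hr hq hqr
  have hth := S.hth
  have hth1 := S.hth1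
  have hs : 0 < 1 - S.th := by linarith
  have hφ0 : 0 ≤ S.mv.ph m := S.mv.ph_nonneg m
  have hlen : r.length - (p.length + 1) = u.length := by
    rw [hrdef, List.length_append, List.length_cons]; omega
  have hnle : u.length ≤ Module.finrank ℝ E := by
    rcases u with _ | ⟨a', u'⟩
    · simp
    · have h1 : ¬ S.Leaf (u' ++ c :: p) m := hu [a'] u' rfl (List.cons_ne_nil _ _)
      have h2 := length_le_of_not_leaf hmT h1
      rw [List.length_append] at h2
      rw [List.length_cons]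
      omega
  have hnle' : (u.length : ℝ) ≤ Module.finrank ℝ E := by exact_mod_cast hnle
  -- small angle
  have hsmall : ∀ φ : ℝ, |φ| = S.mv.ph m →
      5 * ((((r.length - (p.length + 1) : ℕ) : ℝ) + 2) * |φ|) * (S.R + 4) ^ 2 ≤ 1 := by
    intro φ hφ
    rw [hlen, hφ]
    refine le_trans ?_ (S.hph m)
    have h1 : ((u.length : ℝ) + 2) * S.mv.ph m ≤ ((Module.finrank ℝ E : ℝ) + 2) * S.mv.ph m := by
      gcongr
    have h2 : 0 ≤ (S.R + 4) ^ 2 := sq_nonneg _
    calc 5 * (((u.length : ℝ) + 2) * S.mv.ph m) * (S.R + 4) ^ 2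
        ≤ 5 * (((Module.finrank ℝ E : ℝ) + 2) * S.mv.ph m) * (S.R + 4) ^ 2 := by gcongr
      _ = _ := by ring
  -- moments
  set Λ : ℝ≥0∞ := ENNReal.ofReal (2 * Real.exp (8 / S.th ^ 2) *
    S.kap ^ (Module.finrank ℝ (S.W r m) - Module.finrank ℝ (S.W p m))) * S.A p m x0 with hΛ
  have hm1 : fib (S.W p m) (fun x => H837.ew θ x ^ (1 / S.th) * S.A r m x) x0 ≤ Λ :=
    mom_g hε hmT hp u hu hθ (by rw [hb.hp]) hth x0
  have hm2 : ∀ i, fib (S.W p m) (fun x => H837.ew (β i) x ^ (1 / S.th) * S.A r m x) x0 ≤ Λ :=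
    fun i => mom_g hε hmT hp u hu (hβ i).1 (hβ i).2.1 hth x0
  have hfin : fib (S.W p m) (fun x => S.A r m x ^ S.th) x0 ≠ ⊤ := by
    obtain ⟨l', h1, h2, h3, h4⟩ := chn_ext_g hmT hp u hu
    have h5 := H962.fib_capS_le (A0 := S.A0) (kap := S.kap) (s := S.th) (q := S.qq)
      (ε := 1 / 4) hε (by norm_num) (fun V hV => S.le_of_mem_chn hV) (S.W_mem_chn p m) h2 h3 hWW
      S.hA0 S.hkap hth.le (by linarith) S.hqq.le x0
    have e1 : (fun x => S.A r m x ^ S.th) =
        H962.capS S.A0 S.kap S.qq S.th (S.chn p m ++ l') (S.W r m) := by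
      funext x
      rw [S.A_rpow hth.le]
      show H962.capS S.A0 S.kap S.qq S.th (S.chn r m) (S.W r m) x = _
      rw [hrdef, h1]
    rw [e1]
    refine ne_top_of_le_ne_top (ENNReal.mul_ne_top ENNReal.ofReal_ne_top ?_) h5
    exact S.As_ne_top S.th p m x0
  have hb0 : b ∈ (S.W p m)ᗮ := Submodule.orthogonal_le (S.W_le c p m) hbq
  have hball : ∀ k, ∀ x ∈ S.X r k, ‖x‖ ≤ S.R := by
    intro k x hx
    have := S.X_subset_ball r k hx
    rwa [Metric.mem_closedBall, dist_zero_right] at this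
  have hR0 : 0 ≤ S.R := zero_le_one.trans S.hR
  -- the two bodies
  have hX' : S.X r m = (rotL θ b (-(S.mv.ph m))) ⁻¹' S.X r (m + 1) := by
    rw [hX, rotL_neg_preimage hb]
  have hWs : S.W r (m + 1) = S.W r m := S.W_succ_active hact r
  have hWp : S.W p (m + 1) = S.W p m := S.W_succ_active hact p
  have hroot : ∀ x, fib (S.W p m) ((S.X r m)ᶜ.indicator 1) x = S.De p m x := fun x =>
    S.mv.fib_Bd_compl (fun t => S.measurableSet_Kt t) m hpr x
  have hroot' : ∀ x, fib (S.W p m) ((S.X r (m + 1))ᶜ.indicator 1) x = S.De p m x := by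
    intro x
    have h1 : fib (S.W p (m + 1)) ((S.X r (m + 1))ᶜ.indicator 1) x = S.De p (m + 1) x :=
      S.mv.fib_Bd_compl (fun t => S.measurableSet_Kt t) (m + 1) hpr x
    rw [hWp] at h1
    rw [h1]
    have h2 : S.X p (m + 1) = S.X p m := S.X_rot_not hr (by
      rw [hq]
      intro h0
      have := h0.length_le
      simp at this)
    unfold De
    rw [hWp, h2]
  have key1 := H837.thr_rot (s := 1 - S.th) (p := 1 / 8) hWW (S.isCompact_X r m) (S.convex_X r m)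
    hR0 (hball m) hb hθ.mem hθ.perp hb0 (fun i => (hβ i).1.mem) (fun i => (hβ i).1.perp)
    (fun i => (hβ i).2.1) (fun i => (hβ i).2.2) hf hf1 ha hbsum
    (hsmall (S.mv.ph m) (abs_of_nonneg hφ0)) hth hs (by ring) (by norm_num) (by linarith)
    (S.A_meas r m) (fun t => growV_g hθ t) (fun i t => growV_g (hβ i).1 t) hfin hm1 hm2
  have key2 := H837.thr_rot (s := 1 - S.th) (p := 1 / 8) hWW (S.isCompact_X r (m + 1))
    (S.convex_X r (m + 1))
    hR0 (hball (m + 1)) hb hθ.mem hθ.perp hb0 (fun i => (hβ i).1.mem) (fun i => (hβ i).1.perp)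
    (fun i => (hβ i).2.1) (fun i => (hβ i).2.2) hf hf1 ha hbsum
    (hsmall (-(S.mv.ph m)) (by rw [abs_neg, abs_of_nonneg hφ0])) hth hs (by ring) (by norm_num)
    (by linarith)
    (S.A_meas r m) (fun t => growV_g hθ t) (fun i t => growV_g (hβ i).1 t) hfin hm1 hm2
  rw [← hX, hroot] at key1
  rw [← hX', hroot', abs_neg] at key2
  set Xb : ℝ≥0∞ := ENNReal.ofReal (10 * (((r.length - (p.length + 1) : ℕ) : ℝ) + 2) ^ 2 *
    |S.mv.ph m|) * (Λ ^ S.th * H837.Psi (1 - S.th) (2 * S.De p m x0)) with hXb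
  have g1 := one_side_g (S.measurableSet_X r m) (S.measurableSet_X r (m + 1)) hth hs (by ring)
    (S.A_meas r m) hfin key1
  have g2 := one_side_g (S.measurableSet_X r (m + 1)) (S.measurableSet_X r m) hth hs (by ring)
    (S.A_meas r m) hfin key2
  rw [inter_comm] at g2
  set C : E → ℝ≥0∞ := fib (S.W r m) ((S.X r m ∩ S.X r (m + 1))ᶜ.indicator 1) with hC
  set D1 : E → ℝ≥0∞ := fib (S.W r m) ((S.X r m)ᶜ.indicator 1) with hD1
  set D2 : E → ℝ≥0∞ := fib (S.W r m) ((S.X r (m + 1))ᶜ.indicator 1) with hD2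
  have mC : Measurable C := H395.measurable_fib (measurable_one.indicator
    ((S.measurableSet_X r m).inter (S.measurableSet_X r (m + 1))).compl)
  have mD1 : Measurable D1 := H395.measurable_fib
    (measurable_one.indicator (S.measurableSet_X r m).compl)
  have mD2 : Measurable D2 := H395.measurable_fib
    (measurable_one.indicator (S.measurableSet_X r (m + 1)).compl)
  have hle1 : ∀ s : Set E, ∀ x, fib (S.W r m) (s.indicator (1 : E → ℝ≥0∞)) x ≤ 1 := fun s x =>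
    H395.fib_le_one (fun y => indicator_le_one' _ y) x
  -- the change of the body
  have hDl : ∀ x, S.Dl r m x ≤ (C x - D1 x) + (C x - D2 x) := by
    intro x
    rw [S.Dl_active hact]
    have h1 : ∀ (K K' : Set E), MeasurableSet K → MeasurableSet K' →
        fib (S.W r m) ((K \ K').indicator 1) x ≤
          fib (S.W r m) ((K ∩ K')ᶜ.indicator 1) x - fib (S.W r m) (Kᶜ.indicator 1) x := by
      intro K K' hK hK'
      refine ENNReal.le_sub_of_add_le_right (ne_top_of_le_ne_top ENNReal.one_ne_top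
        (hle1 _ x)) ?_
      rw [← H395.fib_add (measurable_one.indicator (hK.diff hK'))]
      refine H395.fib_mono (fun y => ?_) x
      by_cases h1 : y ∈ K
      · by_cases h2 : y ∈ K'
        · rw [indicator_of_notMem (fun h : y ∈ K \ K' => h.2 h2),
            indicator_of_notMem (fun h : y ∈ Kᶜ => h h1), add_zero]
          exact zero_le
        · rw [indicator_of_mem (show y ∈ K \ K' from ⟨h1, h2⟩),
            indicator_of_notMem (fun h : y ∈ Kᶜ => h h1), add_zero,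
            indicator_of_mem (show y ∈ (K ∩ K')ᶜ from fun h => h2 h.2)]
      · rw [indicator_of_notMem (fun h : y ∈ K \ K' => h1 h.1), zero_add,
          indicator_of_mem (show y ∈ Kᶜ from h1),
          indicator_of_mem (show y ∈ (K ∩ K')ᶜ from fun h => h1 h.1)]
    have h2 := h1 _ _ (S.measurableSet_X r m) (S.measurableSet_X r (m + 1))
    have h3 := h1 _ _ (S.measurableSet_X r (m + 1)) (S.measurableSet_X r m)
    rw [inter_comm] at h3
    refine le_trans ?_ (add_le_add h2 h3)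
    rw [← H395.fib_add (measurable_one.indicator
      ((S.measurableSet_X r m).diff (S.measurableSet_X r (m + 1))))]
    refine H395.fib_mono (fun y => ?_) x
    by_cases h4 : y ∈ symmDiff (S.X r m) (S.X r (m + 1))
    · rw [indicator_of_mem h4]
      rcases h4 with h4 | h4
      · rw [indicator_of_mem (show y ∈ S.X r m \ S.X r (m + 1) from h4)]
        exact le_self_add
      · rw [indicator_of_mem (show y ∈ S.X r (m + 1) \ S.X r m from h4)]
        exact le_add_self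
    · rw [indicator_of_notMem h4]; exact zero_le
  have hDc : ∀ x, S.Dc r m x = C x := fun x => S.Dc_active hact x
  have hxd : ∀ x, S.xd r m x ≤ S.A r m x ^ S.th * ((C x - D1 x) * (C x ^ S.th)⁻¹) +
      S.A r m x ^ S.th * ((C x - D2 x) * (C x ^ S.th)⁻¹) := by
    intro x
    unfold xd
    rw [hDc]
    have h1 : (S.A r m x / max (S.A r m x) (C x)) ^ S.th ≤ S.A r m x ^ S.th * (C x ^ S.th)⁻¹ := by
      rw [← ENNReal.inv_rpow, ← ENNReal.mul_rpow_of_nonneg _ _ hth.le]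
      refine ENNReal.rpow_le_rpow ?_ hth.le
      rw [ENNReal.div_eq_inv_mul, mul_comm]
      gcongr
      exact le_max_right _ _
    calc (S.A r m x / max (S.A r m x) (C x)) ^ S.th * S.Dl r m x
        ≤ (S.A r m x ^ S.th * (C x ^ S.th)⁻¹) * ((C x - D1 x) + (C x - D2 x)) :=
          mul_le_mul' h1 (hDl x)
      _ = _ := by ring
  have m1 : Measurable fun x => S.A r m x ^ S.th * ((C x - D1 x) * (C x ^ S.th)⁻¹) :=
    ((S.A_meas r m).pow_const _).mul ((mC.sub mD1).mul (mC.pow_const _).inv)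
  have hsum : ENNReal.ofReal (1 - S.th) * fib (S.W p m) (S.xd r m) x0 ≤ Xb + Xb := by
    calc ENNReal.ofReal (1 - S.th) * fib (S.W p m) (S.xd r m) x0
        ≤ ENNReal.ofReal (1 - S.th) * fib (S.W p m) (fun x =>
          S.A r m x ^ S.th * ((C x - D1 x) * (C x ^ S.th)⁻¹) +
            S.A r m x ^ S.th * ((C x - D2 x) * (C x ^ S.th)⁻¹)) x0 := by
          gcongr
          exact H395.fib_mono hxd x0
      _ = ENNReal.ofReal (1 - S.th) * fib (S.W p m) (fun x =>
          S.A r m x ^ S.th * ((C x - D1 x) * (C x ^ S.th)⁻¹)) x0 +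
          ENNReal.ofReal (1 - S.th) * fib (S.W p m) (fun x =>
            S.A r m x ^ S.th * ((C x - D2 x) * (C x ^ S.th)⁻¹)) x0 := by
          rw [H395.fib_add m1, mul_add]
      _ ≤ Xb + Xb := add_le_add g1 g2
  have hfinal : fib (S.W p m) (S.xd r m) x0 ≤ ENNReal.ofReal (1 / (1 - S.th)) * (2 * Xb) := by
    have h1 : ENNReal.ofReal (1 / (1 - S.th)) * ENNReal.ofReal (1 - S.th) = 1 := by
      rw [← ENNReal.ofReal_mul (by positivity), one_div, inv_mul_cancel₀ hs.ne',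
        ENNReal.ofReal_one]
    calc fib (S.W p m) (S.xd r m) x0
        = ENNReal.ofReal (1 / (1 - S.th)) * (ENNReal.ofReal (1 - S.th) *
          fib (S.W p m) (S.xd r m) x0) := by rw [← mul_assoc, h1, one_mul]
      _ ≤ ENNReal.ofReal (1 / (1 - S.th)) * (Xb + Xb) := by gcongr
      _ = _ := by rw [two_mul]
  refine hfinal.trans (le_of_eq ?_)
  have eΛ : Λ ^ S.th = ENNReal.ofReal ((2 * Real.exp (8 / S.th ^ 2)) ^ S.th *
      (S.kap ^ (Module.finrank ℝ (S.W r m) - Module.finrank ℝ (S.W p m))) ^ S.th) *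
        S.As S.th p m x0 := by
    have hk := S.hkap
    rw [hΛ, ENNReal.mul_rpow_of_nonneg _ _ hth.le, S.A_rpow hth.le,
      ENNReal.ofReal_rpow_of_pos (by positivity),
      Real.mul_rpow (by positivity) (by positivity)]
  rw [hXb, eΛ, hlen, abs_of_nonneg hφ0]
  have hk := S.hkap
  have e2 : (2 : ℝ≥0∞) = ENNReal.ofReal 2 := by simp
  set P := H837.Psi (1 - S.th) (2 * S.De p m x0) with hP
  set G := S.As S.th p m x0 with hG
  set c1 := (2 * Real.exp (8 / S.th ^ 2)) ^ S.th with hc1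
  set c2 := (S.kap ^ (Module.finrank ℝ (S.W r m) - Module.finrank ℝ (S.W p m))) ^ S.th with hc2
  have hc10 : 0 ≤ c1 := by positivity
  have hc20 : 0 ≤ c2 := by positivity
  calc ENNReal.ofReal (1 / (1 - S.th)) * (2 * (ENNReal.ofReal (10 * ((u.length : ℝ) + 2) ^ 2 *
        S.mv.ph m) * (ENNReal.ofReal (c1 * c2) * G * P)))
      = (ENNReal.ofReal (1 / (1 - S.th)) * ENNReal.ofReal 2 *
        ENNReal.ofReal (10 * ((u.length : ℝ) + 2) ^ 2 * S.mv.ph m) *
          ENNReal.ofReal (c1 * c2)) * (G * P) := by rw [e2]; ring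
    _ = _ := by
        rw [← ENNReal.ofReal_mul (by positivity), ← ENNReal.ofReal_mul (by positivity),
          ← ENNReal.ofReal_mul (by positivity)]
        congr 2
        field_simp
        ring

end Vale.Agent.P262.M2.Sys
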