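import Vale.Agent.P262.H59.R12
import Vale.Agent.P262.H118.SysBlk

/-!
# P262, milestone 1: the end price of a block, `PZL`
-/

set_option linter.all false

open MeasureTheory ProbabilityTheory Set
open scoped ENNReal RealInnerProductSpace
open Vale.Agent.P262.H118 (L Iv st en ONB K1 rotE ON tau)
open Vale.Agent.P262.H395 (fib mix Inv Fixes fib_mono fib_tower fib_le_one fib_eq_self fib_add)
open Vale.Agent.P262.H493 (star)
open Vale.Agent.P262.H654 (Lev fl vis wt kt al hid nk fr InvR Good LevOK Bd)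
open Vale.Agent.P262.H847 (UI)

namespace Vale.Agent.P262.H502

/-! ### the sequence lemma -/

/-- clipping does not increase distances -/
lemma abs_min_sub_min (H a b : ℝ) : |min a H - min b H| ≤ |a - b| := by
  rcases le_total a H with h1 | h1 <;> rcases le_total b H with h2 | h2
  · rw [min_eq_left h1, min_eq_left h2]
  · rw [min_eq_left h1, min_eq_right h2, abs_of_nonpos (by linarith), abs_of_nonpos (by linarith)]
    linarith
  · rw [min_eq_right h1, min_eq_left h2, abs_of_nonneg (by linarith), abs_of_nonneg (by linarith)]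
    linarith
  · rw [min_eq_right h1, min_eq_right h2, sub_self, abs_zero]
    exact abs_nonneg _

/-- a clipped real sequence falling from `H` to `2 A` -/
lemma seq_pay {A M : ℝ} (hA : 0 < A) (hM : 16 ≤ M) {F : ℕ → ℝ} {P : ℕ → ℝ≥0∞} {s e : ℕ}
    (hse : s ≤ e) (h0 : M / 4 * A ≤ F s) (h1 : F e ≤ 2 * A)
    (hmv : ∀ m, s ≤ m → m < e → (M / 4 * A ≤ F m ∧ M / 4 * A ≤ F (m + 1)) ∨
      ENNReal.ofReal (8 / M * |F (m + 1) - F m|) ≤ P m ∨ ENNReal.ofReal A ≤ P m) :
    ENNReal.ofReal A ≤ ∑ m ∈ Finset.Ico s e, P m := by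
  have hM0 : 0 < M := by linarith
  by_cases hbig : ∃ m, s ≤ m ∧ m < e ∧ ENNReal.ofReal A ≤ P m
  · obtain ⟨m, a1, a2, a3⟩ := hbig
    exact a3.trans (Finset.single_le_sum (f := P) (fun _ _ => zero_le)
      (Finset.mem_Ico.mpr ⟨a1, a2⟩))
  · push Not at hbig
    set H := M / 4 * A with hH
    set G : ℕ → ℝ := fun m => min (F m) H with hG
    have key : ∀ k, s ≤ k → k ≤ e →
        ENNReal.ofReal (8 / M * (G s - G k)) ≤ ∑ m ∈ Finset.Ico s k, P m := by
      intro k hk
      induction k, hk using Nat.le_induction with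
      | base => intro _; simp
      | succ k hk ih =>
        intro hke
        rw [Finset.sum_Ico_succ_top hk]
        have h2 := ih (by omega)
        have h3 : ENNReal.ofReal (8 / M * (G k - G (k + 1))) ≤ P k := by
          rcases hmv k hk (by omega) with h | h | h
          · have e1 : G k = H := min_eq_right h.1
            have e2 : G (k + 1) = H := min_eq_right h.2
            rw [e1, e2, sub_self, mul_zero, ENNReal.ofReal_zero]
            exact zero_le
          · refine (ENNReal.ofReal_le_ofReal ?_).trans h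
            apply mul_le_mul_of_nonneg_left _ (by positivity)
            refine (le_abs_self _).trans ?_
            rw [abs_sub_comm (F (k + 1)) (F k)]
            exact abs_min_sub_min H _ _
          · exact absurd h (not_le.mpr (hbig k hk (by omega)))
        have e3 : 8 / M * (G s - G (k + 1)) = 8 / M * (G s - G k) + 8 / M * (G k - G (k + 1)) := by
          ring
        rw [e3]
        exact ENNReal.ofReal_add_le.trans (add_le_add h2 h3)
    refine le_trans (ENNReal.ofReal_le_ofReal ?_) (key e hse le_rfl)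
    have e1 : G s = H := min_eq_right h0
    have e2 : G e ≤ 2 * A := (min_le_left _ _).trans h1
    have e3 : 8 / M * (H - 2 * A) ≤ 8 / M * (G s - G e) := by
      apply mul_le_mul_of_nonneg_left _ (by positivity)
      rw [e1]; linarith
    refine le_trans ?_ e3
    have e4 : 8 / M * (H - 2 * A) = 2 * A - 16 / M * A := by
      rw [hH]; field_simp; ring
    rw [e4]
    have e5 : 16 / M ≤ 1 := by rw [div_le_one hM0]; exact hM
    nlinarith

/-- the price of an outer move: dead masses `D₁, D₂ ≤ F + A` before and after, `dl` the change,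
`dc` the dead mass of the intersection -/
lemma out_pay {A M c dl dc D : ℝ} (hA : 0 < A) (hM : 16 ≤ M) (hc : M ≤ c) (hdl : 0 ≤ dl)
    (hld : dl ≤ dc) (hD : D ≤ (M / 4 + 1) * A) (hdc : dc ≤ D + dl) :
    (8 / M * (2 * dl) ≤ c * (A * (dl / dc))) ∨ (A ≤ c * (A * (dl / dc))) := by
  have hM0 : 0 < M := by linarith
  rcases eq_or_lt_of_le hdl with h0 | h0
  · left
    rw [← h0]; simp
  have hdc0 : 0 < dc := h0.trans_le hld
  rcases le_or_gt A dl with h | h
  · right
    have h1 : dc ≤ c * dl := by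
      nlinarith
    have h2 : 1 ≤ c * (dl / dc) := by
      rw [← mul_div_assoc, le_div_iff₀ hdc0]; linarith
    nlinarith
  · left
    have h1 : dc ≤ (M / 4 + 2) * A := by linarith
    have h2 : 8 / M * (2 * dl) = 16 * dl / M := by ring
    have h3 : c * (A * (dl / dc)) = c * A * dl / dc := by ring
    rw [h2, h3, div_le_div_iff₀ hM0 hdc0]
    have h4 : 16 * dl * dc ≤ 16 * dl * ((M / 4 + 2) * A) :=
      mul_le_mul_of_nonneg_left h1 (by positivity)
    have h5 : 16 * (M / 4 + 2) ≤ c * M := by nlinarith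
    have h6 : 16 * dl * ((M / 4 + 2) * A) ≤ c * M * (dl * A) := by
      have : 0 < dl * A := by positivity
      nlinarith
    nlinarith

/-! ### masses of a label -/

section masses

variable {E : Type*} [NormedAddCommGroup E] [InnerProductSpace ℝ E] [FiniteDimensional ℝ E]
  [MeasurableSpace E] [BorelSpace E]

open Vale.Agent.P262.M1
open Vale.Agent.P262.M1.Sys

/-- payoff at most visible plus hidden -/
lemma fr_payoff_le {c0 : ℝ} {L : List (Lev E)} (hL : Good c0 L) (hc : c0 ≤ 1 / 16) {g : E → ℝ}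
    (hg : UI g) (W : Submodule ℝ E) (x : E) :
    fr W g x ≤ fr W (fl L g) x + fr W (hid L g) x := by
  have h1 := H654.fr_sum hL hc hg W x
  have h2 : fr W (fun y => al L y * (1 - g y)) x ≤ fr W (fun y => 1 - g y) x := by
    refine H654.fr_mono ((Bd.of_UI (H654.al_UI hL)).mul ((Bd.const 1).sub (Bd.of_UI hg)))
      ((Bd.const 1).sub (Bd.of_UI hg)) (fun y => ?_) x
    have := (H654.al_UI hL).le_one y
    have := hg.le_one y
    nlinarith
  rw [H654.fr_sub (Bd.const 1) (Bd.of_UI hg), H654.fr_const] at h2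
  linarith

variable (S : Sys E)

lemma caps_lvs (hM : 1 ≤ S.M) {c0 : ℝ} (hc0 : (S.M + 1) * S.cp.b0 ≤ c0) :
    ∀ n l, l + n + 1 = S.d → H654.Caps S.cp.kap (S.lev l) (S.lvs (l + 1) S.d) := by
  intro n
  induction n with
  | zero =>
    intro l hl
    rw [S.lvs_nil (by omega)]
    exact trivial
  | succ n ih =>
    intro l hl
    rw [S.lvs_cons (by omega)]
    refine ⟨fun x hx => ?_, ih (l + 1) (by omega)⟩
    have hok := S.levOK (c0 := c0) (by linarith) hc0 (l + 1)
    have h1 := S.cp.child l (by omega) x hx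
    have hA := S.cp.A_pos l x
    have hk := S.cp.kap_pos
    have h3 : ENNReal.ofReal (fr (L S.f l) (fun y => nk (S.lev (l + 1)) y * (S.lev (l + 1)).c y) x)
        ≤ ENNReal.ofReal (S.cp.kap * ((S.M + 1) * S.cp.A l x)) := by
      rw [H654.ofReal_fr (H654.nkc_Bd hok) (fun y => mul_nonneg (H654.nk_nonneg _ y)
        (mul_nonneg (by linarith) (S.cp.A_pos (l + 1) y).le))]
      have h2 : fib (L S.f l) (fun y => ENNReal.ofReal (nk (S.lev (l + 1)) y
          * (S.lev (l + 1)).c y)) x ≤ fib (L S.f l) (fun y => ENNReal.ofReal (S.M + 1)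
            * (ENNReal.ofReal (S.cp.A (l + 1) y) + (S.cp.Z (l + 1)).indicator 1 y)) x := by
        refine fib_mono (fun y => ?_) x
        refine le_trans ?_ (mul_le_mul_right (le_self_add) _)
        rw [← ENNReal.ofReal_mul (by linarith)]
        refine ENNReal.ofReal_le_ofReal ?_
        have e1 := H654.nk_le_one (S.lev (l + 1)) y
        have e2 : 0 ≤ (S.M + 1) * S.cp.A (l + 1) y :=
          mul_nonneg (by linarith) (S.cp.A_pos (l + 1) y).le
        calc nk (S.lev (l + 1)) y * (S.lev (l + 1)).c y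
            ≤ 1 * ((S.M + 1) * S.cp.A (l + 1) y) := mul_le_mul_of_nonneg_right e1 e2
          _ = _ := one_mul _
      refine h2.trans ?_
      have hm : Measurable fun y => (ENNReal.ofReal (S.cp.A (l + 1) y)
          + (S.cp.Z (l + 1)).indicator (1 : E → ℝ≥0∞) y) :=
        (S.cp.A_meas (l + 1)).ennreal_ofReal.add
          (measurable_one.indicator (S.measurableSet_Z (l + 1)))
      rw [H395.fib_mul (H395.inv_const _ _) hm]
      refine (mul_le_mul_right h1 _).trans ?_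
      rw [← ENNReal.ofReal_mul (by linarith)]
      exact ENNReal.ofReal_le_ofReal (le_of_eq (by ring))
    exact (ENNReal.ofReal_le_ofReal_iff (mul_nonneg hk.le (mul_nonneg (by linarith) hA.le))).mp h3

/-- the hidden mass of a label -/
lemma hid_le {c0 : ℝ} (hM : 1 ≤ S.M) (hc0 : (S.M + 1) * S.cp.b0 ≤ c0) (hc : c0 ≤ 1 / 16)
    (hk : S.cp.kap ≤ 1 / 2) {l : ℕ} (hl : l ≤ S.lf) (m : ℕ) {x : E} (hx : x ∉ S.cp.Z l) :
    fr (L S.f l) (S.hdn l m) x ≤ 2 * S.cp.kap * ((S.M + 1) * S.cp.A l x) := by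
  have hd := S.d_eq
  have hG : Good c0 (S.lev l :: S.lvs (l + 1) S.d) := by
    rw [← S.lvs_cons (by omega)]
    exact S.good_lvs (by linarith) hc0 l S.d
  exact H654.fr_hid_le_caps (p := S.lev l) S.cp.kap_pos.le hk hG hc
    (ind_UI (S.measurableSet_X S.lf m).compl)
    (caps_lvs S hM hc0 (S.d - l - 1) l (by omega)) hx

/-- real deficit -/
noncomputable def dr (l m : ℕ) (x : E) : ℝ := fr (L S.f l) (ind (S.X S.lf m)ᶜ) x

lemma ofReal_dr (m : ℕ) {l : ℕ} (hl : l ≤ S.lf) (x : E) :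
    ENNReal.ofReal (dr S l m x) = S.De l m x := by
  unfold dr
  rw [S.De_eq m hl x, fib_ind (S.measurableSet_X S.lf m).compl]

lemma dr_nonneg (l m : ℕ) (x : E) : 0 ≤ dr S l m x := H654.fr_nonneg (ind_nonneg _) x

lemma dr_le {c0 : ℝ} (hM : 1 ≤ S.M) (hc0 : (S.M + 1) * S.cp.b0 ≤ c0) (hc : c0 ≤ 1 / 16)
    (hk : S.cp.kap ≤ 1 / 2) (hkM : 2 * S.cp.kap * (S.M + 1) ≤ 1) {l : ℕ} (hl : l ≤ S.lf) (m : ℕ)
    {x : E} (hx : x ∉ S.cp.Z l) : dr S l m x ≤ S.Fv l m x + S.cp.A l x := by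
  have h1 := fr_payoff_le (S.good_lvs (c0 := c0) (by linarith) hc0 (l + 1) S.d) hc
    (ind_UI (S.measurableSet_X S.lf m).compl) (L S.f l) x
  have h2 := hid_le S hM hc0 hc hk hl m hx
  have hA := S.cp.A_pos l x
  have h3 : 2 * S.cp.kap * ((S.M + 1) * S.cp.A l x) ≤ S.cp.A l x := by
    calc 2 * S.cp.kap * ((S.M + 1) * S.cp.A l x) = (2 * S.cp.kap * (S.M + 1)) * S.cp.A l x := by
          ring
      _ ≤ 1 * S.cp.A l x := mul_le_mul_of_nonneg_right hkM hA.le
      _ = _ := one_mul _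
  have h4 : fr (L S.f l) (hid (S.lvs (l + 1) S.d) (ind (S.X S.lf m)ᶜ)) x ≤ S.cp.A l x :=
    h2.trans h3
  have h5 : dr S l m x ≤ S.Fv l m x
    + fr (L S.f l) (hid (S.lvs (l + 1) S.d) (ind (S.X S.lf m)ᶜ)) x := h1
  linarith

lemma Fv_le {c0 : ℝ} (hM : 1 ≤ S.M) (hc0 : (S.M + 1) * S.cp.b0 ≤ c0) (hc : c0 ≤ 1 / 16)
    (hk : S.cp.kap ≤ 1) {l : ℕ} (hl : l ≤ S.lf) (m : ℕ)
    {x : E} (hx : x ∉ S.cp.Z l) : S.Fv l m x ≤ dr S l m x + S.cp.A l x := by
  have h1 := S.fr_fl_le (by linarith) hc0 hc hk (ind_UI (S.measurableSet_X S.lf m).compl)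
    (a := l + 1) (b := S.d) le_rfl hl hx
  have h2 : fib (L S.f l) (fun z => ENNReal.ofReal (ind (S.X S.lf m)ᶜ z)) x
      = ENNReal.ofReal (dr S l m x) := by
    unfold dr
    rw [H654.ofReal_fr (Bd.of_UI (ind_UI (S.measurableSet_X S.lf m).compl)) (ind_nonneg _)]
  rw [h2, ← ENNReal.ofReal_add (dr_nonneg S l m x) (S.cp.A_pos l x).le] at h1
  exact (ENNReal.ofReal_le_ofReal_iff (add_nonneg (dr_nonneg S l m x) (S.cp.A_pos l x).le)).mp h1

/-! ### `Dc`, `Dl` in real form -/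

lemma Dl_le_Dc (l m : ℕ) (x : E) : S.Dl l m x ≤ S.Dc l m x := by
  refine fib_mono (fun y => indicator_le_indicator_of_subset ?_ (fun _ => zero_le) y) x
  rintro z (⟨h1, h2⟩ | ⟨h1, h2⟩)
  · exact fun h => h2 h.2
  · exact fun h => h2 h.1

lemma Dc_le_one (l m : ℕ) (x : E) : S.Dc l m x ≤ 1 :=
  fib_le_one (fun y => indicator_le_self' (fun _ _ => zero_le_one) y) x

lemma Dc_le_De_add (l m : ℕ) (x : E) : S.Dc l m x ≤ S.De l m x + S.Dl l m x := by
  have m2 : Measurable ((S.X l m)ᶜ.indicator (1 : E → ℝ≥0∞)) :=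
    measurable_one.indicator (S.measurableSet_X l m).compl
  unfold Dc De Dl
  rw [← fib_add m2]
  refine fib_mono (fun y => ?_) x
  by_cases h1 : y ∈ S.X l m
  · by_cases h2 : y ∈ S.X l (m + 1)
    · rw [indicator_of_notMem (show y ∉ (S.X l m ∩ S.X l (m + 1))ᶜ from fun h => h ⟨h1, h2⟩)]
      exact zero_le
    · have h3 : y ∈ symmDiff (S.X l m) (S.X l (m + 1)) := Or.inl ⟨h1, h2⟩
      rw [indicator_of_mem (show y ∈ (S.X l m ∩ S.X l (m + 1))ᶜ from fun h => h2 h.2),
        indicator_of_mem h3]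
      exact le_add_self
  · rw [indicator_of_mem (show y ∈ (S.X l m ∩ S.X l (m + 1))ᶜ from fun h => h1 h.1),
      indicator_of_mem (show y ∈ (S.X l m)ᶜ from h1)]
    exact le_self_add

lemma Dc_le_De_succ_add (l m : ℕ) (x : E) : S.Dc l m x ≤ S.De l (m + 1) x + S.Dl l m x := by
  have m2 : Measurable ((S.X l (m + 1))ᶜ.indicator (1 : E → ℝ≥0∞)) :=
    measurable_one.indicator (S.measurableSet_X l (m + 1)).compl
  unfold Dc De Dl
  rw [← fib_add m2]
  refine fib_mono (fun y => ?_) x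
  by_cases h1 : y ∈ S.X l (m + 1)
  · by_cases h2 : y ∈ S.X l m
    · rw [indicator_of_notMem (show y ∉ (S.X l m ∩ S.X l (m + 1))ᶜ from fun h => h ⟨h2, h1⟩)]
      exact zero_le
    · have h3 : y ∈ symmDiff (S.X l m) (S.X l (m + 1)) := Or.inr ⟨h1, h2⟩
      rw [indicator_of_mem (show y ∈ (S.X l m ∩ S.X l (m + 1))ᶜ from fun h => h2 h.1),
        indicator_of_mem h3]
      exact le_add_self
  · rw [indicator_of_mem (show y ∈ (S.X l m ∩ S.X l (m + 1))ᶜ from fun h => h1 h.2),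
      indicator_of_mem (show y ∈ (S.X l (m + 1))ᶜ from h1)]
    exact le_self_add

lemma Dc_le_De_De (l m : ℕ) (x : E) : S.Dc l m x ≤ S.De l m x + S.De l (m + 1) x := by
  have m2 : Measurable ((S.X l m)ᶜ.indicator (1 : E → ℝ≥0∞)) :=
    measurable_one.indicator (S.measurableSet_X l m).compl
  unfold Dc De
  rw [← fib_add m2]
  refine fib_mono (fun y => ?_) x
  by_cases h1 : y ∈ S.X l m
  · by_cases h2 : y ∈ S.X l (m + 1)
    · rw [indicator_of_notMem (show y ∉ (S.X l m ∩ S.X l (m + 1))ᶜ from fun h => h ⟨h1, h2⟩)]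
      exact zero_le
    · rw [indicator_of_mem (show y ∈ (S.X l m ∩ S.X l (m + 1))ᶜ from fun h => h2 h.2),
        indicator_of_mem (show y ∈ (S.X l (m + 1))ᶜ from h2)]
      exact le_add_self
  · rw [indicator_of_mem (show y ∈ (S.X l m ∩ S.X l (m + 1))ᶜ from fun h => h1 h.1),
      indicator_of_mem (show y ∈ (S.X l m)ᶜ from h1)]
    exact le_self_add

/-- `Xr` in real form -/
lemma Xr_eq (l m : ℕ) {x : E} (hx : x ∉ S.cp.Z l) :
    S.Xr l m x = ENNReal.ofReal (S.cp.A l x * ((S.Dl l m x).toReal / (S.Dc l m x).toReal)) := by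
  have h1 := Dc_le_one S l m x
  have h2 := Dl_le_Dc S l m x
  have f1 : S.Dc l m x ≠ ∞ := (h1.trans_lt ENNReal.one_lt_top).ne
  have f2 : S.Dl l m x ≠ ∞ := ((h2.trans h1).trans_lt ENNReal.one_lt_top).ne
  unfold Xr a
  rw [if_neg hx, ENNReal.ofReal_mul (S.cp.A_pos l x).le]
  congr 1
  rcases eq_or_ne (S.Dc l m x) 0 with h | h
  · have h3 : S.Dl l m x = 0 := le_antisymm (h ▸ h2) zero_le
    rw [h, h3]; simp
  · rw [ENNReal.ofReal_div_of_pos (ENNReal.toReal_pos h f1), ENNReal.ofReal_toReal f1,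
      ENNReal.ofReal_toReal f2]

lemma Dl_fin (l m : ℕ) (x : E) : S.Dl l m x ≠ ∞ :=
  (((Dl_le_Dc S l m x).trans (Dc_le_one S l m x)).trans_lt ENNReal.one_lt_top).ne

lemma Dc_fin (l m : ℕ) (x : E) : S.Dc l m x ≠ ∞ :=
  ((Dc_le_one S l m x).trans_lt ENNReal.one_lt_top).ne

lemma dc_le_dr (m : ℕ) {l : ℕ} (hl : l ≤ S.lf) (x : E) :
    (S.Dc l m x).toReal ≤ dr S l m x + (S.Dl l m x).toReal := by
  have h := Dc_le_De_add S l m x
  rw [← ofReal_dr S m hl, ← ENNReal.ofReal_toReal (Dl_fin S l m x),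
    ← ENNReal.ofReal_add (dr_nonneg S l m x) ENNReal.toReal_nonneg] at h
  have h2 := ENNReal.toReal_mono ENNReal.ofReal_ne_top h
  rwa [ENNReal.toReal_ofReal (add_nonneg (dr_nonneg S l m x) ENNReal.toReal_nonneg)] at h2

lemma dc_le_dr_succ (m : ℕ) {l : ℕ} (hl : l ≤ S.lf) (x : E) :
    (S.Dc l m x).toReal ≤ dr S l (m + 1) x + (S.Dl l m x).toReal := by
  have h := Dc_le_De_succ_add S l m x
  rw [← ofReal_dr S (m + 1) hl, ← ENNReal.ofReal_toReal (Dl_fin S l m x),
    ← ENNReal.ofReal_add (dr_nonneg S l (m + 1) x) ENNReal.toReal_nonneg] at h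
  have h2 := ENNReal.toReal_mono ENNReal.ofReal_ne_top h
  rwa [ENNReal.toReal_ofReal (add_nonneg (dr_nonneg S l (m + 1) x) ENNReal.toReal_nonneg)] at h2

/-- a reopening inside a block survives at its level -/
lemma re_of_block {l m m' : ℕ} (hl : l ≤ S.lf) (hm : m < S.mT) (h1 : S.sB l m ≤ m')
    (h2 : m' < S.eB l m) (hre : S.IsRe m') : l < S.lf ∧ l ≤ S.sv m' := by
  have hT := S.tm_lt_of_lt hm
  have hm' : m' < S.mT := h2.trans_le (S.eB_le_mT hT l)
  have h3 := S.tm_re_lt hre hm'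
  have h4 := (S.eq_of_lt h1 h2 hT).2
  by_cases hn : S.tm m' + 1 ∈ S.K.nb l ∨ l = S.lf
  · have := (S.re_end hre h3 hn).1
    omega
  · push Not at hn
    refine ⟨by have := hn.2; omega, ?_⟩
    classical
    unfold Sys.sv
    exact Nat.le_findGreatest hl fun h => hn.1 (S.K.nw_subset_nb l h)

/-! ### the charges -/

lemma Gp_star_le {cs c ε c2 M : ℝ} (hcs : 0 ≤ cs) (hM : 0 < M) (hε : 8 * cs ≤ ε * M) {l m : ℕ}
    (h : S.IsStar m) (x : E) : ENNReal.ofReal (8 / M) * S.Gp cs c l m x ≤ S.Gp ε c2 l m x := by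
  unfold Gp
  rw [if_pos h, if_pos h, ← mul_assoc, ← ENNReal.ofReal_mul (by positivity)]
  refine mul_le_mul_left (ENNReal.ofReal_le_ofReal ?_) _
  rw [div_mul_eq_mul_div, div_le_iff₀ hM]
  exact hε

lemma Gp_le {cs c ε c2 : ℝ} (hc : c ≤ c2) {l m : ℕ} (h : ¬ S.IsStar m) (x : E) :
    S.Gp cs c l m x ≤ S.Gp ε c2 l m x := by
  unfold Gp
  rw [if_neg h, if_neg h]
  split_ifs
  · exact mul_le_mul_left (ENNReal.ofReal_le_ofReal hc) _
  · exact mul_le_mul_left (ENNReal.ofReal_le_ofReal hc) _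
  · exact le_rfl

/-- **the end price at one label** -/
theorem pzl_label {c0 cs c ε c2 : ℝ} (hM : 16 ≤ S.M) (hc0 : (S.M + 1) * S.cp.b0 ≤ c0)
    (hc : c0 ≤ 1 / 16) (hk : S.cp.kap ≤ 1 / 2) (hkM : 2 * S.cp.kap * (S.M + 1) ≤ 1)
    (hcs : 0 ≤ cs) (hε : 8 * cs ≤ ε * S.M) (hcc : c ≤ c2) (hMc : S.M ≤ c2) {l m : ℕ}
    (hl : l ≤ S.lf) (hm : m < S.mT) {x : E} (hx : x ∈ S.om l m)
    (chg : ∀ m', S.sB l m ≤ m' → m' < S.eB l m → m' < S.mT →
      (S.IsStar m' ∨ (S.IsRot m' ∧ l ≤ S.el.jj m') ∨ (S.IsRe m' ∧ l < S.lf ∧ l ≤ S.sv m')) →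
      ENNReal.ofReal |S.Fv l (m' + 1) x - S.Fv l m' x| ≤ S.Gp cs c l m' x)
    (out : ∀ m', m' < S.mT → S.IsRot m' → S.el.jj m' < l →
      |S.Fv l (m' + 1) x - S.Fv l m' x| ≤ 2 * (S.Dl l m' x).toReal) :
    ENNReal.ofReal (S.cp.A l x) ≤ S.De l (S.eB l m) x +
      ∑ m' ∈ Finset.Ico (S.sB l m) (S.eB l m),
        (S.Gp ε c2 l m' x + ENNReal.ofReal c2 * S.Qp l m' x) := by
  have hxZ := hx.1
  have hA := S.cp.A_pos l x
  have hT := S.tm_lt_of_lt hm
  rcases hx.2 with h | ⟨k, hk1, hk2, hk3⟩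
  · exact h.trans le_self_add
  by_cases hend : ENNReal.ofReal (S.cp.A l x) ≤ S.De l (S.eB l m) x
  · exact hend.trans le_self_add
  rw [not_le, ← ofReal_dr S _ hl, ENNReal.ofReal_lt_ofReal_iff hA] at hend
  refine le_trans ?_ le_add_self
  -- a state with a large visible mass
  have hbig : ∃ k0, S.sB l m ≤ k0 ∧ k0 ≤ S.eB l m ∧ S.M / 4 * S.cp.A l x ≤ S.Fv l k0 x := by
    have h1 := hk3.trans (Dc_le_De_De S l k x)
    rw [← ofReal_dr S _ hl, ← ofReal_dr S _ hl,
      ← ENNReal.ofReal_add (dr_nonneg S l k x) (dr_nonneg S l (k + 1) x)] at h1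
    have h2 := (ENNReal.ofReal_le_ofReal_iff
      (add_nonneg (dr_nonneg S l k x) (dr_nonneg S l (k + 1) x))).mp h1
    have h3 := dr_le S (by linarith) hc0 hc hk hkM hl k hxZ
    have h4 := dr_le S (by linarith) hc0 hc hk hkM hl (k + 1) hxZ
    rcases le_or_gt (S.M / 2 * S.cp.A l x) (dr S l k x) with h5 | h5
    · exact ⟨k, hk1, hk2.le, by nlinarith⟩
    · exact ⟨k + 1, by omega, by omega, by nlinarith⟩
  obtain ⟨k0, a1, a2, a3⟩ := hbig
  have hFe : S.Fv l (S.eB l m) x ≤ 2 * S.cp.A l x := by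
    have := Fv_le S (by linarith) hc0 hc (by linarith) hl (S.eB l m) hxZ
    linarith
  have hM0 : 0 < S.M := by linarith
  refine (seq_pay (F := fun k => S.Fv l k x) (P := fun m' => S.Gp ε c2 l m' x + ENNReal.ofReal c2 * S.Qp l m' x) hA hM a2
    a3 hFe fun m' b1 b2 => ?_).trans
    (Finset.sum_le_sum_of_subset (Finset.Ico_subset_Ico_left a1))
  have hm' : m' < S.mT := b2.trans_le (S.eB_le_mT hT l)
  have b1' : S.sB l m ≤ m' := a1.trans b1
  by_cases hst : S.IsStar m'
  · right; left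
    have h1 := chg m' b1' b2 hm' (Or.inl hst)
    rw [ENNReal.ofReal_mul (by positivity)]
    refine (mul_le_mul_right h1 _).trans ?_
    exact (Gp_star_le S hcs hM0 hε hst x).trans le_self_add
  · by_cases hin : (S.IsRot m' ∧ l ≤ S.el.jj m') ∨ S.IsRe m'
    · right; left
      have h1 : ENNReal.ofReal |S.Fv l (m' + 1) x - S.Fv l m' x| ≤ S.Gp cs c l m' x := by
        rcases hin with h | h
        · exact chg m' b1' b2 hm' (Or.inr (Or.inl h))
        · exact chg m' b1' b2 hm' (Or.inr (Or.inr ⟨h, re_of_block S hl hm b1' b2 h⟩))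
      refine le_trans (ENNReal.ofReal_le_ofReal ?_) (h1.trans ((Gp_le S hcc hst x).trans
        le_self_add))
      have h2 : 8 / S.M ≤ 1 := by rw [div_le_one hM0]; linarith
      calc 8 / S.M * |S.Fv l (m' + 1) x - S.Fv l m' x|
          ≤ 1 * |S.Fv l (m' + 1) x - S.Fv l m' x| :=
            mul_le_mul_of_nonneg_right h2 (abs_nonneg _)
        _ = _ := one_mul _
    · have hrot : S.IsRot m' := by
        rcases S.cases_move m' with h | h | h
        · exact absurd h hst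
        · exact h
        · exact absurd (Or.inr h) hin
      have hjj : S.el.jj m' < l := by
        by_contra hcon
        exact hin (Or.inl ⟨hrot, not_lt.mp hcon⟩)
      by_cases hbb : S.M / 4 * S.cp.A l x ≤ S.Fv l m' x ∧ S.M / 4 * S.cp.A l x ≤ S.Fv l (m' + 1) x
      · left; exact hbb
      · right
        have hQ : ENNReal.ofReal c2 * S.Qp l m' x = ENNReal.ofReal (c2 * (S.cp.A l x
            * ((S.Dl l m' x).toReal / (S.Dc l m' x).toReal))) := by
          unfold Qp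
          rw [if_pos ⟨hrot, hjj⟩, Xr_eq S l m' hxZ, ← ENNReal.ofReal_mul (by linarith)]
        have hD : ∃ D, D ≤ (S.M / 4 + 1) * S.cp.A l x
            ∧ (S.Dc l m' x).toReal ≤ D + (S.Dl l m' x).toReal := by
          have h3 := dr_le S (by linarith) hc0 hc hk hkM hl m' hxZ
          have h4 := dr_le S (by linarith) hc0 hc hk hkM hl (m' + 1) hxZ
          rcases not_and_or.mp hbb with h | h
          · exact ⟨dr S l m' x, by linarith, dc_le_dr S m' hl x⟩
          · exact ⟨dr S l (m' + 1) x, by linarith, dc_le_dr_succ S m' hl x⟩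
        obtain ⟨D, hD1, hD2⟩ := hD
        have hld : (S.Dl l m' x).toReal ≤ (S.Dc l m' x).toReal :=
          ENNReal.toReal_mono (Dc_fin S l m' x) (Dl_le_Dc S l m' x)
        rcases out_pay hA hM hMc ENNReal.toReal_nonneg hld hD1 hD2 with h | h
        · left
          refine le_trans ?_ le_add_self
          rw [hQ]
          refine ENNReal.ofReal_le_ofReal (le_trans ?_ h)
          exact mul_le_mul_of_nonneg_left (out m' hm' hrot hjj) (by positivity)
        · right
          refine le_trans ?_ le_add_self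
          rw [hQ]
          exact ENNReal.ofReal_le_ofReal h

end masses

end Vale.Agent.P262.H502
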