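import Vale.Agent.P262.H502.PzL
import Vale.Agent.P262.H59.StarGp
import Vale.Agent.P262.H654.ReGp

/-!
# P262, milestone 1: `PZL` of `M1/Blocks.lean` from the per move changes of the visible mass
-/

set_option linter.all false

open MeasureTheory ProbabilityTheory Set
open scoped ENNReal RealInnerProductSpace
open Vale.Agent.P262.H118 (L Iv st en ONB K1 rotE ON tau)
open Vale.Agent.P262.H395 (fib mix Inv Fixes fib_mono fib_tower fib_le_one fib_eq_self fib_add)
open Vale.Agent.P262.H493 (star)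
open Vale.Agent.P262.H654 (Lev fl vis wt kt al hid nk fr InvR Good LevOK Bd sg)
open Vale.Agent.P262.H847 (UI)
open Vale.Agent.P262.H852 (sl)

namespace Vale.Agent.P262.H502

variable {E : Type*} [NormedAddCommGroup E] [InnerProductSpace ℝ E] [FiniteDimensional ℝ E]
  [MeasurableSpace E] [BorelSpace E]

open Vale.Agent.P262.M1
open Vale.Agent.P262.M1.Sys

variable (S : Sys E)

/-! ### measurability of the charges -/

lemma measurable_a (i : ℕ) : Measurable (S.a i) := by
  classical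
  unfold a
  exact Measurable.ite (S.measurableSet_Z i) measurable_const (S.cp.A_meas i).ennreal_ofReal

lemma measurable_Xr (i m : ℕ) : Measurable (S.Xr i m) :=
  (measurable_a S i).mul ((S.measurable_Dl i m).div (S.measurable_Dc i m))

lemma measurable_iwX (i m : ℕ) : Measurable (iw (S.X i m)) :=
  Sys.measurable_iw (S.measurableSet_X i m)

lemma measurable_Gp (cs c : ℝ) (l m : ℕ) : Measurable (S.Gp cs c l m) := by
  have e : ∀ r k, Measurable (iw (S.inn l r k)) := fun r k => Sys.measurable_iw (S.measurableSet_inn l r k)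
  have hf : ∀ {g : E → ℝ≥0∞}, Measurable g → Measurable (fib (L S.f l) g) := fun h =>
    H395.measurable_fib h
  unfold Gp
  by_cases h1 : S.IsStar m
  · simp only [if_pos h1]
    refine measurable_const.mul (hf (Sys.measurable_iw ((S.measurableSet_inn l _ m).inter
      ((S.measurableSet_X _ m).symmDiff (S.measurableSet_X _ (m + 1))))))
  · simp only [if_neg h1]
    by_cases h2 : S.IsRe m
    · simp only [if_pos h2]
      refine measurable_const.mul (Finset.measurable_sum _ fun i _ => ?_)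
      exact (hf (((e _ _).mul (measurable_a S i)).mul (measurable_iwX S _ _))).add
        (hf (((e _ _).mul (measurable_a S i)).mul (measurable_iwX S _ _)))
    · simp only [if_neg h2]
      by_cases h3 : S.IsRot m ∧ l ≤ S.el.jj m
      · simp only [if_pos h3]
        refine measurable_const.mul (Finset.measurable_sum _ fun i _ => ?_)
        exact hf ((e _ _).mul ((measurable_Xr S i m).add
          ((measurable_const.mul (measurable_a S i)).mul
            ((measurable_iwX S _ _).add (measurable_iwX S _ _)))))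
      · simp only [if_neg h3]
        exact measurable_const

lemma measurable_Qp (l m : ℕ) : Measurable (S.Qp l m) := by
  unfold Qp
  by_cases h : S.IsRot m ∧ S.el.jj m < l
  · simp only [if_pos h]; exact measurable_Xr S l m
  · simp only [if_neg h]; exact measurable_const

/-! ### the leaf level -/

lemma Fv_leaf (m : ℕ) (x : E) : S.Fv S.lf m x = dr S S.lf m x := by
  have hd := S.d_eq
  unfold Fv fld dr
  rw [S.lvs_nil (by omega)]
  rfl

lemma abs_dr_sub_le (l m : ℕ) (x : E) (h1 : ∀ k, ENNReal.ofReal (dr S l k x) = S.De l k x) :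
    |dr S l (m + 1) x - dr S l m x| ≤ (S.Dl l m x).toReal := by
  have a1 : S.De l (m + 1) x ≤ S.De l m x + S.Dl l m x :=
    (fib_mono (fun y => indicator_le_indicator_of_subset
      (compl_subset_compl.mpr inter_subset_right) (fun _ => zero_le) y) x).trans
      (Dc_le_De_add S l m x)
  have a2 : S.De l m x ≤ S.De l (m + 1) x + S.Dl l m x :=
    (fib_mono (fun y => indicator_le_indicator_of_subset
      (compl_subset_compl.mpr inter_subset_left) (fun _ => zero_le) y) x).trans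
      (Dc_le_De_succ_add S l m x)
  have f := Dl_fin S l m x
  have n0 := dr_nonneg S l m x
  have n1 := dr_nonneg S l (m + 1) x
  have n2 : 0 ≤ (S.Dl l m x).toReal := ENNReal.toReal_nonneg
  rw [← h1, ← h1, ← ENNReal.ofReal_toReal f, ← ENNReal.ofReal_add n0 n2] at a1
  rw [← h1, ← h1, ← ENNReal.ofReal_toReal f, ← ENNReal.ofReal_add n1 n2] at a2
  have b1 := (ENNReal.ofReal_le_ofReal_iff (add_nonneg n0 n2)).mp a1
  have b2 := (ENNReal.ofReal_le_ofReal_iff (add_nonneg n1 n2)).mp a2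
  rw [abs_le]
  constructor <;> linarith

lemma leaf_diff (m : ℕ) (x : E) :
    |S.Fv S.lf (m + 1) x - S.Fv S.lf m x| ≤ (S.Dl S.lf m x).toReal := by
  rw [Fv_leaf, Fv_leaf]
  exact abs_dr_sub_le S S.lf m x fun k => ofReal_dr S k le_rfl x

lemma leaf_star {cs c : ℝ} (hcs : 1 ≤ cs) {m : ℕ} (h : S.IsStar m) (x : E) :
    ENNReal.ofReal |S.Fv S.lf (m + 1) x - S.Fv S.lf m x| ≤ S.Gp cs c S.lf m x := by
  refine (ENNReal.ofReal_le_ofReal (leaf_diff S m x)).trans ?_
  rw [ENNReal.ofReal_toReal (Dl_fin S _ m x)]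
  unfold Gp
  rw [if_pos h]
  have e : S.inn S.lf S.lf m = univ := by
    ext y; simp only [inn, mem_setOf_eq, mem_univ, iff_true]
    intro i h1 h2; omega
  rw [e, univ_inter]
  refine le_trans (le_of_eq (one_mul _).symm) (mul_le_mul_left ?_ _)
  rw [← ENNReal.ofReal_one]
  exact ENNReal.ofReal_le_ofReal hcs

/-! ### `PZL` -/

/-- inner moves, star moves: change of the visible mass of a label -/
def Chg (cs c : ℝ) : Prop := ∀ l m x, l < S.lf → m < S.mT → x ∉ S.cp.Z l →
  (S.IsStar m ∨ (S.IsRot m ∧ l ≤ S.el.jj m) ∨ (S.IsRe m ∧ l ≤ S.sv m)) →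
  ENNReal.ofReal |S.Fv l (m + 1) x - S.Fv l m x| ≤ S.Gp cs c l m x

/-- outer rotations: change of the visible mass of a label -/
def Och : Prop := ∀ l m x, l < S.lf → m < S.mT → x ∉ S.cp.Z l → S.IsRot m → S.el.jj m < l →
  |S.Fv l (m + 1) x - S.Fv l m x| ≤ 2 * (S.Dl l m x).toReal

/-- **(PZ)** -/
theorem pzl_of {c0 cs c ε c2 : ℝ} (hM : 16 ≤ S.M) (hc0 : (S.M + 1) * S.cp.b0 ≤ c0)
    (hc : c0 ≤ 1 / 16) (hk : S.cp.kap ≤ 1 / 2) (hkM : 2 * S.cp.kap * (S.M + 1) ≤ 1)
    (hcs : 1 ≤ cs) (hε : 8 * cs ≤ ε * S.M) (hcc : c ≤ c2) (hMc : S.M ≤ c2)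
    (chg : Chg S cs c) (out : Och S) : S.PZL ε c2 := by
  intro l m hl hm _
  have hd := S.d_eq
  have hl' : l ≤ S.lf := by omega
  have hT := S.tm_lt_of_lt hm
  unfold PZ
  have key : ∀ x, iw (S.OM l m) x * (ENNReal.ofReal (S.cp.A l x) - S.De l (S.eB l m) x)
      ≤ ∑ m' ∈ Finset.Ico (S.sB l m) (S.eB l m),
        iw (S.OM l m) x * (S.Gp ε c2 l m' x + ENNReal.ofReal c2 * S.Qp l m' x) := by
    intro x
    by_cases hx : x ∈ S.OM l m
    · have hxo := hx l le_rfl
      have e1 : iw (S.OM l m) x = 1 := by unfold iw; rw [indicator_of_mem hx]; rfl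
      simp only [e1, one_mul]
      rw [tsub_le_iff_left]
      refine pzl_label S hM hc0 hc hk hkM (by linarith) hε hcc hMc hl' hm hxo ?_ ?_
      · intro m' b1 b2 hm' hmv
        rcases Nat.eq_or_lt_of_le hl' with h | h
        · subst h
          rcases hmv with h | h | h
          · exact leaf_star S hcs h x
          · have := (S.rot_data h.1).2.1
            have h2 := h.2
            omega
          · have := h.2.1
            omega
        · refine chg l m' x h hm' hxo.1 ?_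
          rcases hmv with h | h | h
          · exact Or.inl h
          · exact Or.inr (Or.inl h)
          · exact Or.inr (Or.inr ⟨h.1, h.2.2⟩)
      · intro m' hm' hrot hjj
        rcases Nat.eq_or_lt_of_le hl' with h | h
        · subst h
          refine (leaf_diff S m' x).trans ?_
          have : 0 ≤ (S.Dl S.lf m' x).toReal := ENNReal.toReal_nonneg
          linarith
        · exact out l m' x h hm' hxo.1 hrot hjj
    · have e1 : iw (S.OM l m) x = 0 := by unfold iw; rw [indicator_of_notMem hx]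
      rw [e1, zero_mul]; exact zero_le
  refine (lintegral_mono key).trans (le_of_eq ?_)
  rw [lintegral_finset_sum]
  intro m' _
  exact (Sys.measurable_iw (S.measurableSet_OM l m)).mul ((measurable_Gp S ε c2 l m').add
    (measurable_const.mul (measurable_Qp S l m')))

/-! ### the star and the reopening -/

lemma abs_fr_sub {W : Submodule ℝ E} {f g : E → ℝ} (hf : Bd f) (hg : Bd g) (x : E) :
    |fr W f x - fr W g x| ≤ fr W (fun y => |f y - g y|) x := by
  rw [← H654.fr_sub hf hg]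
  exact H654.abs_fr_le _ x

lemma fldL_UI {c0 : ℝ} (hM : 0 ≤ S.M) (hc0 : (S.M + 1) * S.cp.b0 ≤ c0) (hc : c0 ≤ 1 / 16)
    (l m : ℕ) : UI (S.fldL l m) :=
  H654.UI.comp_isom (H654.fl_UI (S.good_lvs hM hc0 (l + 1) S.d) hc
    (ind_UI (S.measurableSet_X S.lf m).compl)) (S.Cg l m).symm

/-- mean over the slice -/
lemma integral_sl {W : Submodule ℝ E} {f : E → ℝ} (hf : UI f) (x : E) :
    ∫ z, f (sl W x z) ∂stdGaussian Wᗮ = fr W f x := by
  have mf1 : UI fun z : Wᗮ => f (sl W x z) :=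
    ⟨hf.meas.comp (H852.measurable_sl_right W x), fun z => hf.nonneg _, fun z => hf.le_one _⟩
  rw [H852.integral_slice_eq W hf.meas hf.nonneg x (Bd.of_UI mf1).integrable,
    ← H654.ofReal_fr (Bd.of_UI hf) hf.nonneg, ENNReal.toReal_ofReal (H654.fr_nonneg hf.nonneg x)]

/-- slices of two fields and a field in between -/
lemma mid_le {W : Submodule ℝ E} {f g : E → ℝ} (hf : UI f) (hg : UI g) {mf : Wᗮ → ℝ}
    (hmf : UI mf) {a₁ a₂ : ℝ} {x : E}
    (h1 : ∫ z, |mf z - f (sl W x z)| ∂stdGaussian Wᗮ ≤ a₁)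
    (h2 : ∫ z, |g (sl W x z) - mf z| ∂stdGaussian Wᗮ ≤ a₂) :
    |fr W g x - fr W f x| ≤ a₁ + a₂ := by
  rw [← integral_sl hf x, ← integral_sl hg x]
  have mf1 : UI fun z : Wᗮ => f (sl W x z) :=
    ⟨hf.meas.comp (H852.measurable_sl_right W x), fun z => hf.nonneg _, fun z => hf.le_one _⟩
  have mg1 : UI fun z : Wᗮ => g (sl W x z) :=
    ⟨hg.meas.comp (H852.measurable_sl_right W x), fun z => hg.nonneg _, fun z => hg.le_one _⟩
  have i1 := (Bd.of_UI mf1).integrable
  have i2 := (Bd.of_UI mg1).integrable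
  have i3 := (Bd.of_UI hmf).integrable
  have e : (∫ z, g (sl W x z) ∂stdGaussian Wᗮ) - ∫ z, f (sl W x z) ∂stdGaussian Wᗮ
      = (∫ z, (g (sl W x z) - mf z) ∂stdGaussian Wᗮ)
        + ∫ z, (mf z - f (sl W x z)) ∂stdGaussian Wᗮ := by
    rw [integral_sub i2 i3, integral_sub i3 i1]; ring
  rw [e]
  refine (abs_add_le _ _).trans ?_
  have b1 := abs_integral_le_integral_abs (f := fun z : Wᗮ => mf z - f (sl W x z))
    (μ := stdGaussian Wᗮ)
  have b2 := abs_integral_le_integral_abs (f := fun z : Wᗮ => g (sl W x z) - mf z)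
    (μ := stdGaussian Wᗮ)
  linarith

theorem chg_star {c0 cs : ℝ} (hM : 2 ≤ S.M) (h0 : 0 ≤ c0) (hc0 : (S.M + 1) * S.cp.b0 ≤ c0)
    (hc : c0 ≤ 1 / 16) (hk : S.cp.kap ≤ 1) (hδ : 0 < S.δ) (hδ' : S.δ ≤ 1 / 10)
    (hsg : sg c0 ^ S.d ≤ 2) (hcs : 8 ≤ cs) (c : ℝ) {l m : ℕ} (hl : l < S.lf) (hm : m < S.mT)
    (hst : S.IsStar m) (x : E) :
    ENNReal.ofReal |S.Fv l (m + 1) x - S.Fv l m x| ≤ S.Gp cs c l m x := by
  obtain ⟨mf, F, a₁, a₂, hmf, hF, ha1, ha2, hfl, hi1, hi2, hsum⟩ :=
    S.star_gp hM h0 hc0 hc hk hδ hδ' hsg hcs c hl hm hst x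
  refine (ENNReal.ofReal_le_ofReal ?_).trans hsum
  rw [← S.fr_fldL hl.le, ← S.fr_fldL hl.le]
  have := mid_le (fldL_UI S (by linarith) hc0 hc l m) (fldL_UI S (by linarith) hc0 hc l (m + 1))
    hmf hi1 hi2
  linarith

theorem chg_re {c0 c cs : ℝ} (hM : 1 ≤ S.M) (hc0 : (S.M + 1) * S.cp.b0 ≤ c0)
    (hc : c0 ≤ 1 / 16) (hdc : 16 * (S.d : ℝ) * c0 ≤ 1) (hk : S.cp.kap ≤ 1 / 6)
    (hcc : 4 * (S.M + 1) ≤ c) {l m : ℕ} (hre : S.IsRe m) (hm : m < S.mT) (hl : l ≤ S.sv m)
    (hlf : l ≤ S.lf) (x : E) :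
    ENNReal.ofReal |S.Fv l (m + 1) x - S.Fv l m x| ≤ S.Gp cs c l m x := by
  refine le_trans (ENNReal.ofReal_le_ofReal ?_) (S.re_gp hM hc0 hc hdc hk hcc hre hm hl x)
  rw [← S.fr_fldL hlf, ← S.fr_fldL hlf]
  exact abs_fr_sub (Bd.of_UI (fldL_UI S (by linarith) hc0 hc l (m + 1)))
    (Bd.of_UI (fldL_UI S (by linarith) hc0 hc l m)) x

end Vale.Agent.P262.H502
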