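import Vale.Agent.P262.H502.PzL2
import Vale.Agent.P262.H606.Out
import Vale.Agent.P262.H712.RotGp

/-!
# P262, milestone 1: `PZL`, final form
-/

set_option linter.all false

open MeasureTheory ProbabilityTheory Set
open scoped ENNReal RealInnerProductSpace
open Vale.Agent.P262.H118 (L Iv st en ONB K1 rotE ON tau)
open Vale.Agent.P262.H395 (fib mix Inv Fixes fib_mono fib_tower fib_le_one fib_eq_self fib_add)
open Vale.Agent.P262.H493 (star)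
open Vale.Agent.P262.H654 (Lev fl vis wt kt al hid nk fr InvR Good LevOK Bd sg)
open Vale.Agent.P262.H847 (UI)
open Vale.Agent.P262.H852 (sl)

namespace Vale.Agent.P262.H502

variable {E : Type*} [NormedAddCommGroup E] [InnerProductSpace ℝ E] [FiniteDimensional ℝ E]
  [MeasurableSpace E] [BorelSpace E]

open Vale.Agent.P262.M1
open Vale.Agent.P262.M1.Sys

variable (S : Sys E)

theorem chg_rot {c0 c cs : ℝ} (hM : 1 ≤ S.M) (hc0 : (S.M + 1) * S.cp.b0 ≤ c0)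
    (hc : c0 ≤ 1 / 16) (hsg : sg c0 ^ S.d ≤ 2) (hk : S.cp.kap ≤ 1 / 2) (hR : 0 ≤ S.R)
    (hcc : 144 * (S.M + 1) ≤ c) {l m : ℕ} (hm : m < S.mT) (hr : S.IsRot m) (hl : l ≤ S.el.jj m)
    (hlf : l ≤ S.lf) (x : E) :
    ENNReal.ofReal |S.Fv l (m + 1) x - S.Fv l m x| ≤ S.Gp cs c l m x := by
  have hc3 : (0:ℝ) ≤ c := by linarith
  obtain ⟨a, b, ha, hb, hso, hle⟩ := S.rot_soft hM hc0 hc hsg hk hR (c := c) (Cd := 0) cs le_rfl
    hcc (by rw [zero_mul, zero_mul]; exact hc3) hm hr hl x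
  have u1 := fldL_UI S (by linarith) hc0 hc l m
  have u2 := fldL_UI S (by linarith) hc0 hc l (m + 1)
  have v1 : UI fun z : (L S.f l)ᗮ => S.fldL l m (sl (L S.f l) x z) :=
    ⟨u1.meas.comp (H852.measurable_sl_right _ x), fun z => u1.nonneg _, fun z => u1.le_one _⟩
  have v2 : UI fun z : (L S.f l)ᗮ => S.fldL l (m + 1) (sl (L S.f l) x z) :=
    ⟨u2.meas.comp (H852.measurable_sl_right _ x), fun z => u2.nonneg _, fun z => u2.le_one _⟩
  have h := hso.mass v1 v2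
  rw [integral_sl u1 x, integral_sl u2 x, S.fr_fldL hlf, S.fr_fldL hlf] at h
  refine (ENNReal.ofReal_le_ofReal ?_).trans hle
  linarith

theorem och {c0 : ℝ} (hM : 1 ≤ S.M) (hc0 : (S.M + 1) * S.cp.b0 ≤ c0)
    (hc : c0 ≤ 1 / 16) (hsg : sg c0 ^ S.d ≤ 2) : Och S := by
  intro l m x hl hm hx hrot hjj
  have h0 : 0 ≤ c0 := le_trans (mul_nonneg (by linarith) S.cp.b0_pos.le) hc0
  have hout : S.Out l m := Or.inr ⟨hrot, hjj⟩
  refine (S.Fv_out (by linarith) hc0 h0 hc hout hl.le x).trans ?_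
  refine mul_le_mul_of_nonneg_right ?_ ENNReal.toReal_nonneg
  exact (pow_le_pow_right₀ (H654.one_le_sg h0 hc) (by omega)).trans hsg

theorem chg {c0 c cs : ℝ} (hM : 2 ≤ S.M) (hc0 : (S.M + 1) * S.cp.b0 ≤ c0)
    (hc : c0 ≤ 1 / 16) (hdc : 16 * (S.d : ℝ) * c0 ≤ 1) (hk : S.cp.kap ≤ 1 / 6)
    (hδ : 0 < S.δ) (hδ' : S.δ ≤ 1 / 10) (hR : 0 ≤ S.R)
    (hcs : 8 ≤ cs) (hcc : 144 * (S.M + 1) ≤ c) : Chg S cs c := by
  have h0 : 0 ≤ c0 := le_trans (mul_nonneg (by linarith) S.cp.b0_pos.le) hc0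
  have hsg : sg c0 ^ S.d ≤ 2 := H654.sg_pow_le h0 hdc le_rfl hc
  intro l m x hl hm hx hmv
  rcases hmv with h | h | h
  · exact chg_star S hM h0 hc0 hc (by linarith) hδ hδ' hsg hcs c hl hm h x
  · exact chg_rot S (by linarith) hc0 hc hsg (by linarith) hR hcc hm h.1 h.2 hl.le x
  · exact chg_re S (by linarith) hc0 hc hdc hk (by linarith) h.1 hm h.2 hl.le x

/-- **(PZ)**, milestone 1 -/
theorem pzl {c0 c cs ε : ℝ} (hM : 16 ≤ S.M) (hc0 : (S.M + 1) * S.cp.b0 ≤ c0)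
    (hc : c0 ≤ 1 / 16) (hdc : 16 * (S.d : ℝ) * c0 ≤ 1) (hk : 2 * S.cp.kap * (S.M + 1) ≤ 1)
    (hδ : 0 < S.δ) (hδ' : S.δ ≤ 1 / 10) (hR : 0 ≤ S.R)
    (hcs : 8 ≤ cs) (hε : 8 * cs ≤ ε * S.M) (hcc : 144 * (S.M + 1) ≤ c) : S.PZL ε c := by
  have hkap : S.cp.kap ≤ 1 / 6 := by
    have := S.cp.kap_pos
    nlinarith
  have h0 : 0 ≤ c0 := le_trans (mul_nonneg (by linarith) S.cp.b0_pos.le) hc0
  have hsg : sg c0 ^ S.d ≤ 2 := H654.sg_pow_le h0 hdc le_rfl hc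
  exact pzl_of S hM hc0 hc (by linarith) hk (by linarith) hε le_rfl (by linarith)
    (chg S (by linarith) hc0 hc hdc hkap hδ hδ' hR hcs hcc)
    (och S (by linarith) hc0 hc hsg)

end Vale.Agent.P262.H502
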