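import Vale.Agent.P262.H118.El2b

/-!
# P262, milestone 2: elementary moves with small angles (subdivision of the rotations)
-/

set_option linter.all false

open Set
open scoped RealInnerProductSpace
open Module (finrank)

namespace Vale.Agent.P262.H502

open Vale.Agent.P262.H118

variable {E : Type*} [NormedAddCommGroup E] [InnerProductSpace ℝ E]

section sub

variable {W : List ℕ → Submodule ℝ E} {X X' : List ℕ → (E ≃ₗᵢ[ℝ] E)} {q : List ℕ} {φ : ℝ}

/-- `n` small rotations -/
lemma rseq_of_rot {θ b : E} (h : ON θ b) (h1 : θ ∈ W q) (h2 : θ ∈ (W q.tail)ᗮ)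
    (h3 : b ∈ (W q)ᗮ) {a : ℝ} (ha : 0 ≤ a) (ha1 : a ≤ Real.pi / 2) (n : ℕ) :
    ∀ X : List ℕ → (E ≃ₗᵢ[ℝ] E),
    RSeq2 W X (List.replicate n (q, a)) (Function.update X q ((rotE h (n * a)).trans (X q))) := by
  induction n with
  | zero =>
    intro X
    have e : (rotE h ((0 : ℕ) * a)).trans (X q) = X q := by
      ext x
      rw [LinearIsometryEquiv.trans_apply, rotE_apply, Nat.cast_zero, zero_mul, ON.rot_zero]
    rw [e, Function.update_eq_self]
    exact RSeq2.nil X
  | succ n ih =>
    intro X
    rw [List.replicate_succ]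
    refine RSeq2.cons (X' := Function.update X q ((rotE h a).trans (X q)))
      ⟨θ, b, h, h1, h2, h3, ha, ha1, rfl⟩ ?_
    have h4 := ih (Function.update X q ((rotE h a).trans (X q)))
    rw [Function.update_self, Function.update_idem] at h4
    have e : (rotE h (n * a)).trans ((rotE h a).trans (X q))
        = (rotE h ((n + 1 : ℕ) * a)).trans (X q) := by
      ext x
      simp only [LinearIsometryEquiv.trans_apply, rotE_apply]
      rw [h.rot_rot, show a + (n : ℝ) * a = ((n + 1 : ℕ) : ℝ) * a from by push_cast; ring]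
    rw [e] at h4
    exact h4

/-- subdivision of one rotation -/
lemma sub_one (h : Rot2 W X q φ X') {et : ℝ} (het : 0 < et) :
    ∃ l : List (List ℕ × ℝ), RSeq2 W X l X' ∧ (∀ p ∈ l, p.1 = q) ∧ (∀ p ∈ l, p.2 ≤ et) ∧
      (l.map Prod.snd).sum = φ := by
  obtain ⟨θ, b, hON, h1, h2, h3, h4, h5, rfl⟩ := h
  obtain ⟨n, hn⟩ := exists_nat_gt (φ / et)
  have hn0 : 0 < n := by
    have : (0 : ℝ) ≤ φ / et := by positivity
    have h6 : (0 : ℝ) < n := this.trans_lt hn
    exact_mod_cast h6
  have hnr : (0 : ℝ) < n := by exact_mod_cast hn0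
  have ha0 : 0 ≤ φ / n := by positivity
  have ha1 : φ / n ≤ φ := div_le_self h4 (by exact_mod_cast hn0)
  have ha2 : φ / n ≤ et := by
    rw [div_lt_iff₀ het] at hn
    rw [div_le_iff₀ hnr]
    linarith
  have e : (n : ℝ) * (φ / n) = φ := by field_simp
  refine ⟨List.replicate n (q, φ / n), ?_, ?_, ?_, ?_⟩
  · have := rseq_of_rot hON h1 h2 h3 ha0 (ha1.trans h5) n X
    rw [e] at this
    exact this
  · intro p hp
    rw [List.eq_of_mem_replicate hp]
  · intro p hp
    rw [List.eq_of_mem_replicate hp]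
    exact ha2
  · rw [List.map_replicate, List.sum_replicate, nsmul_eq_mul]
    exact e

/-- subdivision of a sequence of rotations -/
lemma sub_seq {l : List (List ℕ × ℝ)} (h : RSeq2 W X l X') {et : ℝ} (het : 0 < et) :
    ∃ l' : List (List ℕ × ℝ), RSeq2 W X l' X' ∧ (∀ p ∈ l', p.2 ≤ et) ∧
      (∀ p ∈ l', ∃ p' ∈ l, p'.1 = p.1) ∧ ∀ r, ang2 l' r = ang2 l r := by
  induction h with
  | nil X => exact ⟨[], RSeq2.nil X, by simp, by simp, fun _ => rfl⟩
  | @cons X X' X'' q φ l h _ ih =>
    obtain ⟨l', h1, h2, h3, h4⟩ := ih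
    obtain ⟨g, g1, g2, g3, g4⟩ := sub_one h het
    refine ⟨g ++ l', g1.append h1, ?_, ?_, ?_⟩
    · intro p hp
      rcases List.mem_append.1 hp with hp | hp
      · exact g3 p hp
      · exact h2 p hp
    · intro p hp
      rcases List.mem_append.1 hp with hp | hp
      · exact ⟨(q, φ), List.mem_cons_self, (g2 p hp).symm⟩
      · obtain ⟨p', h5, h6⟩ := h3 p hp
        exact ⟨p', List.mem_cons_of_mem _ h5, h6⟩
    · intro r
      rw [ang2_append, h4 r]
      have e : ang2 ((q, φ) :: l) r = (if q = r then φ else 0) + ang2 l r := by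
        unfold ang2
        rw [List.map_cons, List.sum_cons]
      rw [e]
      congr 1
      by_cases hr : q = r
      · rw [if_pos hr, ← hr, ang2_same g2, g4]
      · rw [if_neg hr]
        exact ang2_other fun p hp h0 => hr ((g2 p hp).symm.trans h0)

end sub

variable [FiniteDimensional ℝ E] {v : ℕ → E} {T : ℕ} {N : ℕ → ℝ} {δ ρ : ℝ}

/-- **Elementary moves with small angles.** -/
theorem exists_El2_small (K : K2 v T N δ ρ) (G : Finset (List ℕ)) {et : ℝ} (het : 0 < et) :
    ∃ M : El2 K G, ∀ m, M.ph m ≤ et := by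
  classical
  set g : List (List ℕ) := (G.erase []).toList with hg
  have hgnd : g.Nodup := Finset.nodup_toList _
  have hgmem : ∀ q, q ∈ g ↔ q ∈ G ∧ q ≠ [] := by
    intro q
    rw [hg, Finset.mem_toList, Finset.mem_erase]
    exact and_comm
  -- data of the transitions
  have htr : ∀ t, ∃ (l : List (List ℕ × ℝ)) (X : ℕ → (List ℕ → (E ≃ₗᵢ[ℝ] E))),
      (X 0 = if t < T then (fun q => K.P q t) else fun _ => LinearIsometryEquiv.refl ℝ E) ∧
      (∀ k, k < l.length → Rot2 (fun q => K.W q t) (X k) (l.getD k ([], 0)).1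
        (l.getD k ([], 0)).2 (X (k + 1)) ∧ t + 1 < T ∧ (l.getD k ([], 0)).1 ∈ G ∧
        (l.getD k ([], 0)).1 ≠ [] ∧ t + 1 ∉ K.nw (l.getD k ([], 0)).1) ∧
      (∀ k, l.length ≤ k → X k = X l.length) ∧
      (t + 1 < T → ∀ q ∈ G, q ≠ [] → t + 1 ∉ K.nw q → X l.length q = K.P q (t + 1)) ∧
      (∀ c p, c :: p ∈ G → ang2 l (c :: p) ≤ K.al (c :: p) t) ∧ (∀ p ∈ l, 0 ≤ p.2) ∧
      ∀ p ∈ l, p.2 ≤ et := by
    intro t
    by_cases ht : t + 1 < T
    · obtain ⟨l0, X', h1', h2, h3, h4', h5'⟩ :=
        K.transition ht g hgnd fun q hq => ((hgmem q).1 hq).2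
      obtain ⟨l, h1, hle, hm, ha⟩ := sub_seq h1' het
      have h4 : ∀ p ∈ l, p.1 ∈ g ∧ t + 1 ∉ K.nw p.1 := by
        intro p hp
        obtain ⟨p', h6, h7⟩ := hm p hp
        rw [← h7]
        exact h4' p' h6
      have h5 : ∀ c p, c :: p ∈ g → ang2 l (c :: p) ≤ K.al (c :: p) t := by
        intro c p hcp
        rw [ha]
        exact h5' c p hcp
      obtain ⟨X, g1, g2, g3⟩ := h1.states
      refine ⟨l, fun k => X (min k l.length), ?_, ?_, ?_, ?_,
        fun c p hcp => h5 c p ((hgmem _).2 ⟨hcp, List.cons_ne_nil _ _⟩), h1.nonneg, hle⟩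
      · rw [if_pos (by omega)]
        change X (min 0 l.length) = _
        rw [Nat.zero_min, g1]
      · intro k hk
        have e1 : min k l.length = k := by omega
        have e2 : min (k + 1) l.length = k + 1 := by omega
        simp only [e1, e2]
        have hmem : l.getD k ([], 0) ∈ l := by
          rw [List.getD_eq_getElem _ _ hk]; exact List.getElem_mem hk
        obtain ⟨h6, h7⟩ := h4 _ hmem
        obtain ⟨h8, h9⟩ := (hgmem _).1 h6
        exact ⟨g3 k hk, ht, h8, h9, h7⟩
      · intro k hk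
        have e1 : min k l.length = l.length := by omega
        simp only [e1, min_self]
      · intro _ q hq hq0 hn
        simp only [min_self]
        rw [g2]; exact h2 q ((hgmem q).2 ⟨hq, hq0⟩) hn
    · refine ⟨[], fun _ => if t < T then (fun q => K.P q t) else
        fun _ => LinearIsometryEquiv.refl ℝ E, rfl, fun k hk => absurd hk (by simp),
        fun k _ => rfl, fun h => absurd h ht,
        fun c p _ => by simpa [ang2] using K.al_nonneg c p t, by simp, by simp⟩
  choose l X hX0 hrot hconst hend hang hnn hsm using htr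
  let n : ℕ → ℕ := fun t => Nat.rec 0 (fun t m => m + 2 + (l t).length) t
  have hn0 : n 0 = 0 := rfl
  have hns : ∀ t, n (t + 1) = n t + 2 + (l t).length := fun _ => rfl
  have hlt : ∀ t, n t < n (t + 1) := fun t => by rw [hns]; omega
  have hτ : ∀ {t m}, n t ≤ m → m < n (t + 1) → tau n m = t := fun h1 h2 => tau_eq hn0 hlt h1 h2
  let Q : ℕ → List ℕ → (E ≃ₗᵢ[ℝ] E) := fun m => X (tau n m) (m - n (tau n m) - 1)
  let D : ℕ → List ℕ × ℝ := fun m => (l (tau n m)).getD (m - n (tau n m) - 1) ([], 0)
  have hQ : ∀ {t m}, n t ≤ m → m < n (t + 1) → Q m = X t (m - n t - 1) := by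
    intro t m h1 h2
    simp only [Q]
    rw [hτ h1 h2]
  have hD : ∀ {t m}, n t ≤ m → m < n (t + 1) → D m = (l t).getD (m - n t - 1) ([], 0) := by
    intro t m h1 h2
    simp only [D]
    rw [hτ h1 h2]
  have hXfix : ∀ t k, Fix2 (fun q => K.W q t) (X t k) := by
    intro t k
    have h0 : Fix2 (fun q => K.W q t) (X t 0) := by
      rw [hX0]
      split_ifs
      · exact K.fix2 t
      · exact fun c p x hx => rfl
    have h1 : ∀ k, k ≤ (l t).length → Fix2 (fun q => K.W q t) (X t k) := by
      intro k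
      induction k with
      | zero => exact fun _ => h0
      | succ k ih =>
        intro hk
        exact (hrot t k (by omega)).1.fix (K.mono2 t) (ih (by omega))
    rcases le_total k (l t).length with h | h
    · exact h1 k h
    · rw [hconst t k h]; exact h1 _ le_rfl
  refine ⟨{
    n := n
    Q := Q
    jj := fun m => (D m).1
    ph := fun m => (D m).2
    n_zero := hn0
    n_succ := fun t => by rw [hns]; omega
    fix := fun m => hXfix _ _
    start := fun t ht => by
      rw [hQ le_rfl (hlt t)]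
      have : n t - n t - 1 = 0 := by omega
      rw [this, hX0, if_pos ht]
    star := fun t => by
      rw [hQ le_rfl (hlt t), hQ (t := t) (by omega) (by rw [hns]; omega)]
      have e1 : n t - n t - 1 = 0 := by omega
      have e2 : n t + 1 - n t - 1 = 0 := by omega
      rw [e1, e2]
    rot := fun t m h1 h2 => by
      have h3 : m < n (t + 1) := by omega
      rw [hQ h1.le h3, hQ (t := t) (m := m + 1) (by omega) h2, hD h1.le h3]
      rw [hns] at h2
      have e : m + 1 - n t - 1 = m - n t - 1 + 1 := by omega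
      rw [e]
      exact hrot t (m - n t - 1) (by omega)
    reopen := fun t ht q hq hq0 hn => by
      rw [hQ (t := t + 1) (m := n (t + 1)) le_rfl (hlt (t + 1)),
        hQ (t := t) (m := n (t + 1) - 1) (by rw [hns]; omega) (by have := hlt t; omega)]
      have e1 : n (t + 1) - n (t + 1) - 1 = 0 := by omega
      have e2 : n (t + 1) - 1 - n t - 1 = (l t).length := by rw [hns]; omega
      rw [e1, e2, hX0, if_pos ht, hend t ht q hq hq0 hn]
    angle := fun t c p hcp => by
      refine le_trans (le_of_eq ?_) (hang t c p hcp)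
      rw [ang2_eq_sum]
      have e1 : n (t + 1) - 1 = n t + 1 + (l t).length := by rw [hns]; omega
      rw [e1, Finset.sum_Ico_eq_sum_range]
      have e2 : n t + 1 + (l t).length - (n t + 1) = (l t).length := by omega
      rw [e2]
      refine Finset.sum_congr rfl fun k hk => ?_
      rw [Finset.mem_range] at hk
      rw [hD (t := t) (m := n t + 1 + k) (by omega) (by rw [hns]; omega)]
      have e3 : n t + 1 + k - n t - 1 = k := by omega
      rw [e3]
    ph_nonneg := fun m => by
      simp only [D]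
      rcases Nat.lt_or_ge (m - n (tau n m) - 1) (l (tau n m)).length with h | h
      · rw [List.getD_eq_getElem _ _ h]
        exact hnn _ _ (List.getElem_mem h)
      · rw [List.getD_eq_default _ _ h] }, ?_⟩
  intro m
  show (D m).2 ≤ et
  simp only [D]
  rcases Nat.lt_or_ge (m - n (tau n m) - 1) (l (tau n m)).length with h | h
  · rw [List.getD_eq_getElem _ _ h]
    exact hsm _ _ (List.getElem_mem h)
  · rw [List.getD_eq_default _ _ h]
    exact het.le

end Vale.Agent.P262.H502
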