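import Vale.Agent.P262.H502.Geo2
import Vale.Agent.P262.M2.SumInt
import Vale.Agent.P262.H108.Gap2
import Vale.Agent.P262.H837.ThrI
import Vale.Agent.P262.H81.ListCount

/-!
# P262, milestone 2, throughput: sum over the lists of classes

`thrp_lists_v`: (THRp) with `lam = 4 * (cm + 1) * kap ^ th`.
-/

set_option linter.all false

open MeasureTheory ProbabilityTheory Set
open scoped ENNReal RealInnerProductSpace
open Vale.Agent.P262.H118 (Iv st en ON rotE rotL tau wd wrd Mg Piece K2 El2 paths)
open Vale.Agent.P262.H395 (fib mix Inv)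
open Vale.Agent.P262.H81 (lsts mem_lsts card_lsts)

namespace Vale.Agent.P262.M2.Sys

variable {E : Type*} [NormedAddCommGroup E] [InnerProductSpace ℝ E] [FiniteDimensional ℝ E]
  [MeasurableSpace E] [BorelSpace E] {S : Sys E}

/-- the nodes of the list `u` above the last one are not leaves -/
def GoodLs (S : Sys E) (m c : ℕ) (p u : List ℕ) : Prop :=
  ∀ v w, u = v ++ w → v ≠ [] → ¬ S.Leaf (w ++ c :: p) m

lemma xd_meas_l (r : List ℕ) {m : ℕ} : Measurable (S.xd r m) := by
  unfold xd
  exact (((S.A_meas r m).div ((S.A_meas r m).max (S.Dc_meas r m))).pow_const _).mul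
    (S.Dl_meas r m)

/-- dimension gap along a good list -/
lemma gap_l {m : ℕ} (hm : S.mv.tm m < S.T) {c : ℕ} {p : List ℕ} (u : List ℕ)
    (hu : S.GoodLs m c p u) :
    S.K.kd (c :: p) (S.mv.tm m) + u.length ≤
      Module.finrank ℝ (S.W (u ++ c :: p) m) - Module.finrank ℝ (S.W p m) := by
  induction u with
  | nil => exact le_rfl
  | cons a u ih =>
    have h1 : S.GoodLs m c p u := fun v w hvw hv => hu (a :: v) w (by rw [hvw]; rfl)
      (List.cons_ne_nil _ _)
    have h2 := ih h1
    have h3 : ¬ S.Leaf (u ++ c :: p) m := hu [a] u rfl (List.cons_ne_nil _ _)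
    have h4 := finrank_succ_g (S := S) (c := a) hm h3
    have h5 : Module.finrank ℝ (S.W p m) ≤ Module.finrank ℝ (S.W (u ++ c :: p) m) :=
      Submodule.finrank_mono (S.W_mono
        ((List.suffix_cons c p).trans (List.suffix_append u (c :: p))) m)
    rw [List.cons_append, List.length_cons]
    omega

/-- the label of level `i` as a list below the rotating node -/
lemma exists_list {m : ℕ} {x : E} {c : ℕ} {p : List ℕ} {n : ℕ}
    (hx : S.nd m x (p.length + 1) = c :: p)
    (hl : ∀ k, p.length + 1 ≤ k → k < p.length + 1 + n → ¬ S.Leaf (S.nd m x k) m) :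
    ∃ u ∈ lsts S.cm n, S.GoodLs m c p u ∧ S.nd m x (p.length + 1 + n) = u ++ c :: p := by
  have h1 : (c :: p) <:+ S.nd m x (p.length + 1 + n) := by
    rw [← hx]; exact nd_suffix_nd m x (by omega)
  obtain ⟨u, hu⟩ := h1
  have hlen : u.length = n := by
    have h2 := length_nd (S := S) m x (p.length + 1 + n)
    rw [← hu, List.length_append, List.length_cons] at h2
    omega
  refine ⟨u, ?_, ?_, hu.symm⟩
  · rw [mem_lsts]
    refine ⟨hlen, fun a ha => le_cm_of_mem_nd m x (p.length + 1 + n) a ?_⟩
    rw [← hu]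
    exact List.mem_append_left _ ha
  · intro v w hvw hv
    have hw : (w ++ c :: p) <:+ S.nd m x (p.length + 1 + n) := by
      rw [← hu, hvw, List.append_assoc]
      exact List.suffix_append _ _
    have hlw : w.length < n := by
      rw [← hlen, hvw, List.length_append]
      have := List.length_pos_iff.2 hv
      omega
    have h3 : S.nd m x (p.length + 1 + w.length) <:+ S.nd m x (p.length + 1 + n) :=
      nd_suffix_nd m x (by omega)
    have h4 : w ++ c :: p = S.nd m x (p.length + 1 + w.length) := by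
      refine List.IsSuffix.eq_of_length (suffix_or_g hw h3 ?_) ?_
      · rw [length_nd, List.length_append, List.length_cons]; omega
      · rw [length_nd, List.length_append, List.length_cons]; omega
    rw [h4]
    exact hl _ (by omega) (by omega)

/-- the region of the labels through the rotating node, all ancestors counted, is a region of
labels of the parent -/
lemma region_inv_l {m : ℕ} (hm : S.mv.tm m < S.T) {c : ℕ} {p : List ℕ} (hq : S.mv.jj m = c :: p) :
    Inv (S.W p m) (iw (S.thru (p.length + 1) m ∩ S.OL (p.length + 1) m)) := by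
  have key : ∀ x : E, ∀ w ∈ (S.W p m)ᗮ,
      x ∈ S.thru (p.length + 1) m ∩ S.OL (p.length + 1) m →
        x + w ∈ S.thru (p.length + 1) m ∩ S.OL (p.length + 1) m := by
    rintro x w hw ⟨h1, h2⟩
    have h1' : S.nd m x (p.length + 1) = c :: p := by rw [← hq]; exact h1
    have h3 : S.nd m x p.length = p := by
      rw [nd_succ] at h1'
      exact (List.cons.inj h1').2
    have h4 : ∀ i ≤ p.length + 1, S.nd m (x + w) i = S.nd m x i :=
      nd_inv hm x p.length (by rw [h3]; exact hw)
    refine ⟨?_, fun i hi => ?_⟩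
    · show S.nd m (x + w) (p.length + 1) = S.mv.jj m
      rw [h4 _ le_rfl]; exact h1
    · rw [h4 i hi.le]
      have h5 : S.nd m x i <:+ p := by
        conv_rhs => rw [← h3]
        exact nd_suffix_nd m x (by omega)
      exact (om_inv (S.nd m x i) hm x w
        (Submodule.orthogonal_le (S.W_mono h5 m) hw)).2 (h2 i hi)
  intro x w hw
  unfold iw
  by_cases h : x ∈ S.thru (p.length + 1) m ∩ S.OL (p.length + 1) m
  · rw [indicator_of_mem h, indicator_of_mem (key x w hw h)]; rfl
  · have h' : x + w ∉ S.thru (p.length + 1) m ∩ S.OL (p.length + 1) m := by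
      intro h0
      apply h
      have := key (x + w) (-w) ((S.W p m)ᗮ.neg_mem hw) h0
      rwa [add_neg_cancel_right] at this
    rw [indicator_of_notMem h, indicator_of_notMem h']

lemma measurableSet_thru_l (j m : ℕ) : MeasurableSet (S.thru j m) := by
  have h := measurableSet_nd (S := S) m j (s := fun r => {x : E | r = S.mv.jj m})
    (fun r => MeasurableSet.const _)
  exact h

/-- constants -/
noncomputable def C1l (th : ℝ) : ℝ := 20 / (1 - th) * (2 * Real.exp (8 / th ^ 2)) ^ th
noncomputable def C2l (th : ℝ) : ℝ :=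
  (7 + 2 / (1 - th)) * Real.sqrt (max 1 (1 / (2 * (1 - th))))

/-- **(THRp) with the sum over the lists of classes** -/
theorem thrp_lists_v (hε : 2 * (Real.sqrt 2 * Real.exp (-(S.qq / 4))) ≤ 1 / 4) :
    S.THRp (8 * C1l S.th * C2l S.th) (4 * (S.cm + 1) * S.kap ^ S.th) := by
  intro m hm hr c p hq hc0 i hi hi'
  obtain ⟨n, rfl⟩ := Nat.exists_eq_add_of_le hi
  have hmT : S.mv.tm m < S.T := tm_lt_mT hm
  have hth := S.hth
  have hth1 := S.hth1
  have hs : 0 < 1 - S.th := by linarith
  have hφ0 : 0 ≤ S.mv.ph m := S.mv.ph_nonneg m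
  have hk := S.hkap
  have hk1 := S.hkap1
  have hC1 : 0 ≤ C1l S.th := by unfold C1l; positivity
  have hC2 : 0 ≤ C2l S.th := by unfold C2l; positivity
  set Rg : E → ℝ≥0∞ := iw (S.thru (p.length + 1) m ∩ S.OL (p.length + 1) m) with hRg
  have hRi : Inv (S.W p m) Rg := region_inv_l hmT hq
  have hRm : Measurable Rg :=
    measurable_one.indicator ((measurableSet_thru_l _ m).inter (measurableSet_OL _ m))
  set kt : ℝ := S.kap ^ S.th with hkt
  have hkt0 : 0 < kt := Real.rpow_pos_of_pos hk _
  have hkt1 : kt ≤ 1 := Real.rpow_le_one hk.le hk1 hth.le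
  -- one list
  have hone : ∀ u ∈ lsts S.cm n, S.GoodLs m c p u →
      ∫⁻ x, Rg x * S.xd (u ++ c :: p) m x ∂stdGaussian E ≤
        ENNReal.ofReal (C1l S.th * C2l S.th * ((n : ℝ) + 2) ^ 2 * S.mv.ph m *
          kt ^ (S.kr m + n)) * S.RwS p.length m := by
    intro u hu hgood
    have hun : u.length = n := (mem_lsts.1 hu).1
    rw [← H395.lintegral_mul_fib hRi hRm (xd_meas_l _)]
    unfold RwS
    rw [← lintegral_const_mul' _ _ ENNReal.ofReal_ne_top]
    refine lintegral_mono fun x => ?_
    simp only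
    by_cases hx : x ∈ S.thru (p.length + 1) m ∩ S.OL (p.length + 1) m
    · have h1 : S.nd m x (p.length + 1) = c :: p := by rw [← hq]; exact hx.1
      have h2 : S.nd m x p.length = p := by
        rw [nd_succ] at h1
        exact (List.cons.inj h1).2
      have h3 : S.kl p m x = c := by
        rw [nd_succ, h2] at h1
        exact (List.cons.inj h1).1
      have e1 : Rg x = 1 := by rw [hRg]; unfold iw; rw [indicator_of_mem hx]; rfl
      rw [e1, one_mul, h2]
      have e2 : iw (S.thru (p.length + 1) m ∩ S.OL (p.length + 1) m) x = 1 := e1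
      rw [e2, one_mul]
      have h4 := one_list hε hm hr hq u hgood x
      rw [hun] at h4
      have hY : S.Db p m x ≤ 1 := Dw_le_one p _ m x
      have hD : S.De p m x ≤ S.Db p m x := De_le_Db ⟨bs_le p m x, le_be p x hmT⟩
      have h5 := H837.Psi_le (s := 1 - S.th) hs (by linarith) hD hY
      have hkl : S.kl p m x ≠ 0 := by rw [h3]; exact hc0
      have e3 : S.psi p m x = S.Db p m x ^ (1 - S.th) := by unfold psi; rw [if_neg hkl]
      have e4 : S.sl p m x =
          ENNReal.ofReal (Real.sqrt (1 - Real.log (S.Db p m x).toReal)) := by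
        unfold sl; rw [if_neg hkl]
      have hgap := gap_l hmT u hgood
      rw [hun] at hgap
      have h6 : (S.kap ^ (Module.finrank ℝ (S.W (u ++ c :: p) m) -
          Module.finrank ℝ (S.W p m))) ^ S.th ≤ kt ^ (S.kr m + n) := by
        have e5 : (S.kap ^ (Module.finrank ℝ (S.W (u ++ c :: p) m) -
            Module.finrank ℝ (S.W p m))) ^ S.th =
            kt ^ (Module.finrank ℝ (S.W (u ++ c :: p) m) - Module.finrank ℝ (S.W p m)) := by
          rw [hkt, ← Real.rpow_natCast, ← Real.rpow_mul hk.le, mul_comm, Real.rpow_mul hk.le,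
            Real.rpow_natCast]
        rw [e5]
        refine pow_le_pow_of_le_one hkt0.le hkt1 ?_
        unfold kr
        rw [hq]
        exact hgap
      rw [e3, e4]
      refine h4.trans ?_
      calc ENNReal.ofReal (20 / (1 - S.th) * (2 * Real.exp (8 / S.th ^ 2)) ^ S.th *
            ((n : ℝ) + 2) ^ 2 * S.mv.ph m *
            (S.kap ^ (Module.finrank ℝ (S.W (u ++ c :: p) m) -
              Module.finrank ℝ (S.W p m))) ^ S.th) *
            (S.As S.th p m x * H837.Psi (1 - S.th) (2 * S.De p m x))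
          ≤ ENNReal.ofReal (C1l S.th * ((n : ℝ) + 2) ^ 2 * S.mv.ph m * kt ^ (S.kr m + n)) *
            (S.As S.th p m x * (ENNReal.ofReal (C2l S.th) * (S.Db p m x ^ (1 - S.th) *
              ENNReal.ofReal (Real.sqrt (1 - Real.log (S.Db p m x).toReal))))) := by
            refine mul_le_mul' (ENNReal.ofReal_le_ofReal ?_) (mul_le_mul' le_rfl h5)
            have h7 : 0 ≤ C1l S.th * ((n : ℝ) + 2) ^ 2 * S.mv.ph m := by positivity
            exact mul_le_mul_of_nonneg_left h6 h7
        _ = _ := by
            have h8 : 0 ≤ C1l S.th * ((n : ℝ) + 2) ^ 2 * S.mv.ph m * kt ^ (S.kr m + n) := by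
              positivity
            have e20 : ENNReal.ofReal (C1l S.th * C2l S.th * ((n : ℝ) + 2) ^ 2 * S.mv.ph m *
                kt ^ (S.kr m + n)) = ENNReal.ofReal (C1l S.th * ((n : ℝ) + 2) ^ 2 * S.mv.ph m *
                kt ^ (S.kr m + n)) * ENNReal.ofReal (C2l S.th) := by
              rw [← ENNReal.ofReal_mul h8]
              congr 1
              ring
            rw [e20]
            ring
    · have e1 : Rg x = 0 := by rw [hRg]; unfold iw; rw [indicator_of_notMem hx]
      rw [e1, zero_mul]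
      exact zero_le
  -- sum over the lists
  classical
  have hsum : S.thq (p.length + 1) (p.length + 1 + n) m ≤
      ∑ u ∈ lsts S.cm n, ENNReal.ofReal (C1l S.th * C2l S.th * ((n : ℝ) + 2) ^ 2 * S.mv.ph m *
          kt ^ (S.kr m + n)) * S.RwS p.length m := by
    calc S.thq (p.length + 1) (p.length + 1 + n) m
        ≤ ∫⁻ x, ∑ u ∈ lsts S.cm n, Rg x * (if S.GoodLs m c p u then S.xd (u ++ c :: p) m x else 0)
          ∂stdGaussian E := by
          unfold thq
          refine lintegral_mono fun x => ?_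
          simp only
          by_cases hx : x ∈ S.thru (p.length + 1) m ∩ S.OL (p.length + 1) m ∩
              S.alj (p.length + 1) (p.length + 1 + n) m
          · have h1 : S.nd m x (p.length + 1) = c :: p := by rw [← hq]; exact hx.1.1
            obtain ⟨u, hu, hgood, hnd⟩ := exists_list h1 (n := n)
              (fun k h2 h3 => (hx.2 k h2 h3).2)
            have e1 : Rg x = 1 := by rw [hRg]; unfold iw; rw [indicator_of_mem hx.1]; rfl
            have e2 : iw (S.thru (p.length + 1) m ∩ S.OL (p.length + 1) m ∩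
                S.alj (p.length + 1) (p.length + 1 + n) m) x = 1 := by
              unfold iw; rw [indicator_of_mem hx]; rfl
            rw [e2, one_mul, hnd]
            refine le_trans (le_of_eq ?_) (Finset.single_le_sum
              (f := fun u => Rg x * (if S.GoodLs m c p u then S.xd (u ++ c :: p) m x else 0))
              (fun _ _ => zero_le) hu)
            rw [e1, one_mul, if_pos hgood]
          · have e2 : iw (S.thru (p.length + 1) m ∩ S.OL (p.length + 1) m ∩
                S.alj (p.length + 1) (p.length + 1 + n) m) x = 0 := by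
              unfold iw; rw [indicator_of_notMem hx]
            rw [e2, zero_mul]
            exact zero_le
      _ = ∑ u ∈ lsts S.cm n, ∫⁻ x, Rg x *
          (if S.GoodLs m c p u then S.xd (u ++ c :: p) m x else 0) ∂stdGaussian E := by
          refine lintegral_finsetSum _ fun u _ => ?_
          refine hRm.mul ?_
          by_cases h : S.GoodLs m c p u
          · simp only [h, if_true]; exact xd_meas_l _
          · simp only [h, if_false]; exact measurable_const
      _ ≤ _ := by
          refine Finset.sum_le_sum fun u hu => ?_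
          by_cases h : S.GoodLs m c p u
          · simp only [h, if_true]; exact hone u hu h
          · simp only [h, if_false, mul_zero, lintegral_zero]; exact zero_le
  rw [Finset.sum_const, card_lsts, nsmul_eq_mul] at hsum
  refine hsum.trans ?_
  have hRwS := S.RwS_le (j := p.length) hm
  have e9 : p.length + 1 + n - (p.length + 1) = n := by omega
  rw [e9]
  have h10 : (((S.cm + 1) ^ n : ℕ) : ℝ≥0∞) = ENNReal.ofReal (((S.cm : ℝ) + 1) ^ n) := by
    rw [← ENNReal.ofReal_natCast]
    push_cast
    rfl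
  rw [h10]
  have h11 : ((n : ℝ) + 2) ^ 2 ≤ 4 * 4 ^ n := by
    have h12 : ∀ k : ℕ, ((k : ℝ) + 2) ≤ 2 * 2 ^ k := by
      intro k
      induction k with
      | zero => norm_num
      | succ k ih =>
        push_cast
        rw [pow_succ]
        have h13 : (1 : ℝ) ≤ 2 ^ k := one_le_pow₀ (by norm_num)
        linarith
    have h14 := h12 n
    calc ((n : ℝ) + 2) ^ 2 ≤ (2 * 2 ^ n) ^ 2 := by gcongr
      _ = 4 * 4 ^ n := by
          rw [mul_pow, ← pow_mul, mul_comm n 2, pow_mul]
          norm_num
  have h15 : ((S.cm : ℝ) + 1) ^ n * (C1l S.th * C2l S.th * ((n : ℝ) + 2) ^ 2 * S.mv.ph m *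
      kt ^ (S.kr m + n)) * 2 ≤ 8 * C1l S.th * C2l S.th * S.mv.ph m *
        (4 * (S.cm + 1) * kt) ^ (S.kr m + n) := by
    have h16 : (4 * ((S.cm : ℝ) + 1)) ^ n ≤ (4 * ((S.cm : ℝ) + 1)) ^ (S.kr m + n) := by
      refine pow_le_pow_right₀ ?_ (by omega)
      have : (0 : ℝ) ≤ S.cm := Nat.cast_nonneg _
      linarith
    have h17 : 0 ≤ C1l S.th * C2l S.th * S.mv.ph m * kt ^ (S.kr m + n) := by positivity
    calc ((S.cm : ℝ) + 1) ^ n * (C1l S.th * C2l S.th * ((n : ℝ) + 2) ^ 2 * S.mv.ph m *
          kt ^ (S.kr m + n)) * 2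
        = (C1l S.th * C2l S.th * S.mv.ph m * kt ^ (S.kr m + n)) *
          (2 * (((S.cm : ℝ) + 1) ^ n * ((n : ℝ) + 2) ^ 2)) := by ring
      _ ≤ (C1l S.th * C2l S.th * S.mv.ph m * kt ^ (S.kr m + n)) *
          (2 * (((S.cm : ℝ) + 1) ^ n * (4 * 4 ^ n))) := by gcongr
      _ = (C1l S.th * C2l S.th * S.mv.ph m * kt ^ (S.kr m + n)) *
          (8 * (4 * ((S.cm : ℝ) + 1)) ^ n) := by rw [mul_pow]; ring
      _ ≤ (C1l S.th * C2l S.th * S.mv.ph m * kt ^ (S.kr m + n)) *
          (8 * (4 * ((S.cm : ℝ) + 1)) ^ (S.kr m + n)) := by gcongr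
      _ = _ := by rw [mul_pow (4 * ((S.cm : ℝ) + 1)) kt]; ring
  calc ENNReal.ofReal (((S.cm : ℝ) + 1) ^ n) * (ENNReal.ofReal (C1l S.th * C2l S.th *
        ((n : ℝ) + 2) ^ 2 * S.mv.ph m * kt ^ (S.kr m + n)) * S.RwS p.length m)
      ≤ ENNReal.ofReal (((S.cm : ℝ) + 1) ^ n) * (ENNReal.ofReal (C1l S.th * C2l S.th *
        ((n : ℝ) + 2) ^ 2 * S.mv.ph m * kt ^ (S.kr m + n)) * (2 * S.Rw p.length m)) := by
        gcongr
    _ = ENNReal.ofReal (((S.cm : ℝ) + 1) ^ n * (C1l S.th * C2l S.th *
        ((n : ℝ) + 2) ^ 2 * S.mv.ph m * kt ^ (S.kr m + n)) * 2) * S.Rw p.length m := by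
        have h18 : 0 ≤ ((S.cm : ℝ) + 1) ^ n := by positivity
        have h19 : 0 ≤ ((S.cm : ℝ) + 1) ^ n * (C1l S.th * C2l S.th *
          ((n : ℝ) + 2) ^ 2 * S.mv.ph m * kt ^ (S.kr m + n)) := by positivity
        have h20 : (2 : ℝ≥0∞) = ENNReal.ofReal 2 := by simp
        rw [h20, ENNReal.ofReal_mul h19, ENNReal.ofReal_mul h18]
        ring
    _ ≤ _ := by
        gcongr

end Vale.Agent.P262.M2.Sys
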